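import Mathlib

/-!
The norm central sequence algebra `F_ω(A) = A_ω ∩ A'` of a unital C*-algebra: the bounded
sequences modulo those tending to zero in norm along the ultrafilter, and inside this quotient
the centraliser of the constant sequences.
-/

open Filter Topology
open scoped ENNReal

namespace Vale.Agent.P101

noncomputable section

variable (A : Type*) [CStarAlgebra A] [Nontrivial A] (ω : Ultrafilter ℕ)

/-- Bounded sequences in `A`, with the supremum norm. -/
@[implicit_reducible] def BddSeq : Type _ := ↥(lp (fun _ : ℕ => A) ∞)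

instance : NormedRing (BddSeq A) := (inferInstance : NormedRing ↥(lp (fun _ : ℕ => A) ∞))
instance : NormedAlgebra ℂ (BddSeq A) :=
  (inferInstance : NormedAlgebra ℂ ↥(lp (fun _ : ℕ => A) ∞))
instance : StarRing (BddSeq A) := (inferInstance : StarRing ↥(lp (fun _ : ℕ => A) ∞))
instance : StarModule ℂ (BddSeq A) := (inferInstance : StarModule ℂ ↥(lp (fun _ : ℕ => A) ∞))
instance : CompleteSpace (BddSeq A) := (inferInstance : CompleteSpace ↥(lp (fun _ : ℕ => A) ∞))
instance : CoeFun (BddSeq A) fun _ => ℕ → A := ⟨fun a => a.1⟩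

set_option synthInstance.maxHeartbeats 100000

variable {A} in
theorem BddSeq.norm_apply_le (a : BddSeq A) (n : ℕ) : ‖a n‖ ≤ ‖a‖ :=
  lp.norm_apply_le_norm ENNReal.top_ne_zero a n

variable {A} in
theorem BddSeq.norm_le {a : BddSeq A} {C : ℝ} (hC : 0 ≤ C) (h : ∀ n, ‖a n‖ ≤ C) : ‖a‖ ≤ C :=
  lp.norm_le_of_forall_le hC h

variable {A} in
/-- A bounded function as a sequence. -/
def BddSeq.mk (f : ℕ → A) (C : ℝ) (h : ∀ n, ‖f n‖ ≤ C) : BddSeq A :=
  ⟨f, memℓp_infty ⟨C, by rintro _ ⟨n, rfl⟩; exact h n⟩⟩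

set_option linter.unusedSectionVars false in
variable {A} in
@[simp] theorem BddSeq.mk_apply (f : ℕ → A) (C : ℝ) (h) (n : ℕ) : BddSeq.mk f C h n = f n := rfl
@[simp] theorem BddSeq.zero_apply (n : ℕ) : (0 : BddSeq A) n = 0 := rfl
@[simp] theorem BddSeq.one_apply (n : ℕ) : (1 : BddSeq A) n = 1 := rfl

/-- A sequence tends to zero in norm along `ω`. -/
def IsNull (a : BddSeq A) : Prop := Tendsto (fun n => ‖a n‖) ω (𝓝 0)

set_option linter.unusedSectionVars false in
theorem isNull_zero : IsNull A ω 0 := by simp [IsNull]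

theorem isNull_add {a b : BddSeq A} (ha : IsNull A ω a) (hb : IsNull A ω b) :
    IsNull A ω (a + b) :=
  squeeze_zero (fun _ => norm_nonneg _) (fun n => norm_add_le (a n) (b n))
    (by simpa using Tendsto.add ha hb)

theorem isNull_mul_left (c : BddSeq A) {a : BddSeq A} (ha : IsNull A ω a) :
    IsNull A ω (c * a) :=
  squeeze_zero (fun _ => norm_nonneg _)
    (fun n => (norm_mul_le (c n) (a n)).trans
      (mul_le_mul_of_nonneg_right (BddSeq.norm_apply_le c n) (norm_nonneg _)))
    (by simpa using Tendsto.const_mul ‖c‖ ha)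

/-- Sequences tending to zero in norm along `ω`. -/
def nullSeq : Ideal (BddSeq A) where
  carrier := {a | IsNull A ω a}
  zero_mem' := isNull_zero A ω
  add_mem' := isNull_add A ω
  smul_mem' c _ ha := isNull_mul_left A ω c ha

instance : (nullSeq A ω).IsTwoSided :=
  ⟨fun {a} c ha => squeeze_zero (fun _ => norm_nonneg _)
    (fun n => (norm_mul_le (a n) (c n)).trans
      (mul_le_mul_of_nonneg_left (BddSeq.norm_apply_le c n) (norm_nonneg _)))
    (by simpa using Tendsto.mul_const ‖c‖ ha)⟩

instance : IsClosed (nullSeq A ω : Set (BddSeq A)) := by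
  refine isClosed_of_closure_subset fun a ha => ?_
  show Tendsto (fun n => ‖a n‖) ω (𝓝 0)
  refine Metric.tendsto_nhds.2 fun ε hε => ?_
  obtain ⟨b, hb, hab⟩ := Metric.mem_closure_iff.1 ha (ε / 2) (half_pos hε)
  filter_upwards [Metric.tendsto_nhds.1 hb (ε / 2) (half_pos hε)] with n hn
  have h : ‖a n - b n‖ ≤ dist a b :=
    (BddSeq.norm_apply_le (a - b) n).trans_eq (dist_eq_norm a b).symm
  rw [Real.dist_0_eq_abs, abs_norm] at hn ⊢
  linarith [norm_le_norm_add_norm_sub' (a n) (b n)]

/-- The ultrapower `A_ω`. -/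
abbrev Ultrapower : Type _ := BddSeq A ⧸ nullSeq A ω

variable {A}

/-- The class of a bounded sequence. -/
abbrev qmk : BddSeq A →+* Ultrapower A ω := Ideal.Quotient.mk (nullSeq A ω)

theorem qmk_eq_iff {a b : BddSeq A} :
    qmk ω a = qmk ω b ↔ Tendsto (fun n => ‖a n - b n‖) ω (𝓝 0) := Ideal.Quotient.eq

/-- The norm of a class is the limit of the norms. -/
theorem tendsto_norm_qmk (a : BddSeq A) : Tendsto (fun n => ‖a n‖) ω (𝓝 ‖qmk ω a‖) := by
  classical
  obtain ⟨L, -, hL'⟩ := (isCompact_Icc (a := 0) (b := ‖a‖)).ultrafilter_le_nhds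
    (ω.map fun n => ‖a n‖) (by
      rw [le_principal_iff]
      exact show ∀ᶠ n in (ω : Filter ℕ), ‖a n‖ ∈ Set.Icc 0 ‖a‖ from Eventually.of_forall fun n =>
        (⟨norm_nonneg _, BddSeq.norm_apply_le a n⟩ : _ ∈ Set.Icc _ _))
  have hL : Tendsto (fun n => ‖a n‖) ω (𝓝 L) := hL'
  suffices ‖qmk ω a‖ = L by rwa [this]
  refine le_antisymm (le_of_forall_pos_le_add fun ε hε => ?_)
    (le_of_forall_pos_le_add fun ε hε => ?_)
  · set b : BddSeq A := BddSeq.mk (fun n => if L + ε < ‖a n‖ then 0 else a n) ‖a‖ (fun n => by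
      split_ifs
      · simp
      · exact BddSeq.norm_apply_le a n) with hb
    have hab : qmk ω a = qmk ω b := by
      refine (qmk_eq_iff ω).2 ?_
      refine tendsto_const_nhds.congr' ?_
      filter_upwards [hL.eventually_le_const (lt_add_of_pos_right L hε)] with n hn
      rw [hb, BddSeq.mk_apply, if_neg (not_lt.2 hn)]; simp
    rw [hab]
    refine (Submodule.Quotient.norm_mk_le _ b).trans (BddSeq.norm_le ?_ fun n => ?_)
    · linarith [le_of_tendsto_of_tendsto' tendsto_const_nhds hL fun n => norm_nonneg (a n)]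
    · show ‖(if L + ε < ‖a n‖ then 0 else a n)‖ ≤ L + ε
      split_ifs with h
      · simp; linarith [le_of_tendsto_of_tendsto' tendsto_const_nhds hL fun n => norm_nonneg (a n)]
      · exact not_lt.1 h
  · obtain ⟨b, hb, hlt⟩ := Submodule.Quotient.norm_mk_lt (S := nullSeq A ω) (qmk ω a) hε
    have h1 : qmk ω b = qmk ω a := hb
    have h0 := (qmk_eq_iff ω).1 h1.symm
    refine (le_of_tendsto_of_tendsto' hL (h0.const_add ‖b‖) fun n => ?_).trans (by linarith)
    exact (norm_le_norm_add_norm_sub' (a n) (b n)).trans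
      (add_le_add (BddSeq.norm_apply_le b n) le_rfl)

instance : NormedRing (Ultrapower A ω) :=
  { Submodule.Quotient.normedAddCommGroup (nullSeq A ω), Ideal.Quotient.ring (nullSeq A ω) with
    dist_eq := dist_eq_norm_neg_add
    norm_mul_le := fun x y => by
      obtain ⟨a, rfl⟩ := Ideal.Quotient.mk_surjective x
      obtain ⟨b, rfl⟩ := Ideal.Quotient.mk_surjective y
      exact le_of_tendsto_of_tendsto' (tendsto_norm_qmk ω (a * b))
        ((tendsto_norm_qmk ω a).mul (tendsto_norm_qmk ω b)) fun n => norm_mul_le (a n) (b n) }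

instance : NormedAlgebra ℂ (Ultrapower A ω) :=
  { Ideal.Quotient.algebra ℂ with
    norm_smul_le := fun r x => by
      obtain ⟨a, rfl⟩ := Ideal.Quotient.mk_surjective x
      exact le_of_tendsto_of_tendsto' (tendsto_norm_qmk ω (r • a))
        ((tendsto_norm_qmk ω a).const_mul ‖r‖) fun n => norm_smul_le r (a n) }

instance : Star (Ultrapower A ω) :=
  ⟨fun x => Quotient.liftOn' x (fun a => qmk ω (star a)) fun a b h => by
    rw [Submodule.quotientRel_def] at h
    refine Ideal.Quotient.eq.2 (show Tendsto (fun n => ‖star (a n) - star (b n)‖) ω (𝓝 0) from ?_)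
    simp only [← star_sub, norm_star]
    exact h⟩

theorem star_qmk (a : BddSeq A) : star (qmk ω a) = qmk ω (star a) := rfl

instance : StarRing (Ultrapower A ω) where
  star_involutive x := by
    obtain ⟨a, rfl⟩ := Ideal.Quotient.mk_surjective x
    rw [star_qmk, star_qmk, star_star]
  star_mul x y := by
    obtain ⟨a, rfl⟩ := Ideal.Quotient.mk_surjective x
    obtain ⟨b, rfl⟩ := Ideal.Quotient.mk_surjective y
    simp only [← map_mul, star_qmk, star_mul]
  star_add x y := by
    obtain ⟨a, rfl⟩ := Ideal.Quotient.mk_surjective x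
    obtain ⟨b, rfl⟩ := Ideal.Quotient.mk_surjective y
    simp only [← map_add, star_qmk, star_add]

instance : CStarRing (Ultrapower A ω) where
  norm_mul_self_le x := by
    obtain ⟨a, rfl⟩ := Ideal.Quotient.mk_surjective x
    rw [star_qmk, ← map_mul]
    exact le_of_tendsto_of_tendsto' ((tendsto_norm_qmk ω a).mul (tendsto_norm_qmk ω a))
      (tendsto_norm_qmk ω (star a * a)) fun n => CStarRing.norm_mul_self_le (a n)

instance : StarModule ℂ (Ultrapower A ω) where
  star_smul r x := by
    obtain ⟨a, rfl⟩ := Ideal.Quotient.mk_surjective x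
    show qmk ω (star (r • a)) = qmk ω (star r • star a)
    rw [star_smul]

instance : CStarAlgebra (Ultrapower A ω) where

/-- A constant sequence. -/
def constSeq (a : A) : BddSeq A :=
  BddSeq.mk (fun _ => a) ‖a‖ fun _ => le_rfl

variable (A)

/-- The central sequence algebra `F_ω(A)`: the centraliser of the constant sequences. -/
abbrev CentralSeq : Type _ :=
  ↥(StarSubalgebra.centralizer ℂ (Set.range fun a : A => qmk ω (constSeq a)))

instance : IsClosed
    (StarSubalgebra.centralizer ℂ (Set.range fun a : A => qmk ω (constSeq a)) :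
      Set (Ultrapower A ω)) := by
  rw [StarSubalgebra.coe_centralizer]
  exact Set.isClosed_centralizer _

instance : Nontrivial (Ultrapower A ω) :=
  ⟨1, 0, fun h => one_ne_zero (α := ℝ) (tendsto_nhds_unique (f := fun n => ‖(1 : BddSeq A) n‖)
    (l := (ω : Filter ℕ)) (by simp) (by
      have := tendsto_norm_qmk ω (1 : BddSeq A)
      rwa [map_one, h, norm_zero] at this))⟩

end

end Vale.Agent.P101
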