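import Mathlib

/-! Shared definitions for P101. -/

open scoped Kronecker

namespace Vale.Agent.P101

/-- Continuous functions from the unit interval to `M_p ⊗ M_q`, realised as matrices over
`Fin p × Fin q`. -/
abbrev DimDropFun (p q : ℕ) : Type :=
  C(unitInterval, Matrix (Fin p × Fin q) (Fin p × Fin q) ℂ)

/-- The endpoint conditions: `f 0` lies in `M_p ⊗ 1` and `f 1` lies in `1 ⊗ M_q`. -/
def dimDropSet (p q : ℕ) : Set (DimDropFun p q) :=
  {f | (∃ x : Matrix (Fin p) (Fin p) ℂ, f 0 = x ⊗ₖ (1 : Matrix (Fin q) (Fin q) ℂ)) ∧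
    ∃ y : Matrix (Fin q) (Fin q) ℂ, f 1 = (1 : Matrix (Fin p) (Fin p) ℂ) ⊗ₖ y}

variable {p q : ℕ} {f g : DimDropFun p q}

theorem dimDropSet_mul (hf : f ∈ dimDropSet p q) (hg : g ∈ dimDropSet p q) :
    f * g ∈ dimDropSet p q := by
  obtain ⟨⟨x, hx⟩, y, hy⟩ := hf
  obtain ⟨⟨x', hx'⟩, y', hy'⟩ := hg
  exact ⟨⟨x * x', by rw [ContinuousMap.mul_apply, hx, hx', ← Matrix.mul_kronecker_mul, one_mul]⟩,
    y * y', by rw [ContinuousMap.mul_apply, hy, hy', ← Matrix.mul_kronecker_mul, one_mul]⟩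

theorem dimDropSet_one : (1 : DimDropFun p q) ∈ dimDropSet p q := ⟨⟨1, by simp⟩, 1, by simp⟩

theorem dimDropSet_add (hf : f ∈ dimDropSet p q) (hg : g ∈ dimDropSet p q) :
    f + g ∈ dimDropSet p q := by
  obtain ⟨⟨x, hx⟩, y, hy⟩ := hf
  obtain ⟨⟨x', hx'⟩, y', hy'⟩ := hg
  exact ⟨⟨x + x', by rw [ContinuousMap.add_apply, hx, hx', Matrix.add_kronecker]⟩,
    y + y', by rw [ContinuousMap.add_apply, hy, hy', Matrix.kronecker_add]⟩

theorem dimDropSet_zero : (0 : DimDropFun p q) ∈ dimDropSet p q := ⟨⟨0, by simp⟩, 0, by simp⟩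

theorem dimDropSet_algebraMap (r : ℂ) :
    algebraMap ℂ (DimDropFun p q) r ∈ dimDropSet p q :=
  ⟨⟨algebraMap ℂ _ r, by simp [Algebra.algebraMap_eq_smul_one, Matrix.smul_kronecker]⟩,
    algebraMap ℂ _ r, by simp [Algebra.algebraMap_eq_smul_one, Matrix.kronecker_smul]⟩

theorem dimDropSet_star (hf : f ∈ dimDropSet p q) : star f ∈ dimDropSet p q := by
  obtain ⟨⟨x, hx⟩, y, hy⟩ := hf
  refine ⟨⟨star x, ?_⟩, star y, ?_⟩
  · rw [ContinuousMap.star_apply, hx]
    simp [Matrix.star_eq_conjTranspose, Matrix.conjTranspose_kronecker]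
  · rw [ContinuousMap.star_apply, hy]
    simp [Matrix.star_eq_conjTranspose, Matrix.conjTranspose_kronecker]

/-- The dimension drop algebra: continuous functions `f` from the unit interval to
`M_p ⊗ M_q` (realised as matrices over `Fin p × Fin q`) such that `f 0` lies in `M_p ⊗ 1`
and `f 1` lies in `1 ⊗ M_q`. -/
noncomputable def dimDrop (p q : ℕ) : StarSubalgebra ℂ (DimDropFun p q) where
  carrier := dimDropSet p q
  mul_mem' := dimDropSet_mul
  one_mem' := dimDropSet_one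
  add_mem' := dimDropSet_add
  zero_mem' := dimDropSet_zero
  algebraMap_mem' := dimDropSet_algebraMap
  star_mem' := dimDropSet_star

/-- Re-indexing: every separable closed unital *-subalgebra has a copy commuting with a
prescribed countable set. -/
def Reindex (F : Type*) [CStarAlgebra F] : Prop :=
  ∀ D : StarSubalgebra ℂ F, IsClosed (D : Set F) → TopologicalSpace.IsSeparable (D : Set F) →
    ∀ T : Set F, T.Countable →
      ∃ θ : D →⋆ₐ[ℂ] F, ∀ d, ∀ t ∈ T, Commute (θ d) t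

/-- A unital C*-algebra is an inductive limit of prime dimension drop algebras: it has an
increasing sequence of unital *-subalgebras with dense union, each *-isomorphic to some
`dimDrop p q` with `p, q ≥ 2` coprime. -/
def IsPrimeDimDropLimit (B : Type*) [CStarAlgebra B] : Prop :=
  ∃ S : ℕ → StarSubalgebra ℂ B, Monotone S ∧ Dense (⋃ n, (S n : Set B)) ∧
    ∀ n, ∃ p q : ℕ, 2 ≤ p ∧ 2 ≤ q ∧ Nat.Coprime p q ∧ Nonempty (dimDrop p q ≃⋆ₐ[ℂ] S n)

end Vale.Agent.P101
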