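import Mathlib
import Vale.Agent.P101.Defs
import Vale.Agent.P101.CentralSeq

/-! The notions in which the main theorem is stated. -/

namespace Vale.Agent.P101

noncomputable section

variable (A : Type*) [CStarAlgebra A] [Nontrivial A] (ω : Ultrafilter ℕ)

/-- The semiring structure of `F_ω(A)` (a shortcut). -/
instance (priority := 10000) centralSemiring : Semiring (CentralSeq A ω) :=
  SubsemiringClass.toSemiring _

/-- The algebra structure of `F_ω(A)` (a shortcut). -/
instance (priority := 10000) centralAlgebra : Algebra ℂ (CentralSeq A ω) :=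
  StarSubalgebra.algebra _

/-- The dimension drop algebra as a type. -/
abbrev DimDropAlg (p q : ℕ) : Type := ↥(dimDrop p q)

/-- The semiring structure of a dimension drop algebra (a shortcut). -/
instance (priority := 10000) dimDropSemiring (p q : ℕ) : Semiring (DimDropAlg p q) :=
  SubsemiringClass.toSemiring _

/-- The algebra structure of a dimension drop algebra (a shortcut). -/
instance (priority := 10000) dimDropAlgebra (p q : ℕ) : Algebra ℂ (DimDropAlg p q) :=
  StarSubalgebra.algebra _

/-- The involution of `F_ω(A)` (a shortcut). -/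
instance (priority := 10000) centralStar : Star (CentralSeq A ω) := StarMemClass.instStar _

/-- The involution of a dimension drop algebra (a shortcut). -/
instance (priority := 10000) dimDropStar (p q : ℕ) : Star (DimDropAlg p q) := StarMemClass.instStar _

/-- `F_ω(A)` has no characters. -/
def NoCharacter : Prop := IsEmpty (CentralSeq A ω →⋆ₐ[ℂ] ℂ)

/-- `dimDrop p q` maps into `F_ω(A)` by a unital *-homomorphism. -/
def DimDropMaps (p q : ℕ) : Prop := Nonempty (DimDropAlg p q →⋆ₐ[ℂ] CentralSeq A ω)

/-- `B` maps into `F_ω(A)` by a unital *-homomorphism. -/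
def MapsUnitally (B : Type*) [CStarAlgebra B] : Prop := Nonempty (B →⋆ₐ[ℂ] CentralSeq A ω)

/-- Unital *-homomorphisms from a dimension drop algebra. -/
abbrev DimDropHom (p q : ℕ) (B : Type*) [CStarAlgebra B] : Type _ := DimDropAlg p q →⋆ₐ[ℂ] B

/-- `s` is the image of an injective unital *-homomorphism from some `dimDrop p q` with coprime
`p, q ≥ 2`. -/
def IsDimDropImage (B : Type*) [CStarAlgebra B] (s : Set B) : Prop :=
  ∃ p q : ℕ, 2 ≤ p ∧ 2 ≤ q ∧ Nat.Coprime p q ∧
    ∃ e : DimDropHom p q B, Function.Injective e.toFun ∧ Set.range e.toFun = s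

/-- `B` is an inductive limit of prime dimension drop algebras: it is the closure of the union of
an increasing sequence of such images. -/
def IsDimDropLimit (B : Type*) [CStarAlgebra B] : Prop :=
  ∃ S : ℕ → Set B, (∀ n, IsDimDropImage B (S n) ∧ S n ⊆ S (n + 1)) ∧ Dense (⋃ n, S n)

variable {A ω}

lemma IsDimDropLimit.isPrimeDimDropLimit {B : Type*} [CStarAlgebra B] (h : IsDimDropLimit B) :
    IsPrimeDimDropLimit B := by
  obtain ⟨S, hS, hd⟩ := h
  choose p q hp hq hpq e he hr using fun n => (hS n).1
  have hr : ∀ n, Set.range (e n) = S n := hr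
  refine ⟨fun n => (e n).range, monotone_nat_of_le_succ fun n => ?_, ?_, fun n =>
    ⟨p n, q n, hp n, hq n, hpq n, ⟨StarAlgEquiv.ofInjective (e n) (he n)⟩⟩⟩
  · intro x hx
    have h1 : x ∈ Set.range (e n) := hx
    rw [hr n] at h1
    have h2 := (hS n).2 h1
    rw [← hr (n + 1)] at h2
    exact h2
  · have : ∀ n, ((e n).range : Set B) = S n := hr
    simpa only [this] using hd

end

end Vale.Agent.P101
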