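import Mathlib

/-!
Order zero systems of matrix units in a C*-algebra, and the join of two commuting systems.

A system is a self-adjoint linear map `φ` on matrices with `φ x * φ y = φ 1 * φ (x * y)`.
-/

set_option linter.unusedSectionVars false

open Finset
open scoped BigOperators Matrix Kronecker

namespace Vale.Agent.P101

variable {F : Type*} [Ring F] [StarRing F] [Algebra ℂ F] [StarModule ℂ F]
variable {ι κ : Type*} [Fintype ι] [DecidableEq ι] [Fintype κ] [DecidableEq κ]

/-- An order zero system. -/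
structure IsOZ (φ : Matrix ι ι ℂ →ₗ[ℂ] F) : Prop where
  star_map : ∀ x, star (φ x) = φ (star x)
  mul_map : ∀ x y, φ x * φ y = φ 1 * φ (x * y)

namespace IsOZ

variable {φ : Matrix ι ι ℂ →ₗ[ℂ] F}

lemma comm_unit (h : IsOZ φ) (x : Matrix ι ι ℂ) : Commute (φ 1) (φ x) := by
  show φ 1 * φ x = φ x * φ 1
  rw [h.mul_map x 1, mul_one]

lemma unit_sa (h : IsOZ φ) : IsSelfAdjoint (φ 1) := by
  show star (φ 1) = φ 1
  rw [h.star_map, star_one]

/-- Multiplication by a central self-adjoint element. -/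
lemma scale (h : IsOZ φ) {g : F} (hg : IsSelfAdjoint g) (hc : ∀ x, Commute g (φ x)) :
    IsOZ ((LinearMap.mulLeft ℂ g).comp φ) := by
  refine ⟨fun x => ?_, fun x y => ?_⟩
  · simp only [LinearMap.comp_apply, LinearMap.mulLeft_apply, star_mul, hg.star_eq, h.star_map]
    exact ((hc _).eq).symm
  · simp only [LinearMap.comp_apply, LinearMap.mulLeft_apply]
    rw [(hc x).symm.mul_mul_mul_comm, h.mul_map, (hc 1).symm.mul_mul_mul_comm]

end IsOZ

/-- The product of two systems. -/
noncomputable def pairMap (φ : Matrix ι ι ℂ →ₗ[ℂ] F) (ψ : Matrix κ κ ℂ →ₗ[ℂ] F) :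
    Matrix (ι × κ) (ι × κ) ℂ →ₗ[ℂ] F where
  toFun Z := ∑ p : ι × κ, ∑ q : ι × κ,
    Z p q • (φ (Matrix.single p.1 q.1 1) * ψ (Matrix.single p.2 q.2 1))
  map_add' Z Z' := by simp [add_smul, sum_add_distrib]
  map_smul' r Z := by simp [smul_sum, smul_smul]

lemma pairMap_single (φ : Matrix ι ι ℂ →ₗ[ℂ] F) (ψ : Matrix κ κ ℂ →ₗ[ℂ] F) (p q : ι × κ)
    (z : ℂ) : pairMap φ ψ (Matrix.single p q z) =
      z • (φ (Matrix.single p.1 q.1 1) * ψ (Matrix.single p.2 q.2 1)) := by
  show ∑ a : ι × κ, ∑ b : ι × κ, _ = _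
  rw [Finset.sum_eq_single p, Finset.sum_eq_single q]
  · simp
  · intro b _ hb; simp [Matrix.single, Ne.symm hb]
  · simp
  · intro b _ hb; simp [Matrix.single, Ne.symm hb]
  · simp

lemma map_sum_single (φ : Matrix ι ι ℂ →ₗ[ℂ] F) (x : Matrix ι ι ℂ) :
    φ x = ∑ i, ∑ l, x i l • φ (Matrix.single i l 1) := by
  conv_lhs => rw [Matrix.matrix_eq_sum_single x]
  simp only [map_sum]
  refine sum_congr rfl fun i _ => sum_congr rfl fun l _ => ?_
  rw [← map_smul, Matrix.smul_single, smul_eq_mul, mul_one]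

lemma pairMap_kron (φ : Matrix ι ι ℂ →ₗ[ℂ] F) (ψ : Matrix κ κ ℂ →ₗ[ℂ] F)
    (x : Matrix ι ι ℂ) (y : Matrix κ κ ℂ) : pairMap φ ψ (x ⊗ₖ y) = φ x * ψ y := by
  show ∑ a : ι × κ, ∑ b : ι × κ, _ = _
  rw [map_sum_single φ x, map_sum_single ψ y, sum_mul, Fintype.sum_prod_type]
  refine sum_congr rfl fun i _ => ?_
  simp only [mul_sum, sum_mul, Fintype.sum_prod_type, Matrix.kroneckerMap_apply, smul_mul_smul_comm]
  refine sum_congr rfl fun j _ => ?_
  rw [sum_comm]

lemma pairMap_one_right (φ : Matrix ι ι ℂ →ₗ[ℂ] F) (ψ : Matrix κ κ ℂ →ₗ[ℂ] F)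
    (x : Matrix ι ι ℂ) : pairMap φ ψ (x ⊗ₖ 1) = φ x * ψ 1 := pairMap_kron φ ψ x 1

section Pair

variable {φ : Matrix ι ι ℂ →ₗ[ℂ] F} {ψ : Matrix κ κ ℂ →ₗ[ℂ] F}
  (hφ : IsOZ φ) (hψ : IsOZ ψ) (hc : ∀ x y, Commute (φ x) (ψ y))

include hφ hc in
lemma left_mul_pairMap (x : Matrix ι ι ℂ) (Z : Matrix (ι × κ) (ι × κ) ℂ) :
    φ x * pairMap φ ψ Z = φ 1 * pairMap φ ψ ((x ⊗ₖ (1 : Matrix κ κ ℂ)) * Z) := by
  induction Z using Matrix.induction_on' with
  | h_zero => simp
  | h_add A B hA hB => simp [mul_add, hA, hB]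
  | h_std_basis p q z =>
    have e : Matrix.single p q z = z • (Matrix.single p.1 q.1 (1:ℂ) ⊗ₖ Matrix.single p.2 q.2 1) := by
      rw [Matrix.single_kronecker_single, Matrix.smul_single]
      simp
    rw [e, Matrix.mul_smul, ← Matrix.mul_kronecker_mul, Matrix.one_mul, map_smul, map_smul,
      pairMap_kron, pairMap_kron, mul_smul_comm, mul_smul_comm, ← mul_assoc, ← mul_assoc,
      hφ.mul_map]

include hφ hc in
lemma pairMap_mul_left (x : Matrix ι ι ℂ) (Z : Matrix (ι × κ) (ι × κ) ℂ) :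
    pairMap φ ψ Z * φ x = φ 1 * pairMap φ ψ (Z * (x ⊗ₖ (1 : Matrix κ κ ℂ))) := by
  induction Z using Matrix.induction_on' with
  | h_zero => simp
  | h_add A B hA hB => simp [add_mul, mul_add, hA, hB]
  | h_std_basis p q z =>
    have e : Matrix.single p q z = z • (Matrix.single p.1 q.1 (1:ℂ) ⊗ₖ Matrix.single p.2 q.2 1) := by
      rw [Matrix.single_kronecker_single, Matrix.smul_single]
      simp
    rw [e, Matrix.smul_mul, ← Matrix.mul_kronecker_mul, Matrix.mul_one, map_smul, map_smul,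
      pairMap_kron, pairMap_kron, smul_mul_assoc, mul_smul_comm, mul_assoc, ← (hc _ _).eq,
      ← mul_assoc, ← mul_assoc, hφ.mul_map]

include hψ hc in
lemma right_mul_pairMap (y : Matrix κ κ ℂ) (Z : Matrix (ι × κ) (ι × κ) ℂ) :
    ψ y * pairMap φ ψ Z = ψ 1 * pairMap φ ψ (((1 : Matrix ι ι ℂ) ⊗ₖ y) * Z) := by
  induction Z using Matrix.induction_on' with
  | h_zero => simp
  | h_add A B hA hB => simp [mul_add, hA, hB]
  | h_std_basis p q z =>
    have e : Matrix.single p q z = z • (Matrix.single p.1 q.1 (1:ℂ) ⊗ₖ Matrix.single p.2 q.2 1) := by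
      rw [Matrix.single_kronecker_single, Matrix.smul_single]
      simp
    rw [e, Matrix.mul_smul, ← Matrix.mul_kronecker_mul, Matrix.one_mul, map_smul, map_smul,
      pairMap_kron, pairMap_kron, mul_smul_comm, mul_smul_comm]
    congr 1
    rw [(hc _ _).symm.left_comm, (hc _ _).symm.left_comm, hψ.mul_map]

include hψ hc in
lemma pairMap_mul_right (y : Matrix κ κ ℂ) (Z : Matrix (ι × κ) (ι × κ) ℂ) :
    pairMap φ ψ Z * ψ y = ψ 1 * pairMap φ ψ (Z * ((1 : Matrix ι ι ℂ) ⊗ₖ y)) := by
  induction Z using Matrix.induction_on' with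
  | h_zero => simp
  | h_add A B hA hB => simp [add_mul, mul_add, hA, hB]
  | h_std_basis p q z =>
    have e : Matrix.single p q z = z • (Matrix.single p.1 q.1 (1:ℂ) ⊗ₖ Matrix.single p.2 q.2 1) := by
      rw [Matrix.single_kronecker_single, Matrix.smul_single]
      simp
    rw [e, Matrix.smul_mul, ← Matrix.mul_kronecker_mul, Matrix.mul_one, map_smul, map_smul,
      pairMap_kron, pairMap_kron, smul_mul_assoc, mul_smul_comm]
    congr 1
    rw [mul_assoc, hψ.mul_map, (hc _ _).symm.left_comm]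

include hc in
lemma commute_pairMap {g : F} (h1 : ∀ x, Commute g (φ x)) (h2 : ∀ y, Commute g (ψ y))
    (Z : Matrix (ι × κ) (ι × κ) ℂ) : Commute g (pairMap φ ψ Z) := by
  refine Commute.sum_right _ _ _ fun p _ => Commute.sum_right _ _ _ fun q _ => ?_
  exact ((h1 _).mul_right (h2 _)).smul_right _

include hφ hψ hc

/-- The product of commuting systems is a system. -/
theorem isOZ_pairMap : IsOZ (pairMap φ ψ) := by
  refine ⟨fun Z => ?_, fun Z Z' => ?_⟩
  · induction Z using Matrix.induction_on' with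
    | h_zero => simp
    | h_add A B hA hB => simp [star_add, hA, hB]
    | h_std_basis p q z =>
      rw [pairMap_single, star_smul, star_mul, hφ.star_map, hψ.star_map, Matrix.star_eq_conjTranspose,
        Matrix.star_eq_conjTranspose, Matrix.star_eq_conjTranspose, Matrix.conjTranspose_single,
        Matrix.conjTranspose_single, Matrix.conjTranspose_single, pairMap_single, star_one,
        (hc _ _).eq]
  · induction Z using Matrix.induction_on' with
    | h_zero => simp
    | h_add A B hA hB => simp [add_mul, mul_add, hA, hB]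
    | h_std_basis p q z =>
      have e : Matrix.single p q z
          = z • (Matrix.single p.1 q.1 (1:ℂ) ⊗ₖ Matrix.single p.2 q.2 1) := by
        rw [Matrix.single_kronecker_single, Matrix.smul_single]
        simp
      rw [e, Matrix.smul_mul, map_smul, map_smul, pairMap_kron, smul_mul_assoc, mul_smul_comm]
      congr 1
      have e2 : (Matrix.single p.1 q.1 (1:ℂ) ⊗ₖ Matrix.single p.2 q.2 (1:ℂ))
          = (Matrix.single p.1 q.1 (1:ℂ) ⊗ₖ (1 : Matrix κ κ ℂ))
            * ((1 : Matrix ι ι ℂ) ⊗ₖ Matrix.single p.2 q.2 (1:ℂ)) := by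
        rw [← Matrix.mul_kronecker_mul, Matrix.mul_one, Matrix.one_mul]
      rw [mul_assoc, right_mul_pairMap hψ hc, (hc _ _).left_comm, left_mul_pairMap hφ hc,
        e2, Matrix.mul_assoc, ← Matrix.one_kronecker_one, pairMap_kron, (hc _ _).eq, mul_assoc]

end Pair

/-- The exchange matrix. -/
def flipMat : Matrix (ι × ι) (ι × ι) ℂ :=
  Matrix.of fun p q => if q = p.swap then 1 else 0

omit [Fintype ι] in
lemma flipMat_apply (p q : ι × ι) :
    (flipMat : Matrix (ι × ι) (ι × ι) ℂ) p q = if q = p.swap then 1 else 0 := rfl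

lemma flipMat_sq : (flipMat : Matrix (ι × ι) (ι × ι) ℂ) * flipMat = 1 := by
  ext p q
  rw [Matrix.mul_apply, Finset.sum_eq_single p.swap]
  · simp [flipMat_apply, Matrix.one_apply, eq_comm]
  · intro b _ hb; simp [flipMat_apply, hb]
  · simp

lemma flipMat_conj (x : Matrix ι ι ℂ) :
    (flipMat : Matrix (ι × ι) (ι × ι) ℂ) * (x ⊗ₖ (1 : Matrix ι ι ℂ)) * flipMat
      = (1 : Matrix ι ι ℂ) ⊗ₖ x := by
  ext p q
  rw [Matrix.mul_apply, Finset.sum_eq_single q.swap]
  · rw [Matrix.mul_apply, Finset.sum_eq_single p.swap]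
    · simp [flipMat_apply, Matrix.one_apply, mul_comm]
    · intro b _ hb; simp [flipMat_apply, hb]
    · simp
  · intro b _ hb
    have : ¬ q = b.swap := fun h => hb (by simp [h])
    simp [flipMat_apply, this]
  · simp

omit [Fintype ι] in
lemma flipMat_star : star (flipMat : Matrix (ι × ι) (ι × ι) ℂ) = flipMat := by
  ext p q
  simp only [Matrix.star_apply, flipMat_apply, apply_ite (star : ℂ → ℂ), star_one, star_zero]
  refine if_congr ?_ rfl rfl
  constructor <;> rintro rfl <;> simp

/-- The commutator with the exchange matrix. -/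
noncomputable def flipComm : Matrix ι ι ℂ →ₗ[ℂ] Matrix (ι × ι) (ι × ι) ℂ where
  toFun x := flipMat * (x ⊗ₖ (1 : Matrix ι ι ℂ)) - (x ⊗ₖ (1 : Matrix ι ι ℂ)) * flipMat
  map_add' x y := by simp [Matrix.add_kronecker, mul_add, add_mul]; abel
  map_smul' r x := by simp [Matrix.smul_kronecker, smul_sub]

lemma flipComm_apply (x : Matrix ι ι ℂ) : flipComm x =
    flipMat * (x ⊗ₖ (1 : Matrix ι ι ℂ)) - (x ⊗ₖ (1 : Matrix ι ι ℂ)) * flipMat := rfl

lemma flipComm_one : flipComm (1 : Matrix ι ι ℂ) = 0 := by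
  rw [flipComm_apply, Matrix.one_kronecker_one, mul_one, one_mul, sub_self]

/-- Ring identities behind the join. -/
lemma flip_ring {R : Type*} [Ring R] (f X Y : R) (hf : f * f = 1) :
    X * (f * Y - Y * f) + (f * X - X * f) * Y = f * (X * Y) - X * Y * f ∧
    (f * X * f) * (f * Y - Y * f) + (f * X - X * f) * (f * Y * f) = f * (X * Y) - X * Y * f ∧
    X * (f * Y * f) + (f * X * f) * Y - (f * X - X * f) * (f * Y - Y * f)
      = f * (X * Y) * f + X * Y := by
  have h : ∀ z : R, f * (f * z) = z := fun z => by rw [← mul_assoc, hf, one_mul]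
  refine ⟨?_, ?_, ?_⟩
  · simp only [mul_sub, sub_mul, mul_assoc]; abel
  · simp only [mul_sub, sub_mul, mul_assoc, h]; abel
  · simp only [mul_sub, sub_mul, mul_assoc, h]; abel

/-- The join of two commuting systems. -/
noncomputable def join (a b : Matrix ι ι ℂ →ₗ[ℂ] F) (D : F) : Matrix ι ι ℂ →ₗ[ℂ] F :=
  (LinearMap.mulLeft ℂ (a 1)).comp a + (LinearMap.mulLeft ℂ (D * D * b 1)).comp b
    + (LinearMap.mulLeft ℂ (Complex.I • D)).comp ((pairMap a b).comp flipComm)

lemma join_apply (a b : Matrix ι ι ℂ →ₗ[ℂ] F) (D : F) (x : Matrix ι ι ℂ) :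
    join a b D x = a 1 * a x + D * D * b 1 * b x
      + (Complex.I • D) * pairMap a b (flipComm x) := rfl

lemma join_one (a b : Matrix ι ι ℂ →ₗ[ℂ] F) (D : F) :
    join a b D 1 = a 1 * a 1 + D * D * b 1 * b 1 := by
  rw [join_apply, flipComm_one]; simp

omit [StarRing F] [StarModule ℂ F] in
lemma coef_mul {c u c' v : F} (h : Commute u c') :
    (c * u) * (c' * v) = (c * c') * (u * v) := h.mul_mul_mul_comm c v

/-- The join of two commuting systems is a system. -/
theorem isOZ_join {a b : Matrix ι ι ℂ →ₗ[ℂ] F} (ha : IsOZ a) (hb : IsOZ b)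
    (hc : ∀ x y, Commute (a x) (b y)) {D : F} (hD : IsSelfAdjoint D)
    (hDa : ∀ x, Commute D (a x)) (hDb : ∀ x, Commute D (b x)) :
    IsOZ (join a b D) := by
  set A := a 1 with hA
  set B := b 1 with hB
  set Θ := pairMap a b with hΘ
  set J := Complex.I • D with hJ
  have hΘs := isOZ_pairMap ha hb hc
  have cAB : Commute A B := hc 1 1
  have cDA : Commute D A := hDa 1
  have cDB : Commute D B := hDb 1
  have cAθ : ∀ Z, Commute A (Θ Z) := commute_pairMap hc ha.comm_unit (hc 1)
  have cBθ : ∀ Z, Commute B (Θ Z) := commute_pairMap hc (fun x => (hc x 1).symm) hb.comm_unit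
  have cDθ : ∀ Z, Commute D (Θ Z) := commute_pairMap hc hDa hDb
  set C := D * D * B with hC
  have cCa : ∀ x, Commute C (a x) := fun x =>
    ((hDa x).mul_left (hDa x)).mul_left (hc x 1).symm
  have cCb : ∀ x, Commute C (b x) := fun x => ((hDb x).mul_left (hDb x)).mul_left (hb.comm_unit x)
  have cCθ : ∀ Z, Commute C (Θ Z) := fun Z => ((cDθ Z).mul_left (cDθ Z)).mul_left (cBθ Z)
  have cJa : ∀ x, Commute J (a x) := fun x => (hDa x).smul_left _
  have cJb : ∀ x, Commute J (b x) := fun x => (hDb x).smul_left _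
  have cJθ : ∀ Z, Commute J (Θ Z) := fun Z => (cDθ Z).smul_left _
  have cAC : Commute A C := (cDA.symm.mul_right cDA.symm).mul_right cAB
  have cAJ : Commute A J := cDA.symm.smul_right _
  have cCJ : Commute C J :=
    (((Commute.refl D).mul_left (Commute.refl D)).mul_left cDB.symm).smul_right _
  refine ⟨fun x => ?_, fun x y => ?_⟩
  · simp only [join_apply, star_add, star_mul, hJ, star_smul, hD.star_eq, ha.unit_sa.star_eq,
      hb.unit_sa.star_eq, ha.star_map, hb.star_map, hΘs.star_map, ← hA, ← hB, ← hΘ]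
    have sA : star A = A := ha.unit_sa.star_eq
    have sB : star B = B := hb.unit_sa.star_eq
    have sΘ : star (Θ (flipComm x)) = Θ (star (flipComm x)) := hΘs.star_map _
    rw [sA, sB, sΘ]
    have hs : star (flipComm x) = - flipComm (star x) := by
      simp only [flipComm_apply, star_sub, star_mul, flipMat_star]
      simp only [Matrix.star_eq_conjTranspose, Matrix.conjTranspose_kronecker,
        Matrix.conjTranspose_one, neg_sub]
    have e2 : b (star x) * (B * (D * D)) = D * D * B * b (star x) := by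
      rw [← (((cDB.mul_left cDB).symm).eq.symm)]
      exact (cCb _).eq.symm
    rw [hs, map_neg, (ha.comm_unit _).eq, e2, neg_mul, mul_smul_comm, Complex.star_def,
      Complex.conj_I, neg_smul, neg_neg, smul_mul_assoc, (cDθ _).eq]
  · set P := x * y with hP
    have hf := flipMat_sq (ι := ι)
    obtain ⟨i1, i2, i3⟩ := flip_ring (flipMat : Matrix (ι × ι) (ι × ι) ℂ)
      (x ⊗ₖ (1 : Matrix ι ι ℂ)) (y ⊗ₖ (1 : Matrix ι ι ℂ)) hf
    rw [← Matrix.mul_kronecker_mul, Matrix.one_mul, ← flipComm_apply,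
      ← flipComm_apply, ← flipComm_apply] at i1
    rw [flipMat_conj, flipMat_conj, ← Matrix.mul_kronecker_mul, Matrix.one_mul, ← flipComm_apply,
      ← flipComm_apply, ← flipComm_apply] at i2
    simp only [flipMat_conj, ← Matrix.mul_kronecker_mul, Matrix.one_mul, Matrix.mul_one,
      ← flipComm_apply, ← hP] at i3
    -- the nine products
    have t11 : (A * a x) * (A * a y) = (A * A) * (A * a P) := by
      rw [coef_mul (ha.comm_unit x).symm, ha.mul_map x y]
    have t22 : (C * b x) * (C * b y) = (C * C) * (B * b P) := by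
      rw [coef_mul (cCb x).symm, hb.mul_map x y]
    have t12 : (A * a x) * (C * b y) + (C * b x) * (A * a y)
        = (A * C) * (Θ (x ⊗ₖ y) + Θ (y.map id ⊗ₖ x - y ⊗ₖ x + y ⊗ₖ x)) := by
      have e : Θ (y.map id ⊗ₖ x - y ⊗ₖ x + y ⊗ₖ x) = a y * b x := by
        rw [sub_add_cancel, hΘ, Matrix.map_id, pairMap_kron]
      rw [coef_mul (cCa x).symm, coef_mul (hc 1 x).symm, e, ← cAC.eq, ← (hc y x).eq, hΘ,
        pairMap_kron, mul_add]
    have t13 : (A * a x) * (J * Θ (flipComm y)) + (J * Θ (flipComm x)) * (A * a y)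
        = (A * J) * (A * Θ (flipComm P)) := by
      rw [coef_mul (cJa x).symm, coef_mul (cAθ _).symm, ← cAJ.eq, hΘ,
        left_mul_pairMap ha hc, pairMap_mul_left ha hc, ← hΘ, ← mul_add, ← mul_add, ← map_add,
        i1]
    have t23 : (C * b x) * (J * Θ (flipComm y)) + (J * Θ (flipComm x)) * (C * b y)
        = (C * J) * (B * Θ (flipComm P)) := by
      rw [coef_mul (cJb x).symm, coef_mul (cCθ _).symm, ← cCJ.eq, hΘ,
        right_mul_pairMap hb hc, pairMap_mul_right hb hc, ← hΘ, ← mul_add, ← mul_add, ← map_add,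
        i2]
    have t33 : (J * Θ (flipComm x)) * (J * Θ (flipComm y))
        = - (D * D * (A * B) * Θ (flipComm x * flipComm y)) := by
      have e : Θ 1 = A * B := by
        rw [hΘ, ← Matrix.one_kronecker_one, pairMap_kron]
      rw [coef_mul (cJθ _).symm, hΘs.mul_map, e, hJ, smul_mul_smul_comm, Complex.I_mul_I,
        neg_one_smul, neg_mul, mul_assoc (D * D)]
    have hsplit : join a b D x * join a b D y =
        (A * a x) * (A * a y) + (C * b x) * (C * b y)
        + ((A * a x) * (C * b y) + (C * b x) * (A * a y))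
        + ((A * a x) * (J * Θ (flipComm y)) + (J * Θ (flipComm x)) * (A * a y))
        + ((C * b x) * (J * Θ (flipComm y)) + (J * Θ (flipComm x)) * (C * b y))
        + (J * Θ (flipComm x)) * (J * Θ (flipComm y)) := by
      simp only [join_apply, ← hA, ← hB, ← hC, ← hJ, ← hΘ, mul_add, add_mul]
      abel
    rw [hsplit, t11, t22, t12, t13, t23, t33]
    have hAC : A * C = D * D * (A * B) := by
      rw [hC, ← mul_assoc A, (cDA.mul_left cDA).symm.eq, mul_assoc]
    have hcross : (A * C) * (Θ (x ⊗ₖ y) + Θ (y.map id ⊗ₖ x - y ⊗ₖ x + y ⊗ₖ x))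
        - D * D * (A * B) * Θ (flipComm x * flipComm y)
        = (A * C) * (B * a P) + (A * C) * (A * b P) := by
      rw [hAC, ← mul_sub, ← map_add, ← map_sub, sub_add_cancel, Matrix.map_id, i3, map_add, hΘ,
        pairMap_kron, pairMap_kron, mul_add, ← hA, ← hB, ← (hc P 1).eq, add_comm]
    rw [join_one, join_apply, ← hA, ← hB, ← hC, ← hJ, ← hΘ]
    have hrhs : (A * A + C * B) * (A * a P + C * b P + J * Θ (flipComm P))
        = (A * A) * (A * a P) + (C * C) * (B * b P) + ((A * C) * (B * a P) + (A * C) * (A * b P))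
          + (A * J) * (A * Θ (flipComm P)) + (C * J) * (B * Θ (flipComm P)) := by
      have e1 : C * B * (A * a P) = A * C * (B * a P) := by
        simp only [mul_assoc]
        rw [cAB.symm.left_comm, ← cAC.left_comm]
      have e2 : A * A * (C * b P) = A * C * (A * b P) := by
        simp only [mul_assoc]
        rw [cAC.left_comm]
      have e3 : A * A * (J * Θ (flipComm P)) = A * J * (A * Θ (flipComm P)) := by
        simp only [mul_assoc]
        rw [cAJ.left_comm]
      have e4 : C * B * (J * Θ (flipComm P)) = C * J * (B * Θ (flipComm P)) := by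
        simp only [mul_assoc]
        rw [(cDB.symm.smul_right Complex.I).left_comm]
      have e5 : C * B * (C * b P) = C * C * (B * b P) := by
        simp only [mul_assoc]
        rw [((cDB.symm.mul_right cDB.symm).mul_right (Commute.refl B)).left_comm]
      simp only [mul_add, add_mul, e1, e2, e3, e4, e5]
      abel
    rw [hrhs, ← hcross]
    abel

end Vale.Agent.P101
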