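import Mathlib
import Vale.Agent.P101.OZ

/-!
Elementary C*-algebra facts: intertwining of functional calculus, rows, normalisation of full
elements, exact factorisation, closed ideals and ordered products of commuting families.
-/

set_option linter.unusedSectionVars false

open Finset Filter Topology
open scoped BigOperators CStarAlgebra

namespace Vale.Agent.P101

section Intertwine

variable {F : Type*} [CStarAlgebra F]

/-- Functional calculus respects intertwiners. -/
theorem cfc_intertwine {H c w : F} (hH : IsSelfAdjoint H) (hc : IsSelfAdjoint c)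
    (hw : H * w = w * c) (f : ℝ → ℝ) (hf : Continuous f) :
    cfc f H * w = w * cfc f c := by
  have hpow : ∀ p : Polynomial ℝ, Polynomial.aeval H p * w = w * Polynomial.aeval c p := by
    intro p
    induction p using Polynomial.induction_on' with
    | add p q hp hq => simp [add_mul, mul_add, hp, hq]
    | monomial n r =>
      simp only [Polynomial.aeval_monomial, Algebra.algebraMap_eq_smul_one, smul_mul_assoc, one_mul,
        mul_smul_comm]
      congr 1
      induction n with
      | zero => simp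
      | succ n ih => rw [pow_succ, pow_succ, mul_assoc, hw, ← mul_assoc, ih, mul_assoc]
  rcases subsingleton_or_nontrivial F with h | h
  · exact Subsingleton.elim _ _
  refine eq_of_forall_dist_le fun ε hε => ?_
  set R := max ‖H‖ ‖c‖
  obtain ⟨p, hp⟩ := exists_polynomial_near_of_continuousOn (-R) R f hf.continuousOn
    (ε / (2 * ‖w‖ + 1)) (by positivity)
  have key : ∀ x : F, IsSelfAdjoint x → ‖x‖ ≤ R →
      ‖cfc f x - Polynomial.aeval x p‖ ≤ ε / (2 * ‖w‖ + 1) := by
    intro x hx hxR
    rw [← cfc_polynomial p x, ← cfc_sub f _ x hf.continuousOn p.continuous.continuousOn]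
    refine norm_cfc_le (by positivity) fun t ht => ?_
    have h1 := spectrum.norm_le_norm_of_mem ht
    rw [Real.norm_eq_abs] at h1 ⊢
    rw [abs_sub_comm]
    exact (hp t (by rw [Set.mem_Icc]; exact abs_le.1 (h1.trans hxR))).le
  have e1 := key H hH (le_max_left _ _)
  have e2 := key c hc (le_max_right _ _)
  rw [dist_eq_norm]
  have e3 : cfc f H * w - w * cfc f c
      = (cfc f H - Polynomial.aeval H p) * w - w * (cfc f c - Polynomial.aeval c p) := by
    rw [sub_mul, mul_sub, hpow]; abel
  rw [e3]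
  calc _ ≤ ‖(cfc f H - Polynomial.aeval H p) * w‖ + ‖w * (cfc f c - Polynomial.aeval c p)‖ :=
        norm_sub_le _ _
    _ ≤ ε / (2 * ‖w‖ + 1) * ‖w‖ + ‖w‖ * (ε / (2 * ‖w‖ + 1)) := by
        gcongr
        · exact (norm_mul_le _ _).trans (by gcongr)
        · exact (norm_mul_le _ _).trans (by gcongr)
    _ = ε * ((2 * ‖w‖) / (2 * ‖w‖ + 1)) := by ring
    _ ≤ ε * 1 := by
        gcongr
        rw [div_le_one (by positivity)]
        linarith
    _ = ε := mul_one ε

end Intertwine

section Rows

variable {F : Type*} [Ring F] [StarRing F] [Algebra ℂ F] [StarModule ℂ F]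
variable {ι : Type*} [Fintype ι] [DecidableEq ι]

/-- A row: orthogonal elements with a common square. -/
def IsRow (w : ι → F) (c : F) : Prop :=
  ∀ i l, star (w i) * w l = if i = l then c else 0

/-- The system of a row. -/
noncomputable def ofRow (w : ι → F) : Matrix ι ι ℂ →ₗ[ℂ] F where
  toFun x := ∑ i, ∑ l, x i l • (w i * star (w l))
  map_add' x y := by simp [add_smul, sum_add_distrib]
  map_smul' r x := by simp [smul_sum, smul_smul]

lemma ofRow_apply (w : ι → F) (x : Matrix ι ι ℂ) :
    ofRow w x = ∑ i, ∑ l, x i l • (w i * star (w l)) := rfl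

lemma ofRow_single (w : ι → F) (i l : ι) :
    ofRow w (Matrix.single i l 1) = w i * star (w l) := by
  rw [ofRow_apply, Finset.sum_eq_single i, Finset.sum_eq_single l]
  · simp
  · intro b _ hb; simp [Matrix.single, Ne.symm hb]
  · simp
  · intro b _ hb; simp [Matrix.single, Ne.symm hb]
  · simp

lemma ofRow_one (w : ι → F) : ofRow w 1 = ∑ i, w i * star (w i) := by
  simp [ofRow_apply, Matrix.one_apply, ite_smul]

lemma ofRow_mul_row {w : ι → F} {c : F} (h : IsRow w c) (x : Matrix ι ι ℂ) (p : ι) :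
    ofRow w x * w p = ∑ i, x i p • (w i * c) := by
  simp only [ofRow_apply, sum_mul, smul_mul_assoc, mul_assoc, h _ _, mul_ite, mul_zero, smul_ite,
    smul_zero, Finset.sum_ite_eq', mem_univ, if_true]

lemma unit_mul_row {w : ι → F} {c : F} (h : IsRow w c) (p : ι) :
    ofRow w 1 * w p = w p * c := by
  simp [ofRow_mul_row h, Matrix.one_apply, ite_smul]

/-- A row gives a system. -/
theorem isOZ_ofRow {w : ι → F} {c : F} (h : IsRow w c) : IsOZ (ofRow w) := by
  refine ⟨fun x => ?_, fun x y => ?_⟩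
  · rw [ofRow_apply, ofRow_apply, star_sum, sum_comm]
    simp [star_sum, Matrix.star_apply]
  · rw [ofRow_apply w y, mul_sum, ofRow_apply w (x * y), mul_sum]
    simp only [mul_sum, mul_smul_comm, ← mul_assoc, unit_mul_row h]
    simp only [ofRow_mul_row h, sum_mul, smul_sum, smul_mul_assoc, smul_smul, Matrix.mul_apply,
      sum_smul]
    calc ∑ i, ∑ l, ∑ j, (y i l * x j i) • (w j * c * star (w l))
        = ∑ i, ∑ j, ∑ l, (y i l * x j i) • (w j * c * star (w l)) :=
          sum_congr rfl fun i _ => sum_comm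
      _ = ∑ j, ∑ i, ∑ l, (y i l * x j i) • (w j * c * star (w l)) := sum_comm
      _ = ∑ j, ∑ l, ∑ i, (x j i * y i l) • (w j * c * star (w l)) := by
          refine sum_congr rfl fun j _ => ?_
          rw [sum_comm]
          simp [mul_comm]

end Rows

section Order

variable {F : Type*} [CStarAlgebra F] [PartialOrder F] [StarOrderedRing F]

lemma sum_star_mul_sum_le {ι : Type*} (s : Finset ι) (y : ι → F) :
    star (∑ i ∈ s, y i) * (∑ i ∈ s, y i) ≤ (s.card : ℕ) • ∑ i ∈ s, star (y i) * y i := by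
  have h : 0 ≤ ∑ i ∈ s, ∑ l ∈ s, star (y i - y l) * (y i - y l) :=
    sum_nonneg fun i _ => sum_nonneg fun l _ => star_mul_self_nonneg _
  have e : ∑ i ∈ s, ∑ l ∈ s, star (y i - y l) * (y i - y l)
      = ((s.card : ℕ) • (∑ i ∈ s, star (y i) * y i) - star (∑ i ∈ s, y i) * (∑ i ∈ s, y i))
        + ((s.card : ℕ) • (∑ i ∈ s, star (y i) * y i)
          - star (∑ i ∈ s, y i) * (∑ i ∈ s, y i)) := by
    simp only [star_sub, sub_mul, mul_sub, sum_sub_distrib, sum_const, smul_sum, ← sum_mul,
      ← mul_sum, star_sum]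
    abel
  rw [e, ← two_smul ℝ] at h
  have h' := smul_nonneg (by norm_num : (0:ℝ) ≤ 1 / 2) h
  rw [smul_smul] at h'
  norm_num at h'
  rw [nsmul_eq_mul, star_sum]
  exact h'

/-- An element bounded below is normalised to one. -/
lemma exists_normalize {S : F} {δ : ℝ} (hδ : 0 < δ) (hS : algebraMap ℝ F δ ≤ S) :
    ∃ r : F, IsSelfAdjoint r ∧ r * S * r = 1 := by
  have h0 : 0 ≤ S := (algebraMap_nonneg F hδ.le).trans hS
  have hsa : IsSelfAdjoint S := .of_nonneg h0
  have hspec : ∀ t ∈ spectrum ℝ S, δ ≤ t := (algebraMap_le_iff_le_spectrum (a := S)).1 hS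
  refine ⟨cfc (fun t => (Real.sqrt (max t δ))⁻¹) S, IsSelfAdjoint.cfc, ?_⟩
  have hcont : Continuous fun t : ℝ => (Real.sqrt (max t δ))⁻¹ :=
    (by fun_prop : Continuous fun t : ℝ => Real.sqrt (max t δ)).inv₀ fun t =>
      (Real.sqrt_pos.2 (lt_max_of_lt_right hδ)).ne'
  conv_lhs => enter [1, 2]; rw [← cfc_id' ℝ S]
  rw [← cfc_mul _ _ S hcont.continuousOn, ← cfc_mul _ _ S (by fun_prop) hcont.continuousOn]
  rw [← cfc_one ℝ S]
  refine cfc_congr fun t ht => ?_
  have h := hspec t ht
  have h' : 0 < t := hδ.trans_le h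
  simp only [max_eq_left h, Pi.one_apply]
  field_simp
  rw [Real.sq_sqrt h'.le]

/-- An element generating the algebra as an ideal gives an exact sum. -/
lemma exists_sum_eq_one {n : ℕ} (a b : Fin n → F) (v : F) (h : ∑ i, a i * v * b i = 1) :
    ∃ b' : Fin n → F, ∑ i, star (b' i) * (star v * v) * b' i = 1 := by
  rcases subsingleton_or_nontrivial F with hF | hF
  · exact ⟨b, Subsingleton.elim _ _⟩
  set C : ℝ := 1 + ∑ i, ‖star (a i) * a i‖
  have hC : 0 < C := add_pos_of_pos_of_nonneg one_pos (sum_nonneg fun _ _ => norm_nonneg _)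
  set S := ∑ i, star (b i) * (star v * v) * b i with hS
  have h1 : (1 : F) ≤ ((n : ℝ) * C) • S := by
    have h2 := sum_star_mul_sum_le univ fun i => a i * v * b i
    simp only [h, star_one, mul_one, card_univ, Fintype.card_fin] at h2
    refine h2.trans ?_
    rw [mul_smul, Nat.cast_smul_eq_nsmul]
    refine nsmul_le_nsmul_right ?_ n
    rw [hS, smul_sum]
    refine sum_le_sum fun i _ => ?_
    have hle : star (a i) * a i ≤ algebraMap ℝ F C := by
      refine (IsSelfAdjoint.star_mul_self _).le_algebraMap_norm_self.trans (algebraMap_mono F ?_)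
      have := single_le_sum (fun l _ => norm_nonneg (star (a l) * a l)) (mem_univ i)
      exact this.trans (le_add_of_nonneg_left zero_le_one)
    have := star_left_conjugate_le_conjugate hle (v * b i)
    simpa [star_mul, mul_assoc, Algebra.algebraMap_eq_smul_one, smul_mul_assoc, mul_smul_comm]
      using this
  have hn : 0 < (n : ℝ) * C := by
    refine mul_pos ?_ hC
    rcases Nat.eq_zero_or_pos n with rfl | hn
    · simp at h
    · exact_mod_cast hn
  have h2 : algebraMap ℝ F ((n : ℝ) * C)⁻¹ ≤ S := by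
    have := smul_le_smul_of_nonneg_left h1 (inv_pos.2 hn).le
    rwa [smul_smul, inv_mul_cancel₀ hn.ne', one_smul, ← Algebra.algebraMap_eq_smul_one] at this
  obtain ⟨r, hr, hrS⟩ := exists_normalize (inv_pos.2 hn) h2
  refine ⟨fun i => b i * r, ?_⟩
  rw [← hrS, hS, mul_sum, sum_mul]
  simp [hr.star_eq, mul_assoc]

/-- Exact sums survive small perturbations. -/
lemma exists_sum_eq_one_perturb {n : ℕ} (b : Fin n → F) {c c' : F} (hc' : IsSelfAdjoint c')
    (h : ∑ i, star (b i) * c * b i = 1) (hsmall : (∑ i, ‖b i‖ ^ 2) * ‖c - c'‖ ≤ 1 / 2) :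
    ∃ b' : Fin n → F, ∑ i, star (b' i) * c' * b' i = 1 := by
  rcases subsingleton_or_nontrivial F with hF | hF
  · exact ⟨b, Subsingleton.elim _ _⟩
  set S := ∑ i, star (b i) * c' * b i with hS
  have hSs : IsSelfAdjoint S := isSelfAdjoint_sum _ fun i _ => hc'.conjugate' (b i)
  have hn : ‖1 - S‖ ≤ 1 / 2 := by
    rw [← h, hS, ← sum_sub_distrib]
    refine (norm_sum_le _ _).trans (le_trans (le_of_le_of_eq
      (sum_le_sum (g := fun i => ‖b i‖ ^ 2 * ‖c - c'‖) fun i _ => ?_) ?_) hsmall)
    · rw [← sub_mul, ← mul_sub]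
      refine (norm_mul_le _ _).trans
        ((mul_le_mul_of_nonneg_right (norm_mul_le _ _) (norm_nonneg _)).trans (le_of_eq ?_))
      rw [norm_star]
      ring
    · rw [sum_mul]
  have hle : algebraMap ℝ F (1 / 2) ≤ S := by
    have h1 : (1 - S) ≤ algebraMap ℝ F (1 / 2) :=
      (((IsSelfAdjoint.one F).sub hSs).le_algebraMap_norm_self).trans (algebraMap_mono F hn)
    have h2 : algebraMap ℝ F (1 / 2) + algebraMap ℝ F (1 / 2) = 1 := by
      rw [← map_add]; norm_num
    have h3 : (1 : F) - algebraMap ℝ F (1 / 2) = algebraMap ℝ F (1 / 2) := by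
      rw [sub_eq_iff_eq_add, h2]
    rw [← h3]
    exact sub_le_comm.1 h1
  obtain ⟨r, hr, hrS⟩ := exists_normalize (by norm_num) hle
  refine ⟨fun i => b i * r, ?_⟩
  rw [← hrS, hS, mul_sum, sum_mul]
  simp [hr.star_eq, mul_assoc]

lemma norm_conj_le {X M : F} (k : ℝ → ℝ) (hk : Continuous k) (hX : IsSelfAdjoint X)
    (hM : 0 ≤ M) (hle : X * X ≤ M) {c : ℝ} (hc : 0 ≤ c)
    (hb : ∀ t, 0 ≤ t → k t * t * k t ≤ c) :
    ‖X * cfc (fun t => k t * k t) M * X‖ ≤ c := by
  rcases subsingleton_or_nontrivial F with hF | hF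
  · simp [Subsingleton.elim (X * cfc (fun t => k t * k t) M * X) 0, hc]
  set z := cfc k M with hz
  have hzs : IsSelfAdjoint z := IsSelfAdjoint.cfc
  have e : X * cfc (fun t => k t * k t) M * X = star (z * X) * (z * X) := by
    rw [cfc_mul k k M hk.continuousOn hk.continuousOn, star_mul, hzs.star_eq, hX.star_eq]
    simp [mul_assoc, ← hz]
  rw [e, CStarRing.norm_star_mul_self, ← CStarRing.norm_self_mul_star, star_mul, hzs.star_eq,
    hX.star_eq]
  have h1 : z * (X * X) * z ≤ z * M * z := hzs.conjugate_le_conjugate hle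
  have h2 : 0 ≤ z * (X * X) * z := hzs.conjugate_nonneg hX.mul_self_nonneg
  refine (le_of_eq (by simp [mul_assoc])).trans
    ((CStarAlgebra.norm_le_norm_of_nonneg_of_le h2 h1).trans ?_)
  have hsa : IsSelfAdjoint M := .of_nonneg hM
  conv_lhs => rw [hz]; enter [1, 1, 2]; rw [← cfc_id' ℝ M]
  rw [← cfc_mul _ _ M hk.continuousOn, ← cfc_mul _ _ M (by fun_prop) hk.continuousOn]
  refine norm_cfc_le hc fun t ht => ?_
  have ht0 : 0 ≤ t := spectrum_nonneg_of_nonneg hM ht
  rw [Real.norm_eq_abs, abs_of_nonneg (by nlinarith [mul_nonneg ht0 (mul_self_nonneg (k t))])]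
  exact hb t ht0

/-- Exact factorisation of a smaller square. -/
theorem exists_exact {X s P : F} (hX : IsSelfAdjoint X) (hle : X * X ≤ star s * s)
    (hP : P * s = s) : ∃ s' : F, star s' * s' = X * X ∧ P * s' = s' := by
  set M := star s * s with hMd
  have hM : 0 ≤ M := star_mul_self_nonneg s
  have hsa : IsSelfAdjoint M := .of_nonneg hM
  set g : ℕ → ℝ → ℝ := fun n t => (Real.sqrt (max t 0 + 1 / ((n : ℝ) + 1)))⁻¹ with hg
  have hεp : ∀ n : ℕ, (0:ℝ) < 1 / ((n : ℝ) + 1) := fun n => by positivity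
  have hgc : ∀ n, Continuous (g n) := fun n =>
    (by fun_prop : Continuous fun t : ℝ => Real.sqrt (max t 0 + 1 / ((n : ℝ) + 1))).inv₀ fun t =>
      (Real.sqrt_pos.2 (add_pos_of_nonneg_of_pos (le_max_right _ _) (hεp n))).ne'
  have hgb : ∀ n t, 0 ≤ t → 0 ≤ Real.sqrt t - t * g n t ∧
      Real.sqrt t - t * g n t ≤ Real.sqrt (1 / ((n : ℝ) + 1)) ∧
      t * (g n t * g n t) = t / (t + 1 / ((n : ℝ) + 1)) := by
    intro n t ht
    set e := 1 / ((n : ℝ) + 1)
    have he : 0 < e := hεp n
    have hq : 0 < Real.sqrt (t + e) := Real.sqrt_pos.2 (by linarith)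
    have hs : Real.sqrt t * Real.sqrt t = t := Real.mul_self_sqrt ht
    have hqq : Real.sqrt (t + e) * Real.sqrt (t + e) = t + e := Real.mul_self_sqrt (by linarith)
    have hmono : Real.sqrt t ≤ Real.sqrt (t + e) := Real.sqrt_le_sqrt (by linarith)
    have hsub : Real.sqrt (t + e) ≤ Real.sqrt t + Real.sqrt e := by
      rw [Real.sqrt_le_iff]
      refine ⟨by positivity, ?_⟩
      nlinarith [Real.mul_self_sqrt he.le, mul_nonneg (Real.sqrt_nonneg t) (Real.sqrt_nonneg e)]
    simp only [hg, max_eq_left ht]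
    have e1 : Real.sqrt t - t * (Real.sqrt (t + e))⁻¹
        = Real.sqrt t / Real.sqrt (t + e) * (Real.sqrt (t + e) - Real.sqrt t) := by
      field_simp
      ring_nf
      rw [Real.sq_sqrt ht]
    have h1 : Real.sqrt t / Real.sqrt (t + e) ≤ 1 := (div_le_one hq).2 hmono
    have h2 : 0 ≤ Real.sqrt t / Real.sqrt (t + e) := div_nonneg (Real.sqrt_nonneg _) hq.le
    refine ⟨?_, ?_, ?_⟩
    · rw [e1]; exact mul_nonneg h2 (by linarith)
    · rw [e1]
      calc _ ≤ 1 * (Real.sqrt (t + e) - Real.sqrt t) :=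
            mul_le_mul_of_nonneg_right h1 (by linarith)
        _ ≤ _ := by linarith
    · rw [← mul_inv, hqq, div_eq_mul_inv]
  set y : ℕ → F := fun n => s * cfc (g n) M * X with hy
  have hyy : ∀ (k : ℝ → ℝ), Continuous k → ∀ z : F, z = s * cfc k M * X →
      star z * z = X * cfc (fun t => k t * t * k t) M * X := by
    intro k hk z hz
    have hks : IsSelfAdjoint (cfc k M) := IsSelfAdjoint.cfc
    rw [hz, cfc_mul (fun t => k t * t) k M (hk.mul continuous_id').continuousOn hk.continuousOn,
      cfc_mul k (fun t => t) M hk.continuousOn (continuousOn_id' _), cfc_id' ℝ M]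
    rw [star_mul, star_mul, hX.star_eq, hks.star_eq]
    simp only [hMd, mul_assoc]
  have hdiff : ∀ n m, ‖y n - y m‖ ≤
      Real.sqrt (1 / ((n : ℝ) + 1)) + Real.sqrt (1 / ((m : ℝ) + 1)) := by
    intro n m
    set E := Real.sqrt (1 / ((n : ℝ) + 1)) + Real.sqrt (1 / ((m : ℝ) + 1)) with hE
    have hE0 : 0 ≤ E := by positivity
    have hk : Continuous fun t => g n t - g m t := (hgc n).sub (hgc m)
    have e : y n - y m = s * cfc (fun t => g n t - g m t) M * X := by
      rw [cfc_sub _ _ M (hgc n).continuousOn (hgc m).continuousOn, mul_sub, sub_mul]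
    set kk : ℝ → ℝ := fun t => Real.sqrt (max t 0) * (g n t - g m t) with hkk
    have hkc : Continuous kk := (by fun_prop : Continuous fun t : ℝ => Real.sqrt (max t 0)).mul hk
    have e2 : cfc (fun t => (g n t - g m t) * t * (g n t - g m t)) M
        = cfc (fun t => kk t * kk t) M := by
      refine cfc_congr fun t ht => ?_
      have ht0 : 0 ≤ t := spectrum_nonneg_of_nonneg hM ht
      simp only [hkk, max_eq_left ht0]
      rw [mul_mul_mul_comm, Real.mul_self_sqrt ht0]
      ring
    have := norm_conj_le kk hkc hX hM hle (mul_nonneg hE0 hE0) (fun t ht => by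
      obtain ⟨a1, a2, -⟩ := hgb n t ht
      obtain ⟨b1, b2, -⟩ := hgb m t ht
      have e3 : kk t * t * kk t = (t * g n t - t * g m t) * (t * g n t - t * g m t) := by
        simp only [hkk, max_eq_left ht]
        calc Real.sqrt t * (g n t - g m t) * t * (Real.sqrt t * (g n t - g m t))
            = (Real.sqrt t * Real.sqrt t) * t * (g n t - g m t) * (g n t - g m t) := by ring
          _ = _ := by rw [Real.mul_self_sqrt ht]; ring
      rw [e3]
      have hs0 := Real.sqrt_nonneg (1 / ((n : ℝ) + 1))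
      have hs1 := Real.sqrt_nonneg (1 / ((m : ℝ) + 1))
      rw [← abs_mul_abs_self (t * g n t - t * g m t)]
      have hab : |t * g n t - t * g m t| ≤ E := abs_le.2 ⟨by linarith, by linarith⟩
      exact mul_le_mul hab hab (abs_nonneg _) hE0)
    rw [← e2, ← hyy _ hk _ e, CStarRing.norm_star_mul_self] at this
    exact nonneg_le_nonneg_of_sq_le_sq hE0 (by linarith)
  have hlim0 : Tendsto (fun n : ℕ => Real.sqrt (1 / ((n : ℝ) + 1))) atTop (𝓝 0) := by
    have := (Real.continuous_sqrt.tendsto 0).comp tendsto_one_div_add_atTop_nhds_zero_nat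
    rw [Real.sqrt_zero] at this
    exact this
  have hcau : CauchySeq y := by
    refine cauchySeq_of_le_tendsto_0 (fun N : ℕ => 2 * Real.sqrt (1 / ((N : ℝ) + 1)))
      (fun n m N hn hm => ?_) (by simpa using hlim0.const_mul (2 : ℝ))
    rw [dist_eq_norm]
    have aux : ∀ k : ℕ, N ≤ k →
        Real.sqrt (1 / ((k : ℝ) + 1)) ≤ Real.sqrt (1 / ((N : ℝ) + 1)) := fun k hk =>
      Real.sqrt_le_sqrt (by gcongr)
    linarith [hdiff n m, aux n hn, aux m hm]
  obtain ⟨s', hs'⟩ := cauchySeq_tendsto_of_complete hcau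
  refine ⟨s', tendsto_nhds_unique (hs'.star.mul hs') ?_, ?_⟩
  · refine tendsto_iff_norm_sub_tendsto_zero.2 (squeeze_zero (fun n => norm_nonneg _) (fun n => ?_)
      tendsto_one_div_add_atTop_nhds_zero_nat)
    set e := 1 / ((n : ℝ) + 1)
    have he : 0 < e := hεp n
    set kk : ℝ → ℝ := fun t => Real.sqrt (e / (max t 0 + e)) with hkk
    have hkc : Continuous kk := Real.continuous_sqrt.comp
      (continuous_const.div (by fun_prop) fun t =>
        (add_pos_of_nonneg_of_pos (le_max_right t 0) he).ne')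
    have e1 : star (y n) * y n - X * X = -(X * cfc (fun t => kk t * kk t) M * X) := by
      rw [hyy _ (hgc n) _ rfl]
      have : cfc (fun t => g n t * t * g n t) M = 1 - cfc (fun t => kk t * kk t) M := by
        rw [← cfc_const_one ℝ M, ← cfc_sub (fun _ : ℝ => (1 : ℝ)) (fun t => kk t * kk t) M
          continuousOn_const (hkc.mul hkc).continuousOn]
        refine cfc_congr fun t ht => ?_
        have ht0 : 0 ≤ t := spectrum_nonneg_of_nonneg hM ht
        obtain ⟨-, -, h3⟩ := hgb n t ht0
        simp only [hkk, max_eq_left ht0, Real.mul_self_sqrt (div_nonneg he.le (by linarith : (0:ℝ) ≤ t + e))]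
        rw [show g n t * t * g n t = t * (g n t * g n t) by ring, h3]
        show t / (t + e) = 1 - e / (t + e)
        have hte : t + e ≠ 0 := (by linarith : (0:ℝ) < t + e).ne'
        field_simp
        ring
      rw [this, mul_sub, sub_mul, mul_one]
      abel
    rw [e1, norm_neg]
    refine norm_conj_le kk hkc hX hM hle he.le fun t ht => ?_
    simp only [hkk, max_eq_left ht]
    rw [mul_right_comm, Real.mul_self_sqrt (div_nonneg he.le (by linarith)),
      div_mul_eq_mul_div, div_le_iff₀ (by linarith)]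
    nlinarith [mul_nonneg he.le he.le]
  · refine tendsto_nhds_unique (hs'.const_mul P) ?_
    simpa [hy, ← mul_assoc, hP] using hs'

/-- Closed two-sided ideals are self-adjoint. -/
theorem star_mem_of_mem (J : TwoSidedIdeal F) (hJ : IsClosed (J : Set F)) {x : F} (hx : x ∈ J) :
    star x ∈ J := by
  set M := x * star x with hMd
  have hM : 0 ≤ M := mul_star_self_nonneg x
  have hsa : IsSelfAdjoint M := .of_nonneg hM
  set u : ℕ → F := fun n =>
    star x * (M * cfc (fun t : ℝ => (max t 0 + 1 / ((n : ℝ) + 1))⁻¹) M) with hu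
  have hmem : ∀ n, u n ∈ J := fun n =>
    J.mul_mem_left _ _ (J.mul_mem_right _ _ (J.mul_mem_right _ _ hx))
  refine hJ.mem_of_tendsto (b := atTop) (f := u) ?_ (Eventually.of_forall hmem)
  refine tendsto_iff_norm_sub_tendsto_zero.2 (squeeze_zero
    (g := fun n : ℕ => Real.sqrt (1 / ((n : ℝ) + 1))) (fun n => norm_nonneg _) (fun n => ?_) ?_)
  · set e := 1 / ((n : ℝ) + 1)
    have he : 0 < e := by positivity
    have hc : Continuous fun t : ℝ => (max t 0 + e)⁻¹ :=
      (by fun_prop : Continuous fun t : ℝ => max t 0 + e).inv₀ fun t =>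
        (add_pos_of_nonneg_of_pos (le_max_right _ _) he).ne'
    have hc2 : Continuous fun t : ℝ => t * (max t 0 + e)⁻¹ - 1 :=
      (continuous_id.mul hc).sub continuous_const
    set z := cfc (fun t : ℝ => t * (max t 0 + e)⁻¹ - 1) M with hzd
    have e1 : u n - star x = star x * z := by
      rw [hzd, hu, cfc_sub (fun t : ℝ => t * (max t 0 + e)⁻¹) _ M
        (continuous_id.mul hc).continuousOn continuousOn_const, cfc_const_one ℝ M,
        cfc_mul (fun t : ℝ => t) _ M (continuousOn_id' _) hc.continuousOn, cfc_id' ℝ M, mul_sub,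
        mul_one]
    rw [e1]
    refine Real.le_sqrt_of_sq_le ?_
    rw [sq, ← CStarRing.norm_star_mul_self, star_mul, star_star,
      (IsSelfAdjoint.cfc : IsSelfAdjoint z).star_eq]
    have e2 : z * x * (star x * z)
        = cfc (fun t : ℝ => (t * (max t 0 + e)⁻¹ - 1) * t * (t * (max t 0 + e)⁻¹ - 1)) M := by
      rw [cfc_mul (fun t : ℝ => (t * (max t 0 + e)⁻¹ - 1) * t) (fun t : ℝ => t * (max t 0 + e)⁻¹ - 1)
          M (hc2.mul continuous_id').continuousOn hc2.continuousOn,
        cfc_mul (fun t : ℝ => t * (max t 0 + e)⁻¹ - 1) (fun t => t) M hc2.continuousOn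
          (continuousOn_id' _), cfc_id' ℝ M]
      simp [hzd, hMd, mul_assoc]
    rw [e2]
    refine norm_cfc_le he.le fun t ht => ?_
    have ht0 : 0 ≤ t := spectrum_nonneg_of_nonneg hM ht
    rw [max_eq_left ht0, Real.norm_eq_abs]
    have hte : 0 < t + e := by linarith
    have e3 : (t * (t + e)⁻¹ - 1) * t * (t * (t + e)⁻¹ - 1)
        = e * ((t / (t + e)) * (e / (t + e))) := by
      field_simp; ring
    rw [e3, abs_of_nonneg (by positivity)]
    refine mul_le_of_le_one_right he.le (mul_le_one₀ ?_ (by positivity) ?_) <;>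
      rw [div_le_one hte] <;> linarith
  · have := (Real.continuous_sqrt.tendsto 0).comp tendsto_one_div_add_atTop_nhds_zero_nat
    rw [Real.sqrt_zero] at this
    exact this

end Order

section Products

variable {M : Type*} [Monoid M]

lemma ofFn_prod_mul {m : ℕ} (f g : Fin m → M) (h : ∀ i j, i ≠ j → Commute (f i) (g j)) :
    (List.ofFn fun j => f j * g j).prod = (List.ofFn f).prod * (List.ofFn g).prod := by
  induction m with
  | zero => simp
  | succ m ih =>
    simp only [List.ofFn_succ, List.prod_cons]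
    rw [ih _ _ fun i j hij => h _ _ fun e => hij (Fin.succ_injective _ e)]
    have hc : Commute (List.ofFn fun j : Fin m => f j.succ).prod (g 0) :=
      Commute.list_prod_left _ _ fun x hx => by
        obtain ⟨j, rfl⟩ := (List.mem_ofFn' _ x).1 hx
        exact h _ _ (Fin.succ_ne_zero j)
    exact hc.symm.mul_mul_mul_comm _ _

lemma ofFn_prod_star [StarMul M] {m : ℕ} (f : Fin m → M)
    (h : ∀ i j, i ≠ j → Commute (f i) (f j)) :
    star (List.ofFn f).prod = (List.ofFn fun j => star (f j)).prod := by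
  induction m with
  | zero => simp
  | succ m ih =>
    have hc : Commute (f 0) (List.ofFn fun j : Fin m => f j.succ).prod :=
      Commute.list_prod_right _ _ fun x hx => by
        obtain ⟨j, rfl⟩ := (List.mem_ofFn' _ x).1 hx
        exact h _ _ (Fin.succ_ne_zero j).symm
    simp only [List.ofFn_succ, List.prod_cons]
    rw [← ih _ fun i j hij => h _ _ fun e => hij (Fin.succ_injective _ e), hc.eq, star_mul]

end Products

section Pi

variable {D : Type*} [CStarAlgebra D] {F : Type*} [CStarAlgebra F] {m : ℕ}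

/-- Pairwise commuting copies. -/
def CommFam {ι : Type*} (ρ : ι → (D →⋆ₐ[ℂ] F)) : Prop :=
  ∀ i j, i ≠ j → ∀ x y, Commute (ρ i x) (ρ j y)

/-- The ordered product over commuting copies. -/
noncomputable def piProd (ρ : Fin m → (D →⋆ₐ[ℂ] F)) :
    MultilinearMap ℂ (fun _ : Fin m => D) F :=
  (MultilinearMap.mkPiAlgebraFin ℂ m F).compLinearMap
    fun j => (ρ j).toAlgHom.toLinearMap

lemma piProd_apply (ρ : Fin m → (D →⋆ₐ[ℂ] F)) (f : Fin m → D) :
    piProd ρ f = (List.ofFn fun j => ρ j (f j)).prod := by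
  simp [piProd]

variable {ρ : Fin m → (D →⋆ₐ[ℂ] F)} (hρ : CommFam ρ)

include hρ

lemma piProd_mul (f g : Fin m → D) : piProd ρ f * piProd ρ g = piProd ρ (f * g) := by
  simp only [piProd_apply, Pi.mul_apply, map_mul]
  rw [ofFn_prod_mul _ _ fun i j hij => hρ i j hij _ _]

lemma piProd_star (f : Fin m → D) : star (piProd ρ f) = piProd ρ (star f) := by
  simp only [piProd_apply, Pi.star_apply, map_star]
  exact ofFn_prod_star _ fun i j hij => hρ i j hij _ _

omit hρ in
lemma piProd_one : piProd ρ 1 = 1 := by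
  rw [piProd_apply]
  simp

omit hρ in
lemma commute_piProd {z : F} {f : Fin m → D} (h : ∀ j, Commute z (ρ j (f j))) :
    Commute z (piProd ρ f) := by
  rw [piProd_apply]
  refine Commute.list_prod_right _ _ fun x hx => ?_
  obtain ⟨j, rfl⟩ := (List.mem_ofFn' _ x).1 hx
  exact h j

omit hρ in
lemma ofFn_prod_update {M : Type*} [Monoid M] {n : ℕ} (f : Fin n → M) (j : Fin n)
    (hf : ∀ i, i ≠ j → f i = 1) : (List.ofFn f).prod = f j := by
  induction n with
  | zero => exact j.elim0
  | succ n ih =>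
    rw [List.ofFn_succ, List.prod_cons]
    rcases Fin.eq_zero_or_eq_succ j with rfl | ⟨k, rfl⟩
    · have : (List.ofFn fun i : Fin n => f i.succ).prod = 1 := by
        simp [fun i : Fin n => hf i.succ (Fin.succ_ne_zero i)]
      rw [this, mul_one]
    · rw [hf 0 (Fin.succ_ne_zero k).symm, one_mul,
        ih _ k fun i hi => hf _ fun e => hi (Fin.succ_injective _ e)]

omit hρ in
lemma piProd_mulSingle (j : Fin m) (x : D) : piProd ρ (Pi.mulSingle j x) = ρ j x := by
  rw [piProd_apply, ofFn_prod_update _ j fun i hi => by rw [Pi.mulSingle_eq_of_ne hi, map_one],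
    Pi.mulSingle_eq_same]

lemma proj_mul_piProd (j : Fin m) (x : D) (f : Fin m → D) :
    ρ j x * piProd ρ f = piProd ρ (Function.update f j (x * f j)) := by
  rw [← piProd_mulSingle j x, piProd_mul hρ]
  congr 1
  funext i
  rcases eq_or_ne i j with rfl | hi
  · simp
  · simp [Function.update_of_ne hi, Pi.mulSingle_eq_of_ne hi]

omit hρ in
lemma piProd_eq_zero {f : Fin m → D} (j : Fin m) (h : f j = 0) : piProd ρ f = 0 :=
  (piProd ρ).map_coord_zero j h

end Pi

end Vale.Agent.P101
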