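import Mathlib
import Vale.Agent.P101.Basic
import Vale.Agent.P101.Defs

/-! Maximal two-sided ideals in algebras generated by commuting copies. -/

open Finset

namespace Vale.Agent.P101

section MaxIdeal

variable {C : Type*} [CStarAlgebra C]

/-- A maximal proper two-sided ideal which is norm closed. -/
structure IsMax (P : TwoSidedIdeal C) : Prop where
  closed : IsClosed (P : Set C)
  one_notMem : (1 : C) ∉ P
  exists_rep : ∀ x ∉ P, ∃ (n : ℕ) (a b : Fin n → C), ∑ i, a i * x * b i - 1 ∈ P

lemma smul_mem_ideal {R : Type*} [CommSemiring R] [Algebra R C] (P : TwoSidedIdeal C) (r : R)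
    {x : C} (hx : x ∈ P) : r • x ∈ P := by
  rw [Algebra.smul_def]
  exact P.mul_mem_left _ _ hx

/-- A two-sided ideal as a complex subspace. -/
def idealSub (P : TwoSidedIdeal C) : Submodule ℂ C where
  carrier := P
  zero_mem' := P.zero_mem
  add_mem' := fun hx hy => P.add_mem hx hy
  smul_mem' r _ hx := smul_mem_ideal P r hx

lemma sum_mem_ideal {ι : Type*} (P : TwoSidedIdeal C) (s : Finset ι) (f : ι → C)
    (h : ∀ i ∈ s, f i ∈ P) : ∑ i ∈ s, f i ∈ P :=
  (idealSub P).sum_mem h

lemma exists_sum_of_mem_closure {G : Set C} {z : C} (hz : z ∈ TwoSidedIdeal.span G) :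
    ∃ (n : ℕ) (a g b : Fin n → C), (∀ i, g i ∈ G) ∧ ∑ i, a i * g i * b i = z := by
  rw [TwoSidedIdeal.mem_span_iff_mem_addSubgroup_closure] at hz
  induction hz using AddSubgroup.closure_induction with
  | mem x hx =>
    obtain ⟨-, ⟨a, -, g, hg, rfl⟩, b, -, rfl⟩ := hx
    exact ⟨1, fun _ => a, fun _ => g, fun _ => b, fun _ => hg, by simp⟩
  | zero => exact ⟨0, ![], ![], ![], fun i => i.elim0, by simp⟩
  | add x y _ _ hx hy =>
    obtain ⟨n, a, g, b, hg, rfl⟩ := hx
    obtain ⟨m, a', g', b', hg', rfl⟩ := hy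
    refine ⟨n + m, Fin.append a a', Fin.append g g', Fin.append b b', fun i => ?_, ?_⟩
    · refine Fin.addCases (fun j => ?_) (fun j => ?_) i
      · rw [Fin.append_left]; exact hg j
      · rw [Fin.append_right]; exact hg' j
    · simp [Fin.sum_univ_add]
  | neg x _ hx =>
    obtain ⟨n, a, g, b, hg, rfl⟩ := hx
    exact ⟨n, fun i => -a i, g, b, hg, by simp⟩

/-- A set which does not generate the unit lies in a maximal ideal. -/
theorem exists_isMax (G : Set C)
    (h : ∀ (n : ℕ) (a g b : Fin n → C), (∀ i, g i ∈ G) → ∑ i, a i * g i * b i ≠ 1) :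
    ∃ P : TwoSidedIdeal C, IsMax P ∧ G ⊆ P := by
  set S : Set (TwoSidedIdeal C) := {I | (1 : C) ∉ I} with hS
  have h0 : TwoSidedIdeal.span G ∈ S := fun h1 => by
    obtain ⟨n, a, g, b, hg, e⟩ := exists_sum_of_mem_closure h1
    exact h n a g b hg e
  have hz : ∀ c ⊆ S, IsChain (· ≤ ·) c → ∀ y ∈ c, ∃ ub ∈ S, ∀ z ∈ c, z ≤ ub := by
    intro c hcS hc y hy
    let I : TwoSidedIdeal C := .mk' {x | ∃ J ∈ c, x ∈ J} ⟨y, hy, y.zero_mem⟩
      (fun {a b} ha hb => by
        obtain ⟨J, hJ, haJ⟩ := ha
        obtain ⟨K, hK, hbK⟩ := hb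
        rcases hc.total hJ hK with h' | h'
        · exact ⟨K, hK, K.add_mem (h' haJ) hbK⟩
        · exact ⟨J, hJ, J.add_mem haJ (h' hbK)⟩)
      (fun {a} ⟨J, hJ, ha⟩ => ⟨J, hJ, J.neg_mem ha⟩)
      (fun {a b} ⟨J, hJ, hb⟩ => ⟨J, hJ, J.mul_mem_left _ _ hb⟩)
      (fun {a b} ⟨J, hJ, ha⟩ => ⟨J, hJ, J.mul_mem_right _ _ ha⟩)
    have hI : ∀ x, x ∈ I ↔ ∃ J ∈ c, x ∈ J := fun x => TwoSidedIdeal.mem_mk' ..
    refine ⟨I, ?_, fun J hJ x hx => (hI x).2 ⟨J, hJ, hx⟩⟩
    intro h1
    obtain ⟨J, hJ, h1J⟩ := (hI 1).1 h1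
    exact hcS hJ h1J
  obtain ⟨P, hle, hP⟩ := zorn_le_nonempty₀ S hz _ h0
  have h1 : (1 : C) ∉ P := hP.1
  have hsub : G ⊆ P := fun x hx => hle (TwoSidedIdeal.subset_span hx)
  refine ⟨P, ⟨?_, h1, ?_⟩, hsub⟩
  · let Q : TwoSidedIdeal C := .mk' (closure (P : Set C)) (subset_closure P.zero_mem)
      (fun {x y} hx hy => map_mem_closure₂ (f := fun a b : C => a + b) continuous_add hx hy
        fun a ha b hb => P.add_mem ha hb)
      (fun {x} hx => map_mem_closure (f := fun a : C => -a) continuous_neg hx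
        fun a ha => P.neg_mem ha)
      (fun {x y} hy => map_mem_closure (f := fun a : C => x * a) (continuous_const_mul x) hy
        fun a ha => P.mul_mem_left _ _ ha)
      (fun {x y} hx => map_mem_closure (f := fun a : C => a * y) (continuous_mul_const y) hx
        fun a ha => P.mul_mem_right _ _ ha)
    have hQ : ∀ x, x ∈ Q ↔ x ∈ closure (P : Set C) := fun x => TwoSidedIdeal.mem_mk' ..
    have hQ1 : Q ∈ S := by
      intro hc1
      rw [hQ, Metric.mem_closure_iff] at hc1
      obtain ⟨b, hb, hd⟩ := hc1 1 one_pos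
      rw [dist_eq_norm] at hd
      obtain ⟨u, hu⟩ : IsUnit b := by
        have := isUnit_one_sub_of_norm_lt_one hd
        simpa using this
      exact h1 (by simpa [← hu] using P.mul_mem_left (↑u⁻¹ : C) _ hb)
    have : Q ≤ P := hP.2 hQ1 fun x hx => (hQ x).2 (subset_closure hx)
    exact isClosed_of_closure_subset fun x hx => this ((hQ x).2 hx)
  · intro x hx
    set Q := TwoSidedIdeal.span ((P : Set C) ∪ {x}) with hQ
    have hPQ : P ≤ Q := fun y hy => TwoSidedIdeal.subset_span (Or.inl hy)
    have hQ1 : (1 : C) ∈ Q := by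
      by_contra hn
      exact hx (hP.2 hn hPQ (TwoSidedIdeal.subset_span (Or.inr rfl)))
    obtain ⟨n, a, g, b, hg, e⟩ := exists_sum_of_mem_closure hQ1
    classical
    refine ⟨n, fun i => if g i ∈ P then 0 else a i, b, ?_⟩
    rw [← e, ← Finset.sum_sub_distrib]
    refine sum_mem_ideal P _ _ fun i _ => ?_
    dsimp only
    split_ifs with hi
    · simpa using P.neg_mem (P.mul_mem_right _ (b i) (P.mul_mem_left (a i) _ hi))
    · rcases hg i with hgi | hgi
      · exact absurd hgi hi
      · rw [Set.mem_singleton_iff.1 hgi, sub_self]; exact P.zero_mem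

variable {P : TwoSidedIdeal C} (hP : IsMax P)

include hP

lemma IsMax.star_mem {x : C} (hx : x ∈ P) : star x ∈ P := by
  let : PartialOrder C := CStarAlgebra.spectralOrder C
  have : StarOrderedRing C := CStarAlgebra.spectralOrderedRing C
  exact star_mem_of_mem P hP.closed hx

lemma IsMax.eq_zero_of_algebraMap {R : Type*} [Field R] [Algebra R C] {r : R}
    (h : algebraMap R C r ∈ P) : r = 0 := by
  by_contra hr
  refine hP.one_notMem ?_
  simpa [← map_mul, inv_mul_cancel₀ hr] using P.mul_mem_left (algebraMap R C r⁻¹) _ h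

/-- Primeness. -/
lemma IsMax.mem_or_mem {x y : C} (h : ∀ c, x * c * y ∈ P) : x ∈ P ∨ y ∈ P := by
  by_contra hne
  rw [not_or] at hne
  obtain ⟨n, a, b, e⟩ := hP.exists_rep x hne.1
  refine hne.2 ?_
  have h1 : (∑ i, a i * x * b i) * y ∈ P := by
    rw [sum_mul]
    refine sum_mem_ideal P _ _ fun i _ => ?_
    rw [mul_assoc, mul_assoc, ← mul_assoc x]
    exact P.mul_mem_left _ _ (h _)
  have h2 := P.mul_mem_right _ y e
  rw [sub_mul, one_mul] at h2
  simpa using P.sub_mem h1 h2

/-- A self-adjoint element on which orthogonal functions always have one member in the ideal is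
scalar modulo the ideal. -/
theorem IsMax.scalar_of_dichotomy {z : C} (hz : IsSelfAdjoint z)
    (h : ∀ t : ℝ, cfc (fun x => max (t - x) 0) z ∈ P ∨ cfc (fun x => max (x - t) 0) z ∈ P) :
    ∃ r : ℝ, z - algebraMap ℝ C r ∈ P := by
  have : Nontrivial C := ⟨⟨1, 0, fun e => hP.one_notMem (e ▸ P.zero_mem)⟩⟩
  set S := {t : ℝ | cfc (fun x => max (t - x) 0) z ∈ P} with hS
  have hdown : ∀ s t, s < t → t ∈ S → s ∈ S := by
    intro s t hst ht
    have hd : ∀ x, 0 < max (max (t - x) 0) (t - s) := fun x =>
      lt_max_of_lt_right (sub_pos.2 hst)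
    have e : (fun x => max (s - x) 0) = fun x =>
        max (t - x) 0 * (max (s - x) 0 / max (max (t - x) 0) (t - s)) := by
      funext x
      rcases le_total x s with hx | hx
      · rw [max_eq_left (by linarith : (0:ℝ) ≤ t - x),
          max_eq_left (by linarith : t - s ≤ t - x), max_eq_left (by linarith : (0:ℝ) ≤ s - x)]
        have : t - x ≠ 0 := by linarith
        field_simp
      · simp [max_eq_right (by linarith : s - x ≤ 0)]
    have hk : Continuous fun x => max (s - x) 0 / max (max (t - x) 0) (t - s) :=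
      Continuous.div (by fun_prop) (by fun_prop) fun x => (hd x).ne'
    show cfc (fun x => max (s - x) 0) z ∈ P
    rw [e, cfc_mul _ _ z (by fun_prop) hk.continuousOn]
    exact P.mul_mem_right _ _ ht
  have hne : -‖z‖ ∈ S := by
    show cfc (fun x => max (-‖z‖ - x) 0) z ∈ P
    have e : cfc (fun x => max (-‖z‖ - x) 0) z = 0 := by
      refine (cfc_congr fun x hx => ?_).trans (cfc_const_zero ℝ z)
      have := abs_le.1 (Real.norm_eq_abs x ▸ spectrum.norm_le_norm_of_mem hx)
      exact max_eq_right (by linarith)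
    rw [e]
    exact P.zero_mem
  have hbdd : ∀ t ∈ S, t ≤ ‖z‖ := by
    intro t ht
    by_contra! hlt
    refine hP.one_notMem ?_
    have hd : ∀ x : ℝ, 0 < max (t - x) (t - ‖z‖) := fun x => lt_max_of_lt_right (sub_pos.2 hlt)
    have hk : Continuous fun x => (max (t - x) (t - ‖z‖))⁻¹ :=
      Continuous.inv₀ (by fun_prop) fun x => (hd x).ne'
    have e : cfc (fun x => max (t - x) 0 * (max (t - x) (t - ‖z‖))⁻¹) z = 1 := by
      refine (cfc_congr fun x hx => ?_).trans (cfc_const_one ℝ z)
      have := abs_le.1 (Real.norm_eq_abs x ▸ spectrum.norm_le_norm_of_mem hx)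
      have h1 : 0 < t - x := by linarith
      rw [max_eq_left h1.le, max_eq_left (by linarith : t - ‖z‖ ≤ t - x)]
      exact mul_inv_cancel₀ h1.ne'
    rw [← e, cfc_mul _ _ z (by fun_prop) hk.continuousOn]
    exact P.mul_mem_right _ _ ht
  have hSb : BddAbove S := ⟨‖z‖, hbdd⟩
  refine ⟨sSup S, hP.closed.closure_subset (Metric.mem_closure_iff.2 fun ε hε => ?_)⟩
  set r := sSup S with hr
  have h1 : r - ε / 2 ∈ S := by
    obtain ⟨t, ht, hlt⟩ := exists_lt_of_lt_csSup ⟨_, hne⟩ (by linarith : r - ε / 2 < r)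
    exact hdown _ _ hlt ht
  have h2 : cfc (fun x => max (x - (r + ε / 2)) 0) z ∈ P :=
    (h _).resolve_left fun hm => by linarith [le_csSup hSb hm]
  refine ⟨_, P.sub_mem h2 h1, ?_⟩
  have e : z - algebraMap ℝ C r = cfc (fun x => x - r) z := by
    rw [cfc_sub (fun x => x) (fun _ => r) z, cfc_id' ℝ z, cfc_const r z]
  rw [dist_eq_norm, e, ← cfc_sub (fun x => max (x - (r + ε / 2)) 0)
    (fun x => max (r - ε / 2 - x) 0) z, ← cfc_sub (fun x => x - r)
    (fun x => max (x - (r + ε / 2)) 0 - max (r - ε / 2 - x) 0) z]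
  refine lt_of_le_of_lt (norm_cfc_le (c := ε / 2) (by positivity) fun x _ => ?_) (by linarith)
  rw [Real.norm_eq_abs, abs_le]
  rcases max_cases (x - (r + ε / 2)) 0 with ⟨a1, a2⟩ | ⟨a1, a2⟩ <;>
    rcases max_cases (r - ε / 2 - x) 0 with ⟨b1, b2⟩ | ⟨b1, b2⟩ <;>
    constructor <;> rw [a1, b1] <;> linarith

omit hP in
/-- The elements which are central modulo a star-closed ideal. -/
def centralMod (P : TwoSidedIdeal C) (hstar : ∀ x ∈ P, star x ∈ P) : StarSubalgebra ℂ C where
  carrier := {w | ∀ c, w * c - c * w ∈ P}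
  mul_mem' {u v} hu hv c := by
    have e : u * v * c - c * (u * v) = u * (v * c - c * v) + (u * c - c * u) * v := by noncomm_ring
    rw [e]
    exact P.add_mem (P.mul_mem_left _ _ (hv c)) (P.mul_mem_right _ _ (hu c))
  one_mem' c := by simp
  add_mem' {u v} hu hv c := by
    have e : (u + v) * c - c * (u + v) = (u * c - c * u) + (v * c - c * v) := by noncomm_ring
    rw [e]
    exact P.add_mem (hu c) (hv c)
  zero_mem' c := by simp
  algebraMap_mem' r c := by simp [Algebra.commutes r c]
  star_mem' {u} hu c := by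
    have := hstar _ (hu (star c))
    simp only [star_sub, star_mul, star_star] at this
    simpa using P.neg_mem this

/-- A self-adjoint element central modulo `P` is scalar modulo `P`. -/
theorem IsMax.scalar_of_central {z : C} (hz : IsSelfAdjoint z)
    (hc : ∀ c, z * c - c * z ∈ P) : ∃ r : ℝ, z - algebraMap ℝ C r ∈ P := by
  refine hP.scalar_of_dichotomy hz fun t => ?_
  set Z := centralMod P fun x hx => hP.star_mem hx
  have hZc : IsClosed (Z : Set C) := by
    show IsClosed {w : C | ∀ c, w * c - c * w ∈ P}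
    rw [Set.ofPred_forall]
    exact isClosed_iInter fun c => hP.closed.preimage (by fun_prop)
  have hmem : cfc (fun x => max (t - x) 0) z ∈ Z :=
    cfc_mem (hs := hZc) _ (show z ∈ Z from hc)
  refine hP.mem_or_mem fun c => ?_
  have e0 : cfc (fun x => max (t - x) 0) z * cfc (fun x => max (x - t) 0) z = 0 := by
    rw [← cfc_mul _ _ z]
    refine (cfc_congr fun x _ => ?_).trans (cfc_const_zero ℝ z)
    rcases le_total x t with hx | hx
    · simp [max_eq_right (by linarith : x - t ≤ 0)]
    · simp [max_eq_right (by linarith : t - x ≤ 0)]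
  set f := cfc (fun x => max (t - x) 0) z
  set g := cfc (fun x => max (x - t) 0) z
  have e : f * c * g = (f * c - c * f) * g := by
    rw [sub_mul, mul_assoc c f g, e0, mul_zero, sub_zero]
  rw [e]
  exact P.mul_mem_right _ _ (hmem c)

/-- An arbitrary element central modulo `P` is a complex scalar modulo `P`. -/
theorem IsMax.scalar_of_central' {b : C} (hc : ∀ c, b * c - c * b ∈ P) :
    ∃ r : ℂ, b - algebraMap ℂ C r ∈ P := by
  have hb : b ∈ centralMod P fun x hx => hP.star_mem hx := hc
  have hsb : star b ∈ centralMod P fun x hx => hP.star_mem hx := StarMemClass.star_mem hb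
  have h1 : (realPart b : C) ∈ centralMod P fun x hx => hP.star_mem hx := by
    rw [realPart_apply_coe]
    intro c
    rw [smul_mul_assoc, mul_smul_comm, ← smul_sub]
    exact smul_mem_ideal P (⅟2 : ℝ) ((add_mem hb hsb) c)
  have h2 : (imaginaryPart b : C) ∈ centralMod P fun x hx => hP.star_mem hx := by
    rw [imaginaryPart_apply_coe]
    intro c
    rw [smul_mul_assoc, mul_smul_comm, ← smul_sub, smul_mul_assoc, mul_smul_comm, ← smul_sub]
    exact smul_mem_ideal P (-Complex.I) (smul_mem_ideal P (⅟2 : ℝ) ((sub_mem hb hsb) c))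
  obtain ⟨u, hu⟩ := hP.scalar_of_central (realPart b).2 h1
  obtain ⟨v, hv⟩ := hP.scalar_of_central (imaginaryPart b).2 h2
  refine ⟨(u : ℂ) + Complex.I * v, ?_⟩
  have := P.add_mem hu (smul_mem_ideal P Complex.I hv)
  convert this using 1
  conv_lhs => rw [← realPart_add_I_smul_imaginaryPart b]
  rw [IsScalarTower.algebraMap_apply ℝ ℂ C u, IsScalarTower.algebraMap_apply ℝ ℂ C v,
    map_add, map_mul, smul_sub, Algebra.smul_def Complex.I (algebraMap ℂ C (algebraMap ℝ ℂ v))]
  simp only [Complex.coe_algebraMap]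
  abel

end MaxIdeal

section Copies

variable {C : Type*} [CStarAlgebra C] {D : Type*} [CStarAlgebra D] {ι : Type*}

/-- The copies generate: the only closed unital *-subalgebra containing all of them is everything. -/
def Gen (θ : ι → (D →⋆ₐ[ℂ] C)) : Prop :=
  ∀ U : StarSubalgebra ℂ C, IsClosed (U : Set C) → (∀ j d, θ j d ∈ U) → ∀ c, c ∈ U

variable {θ : ι → (D →⋆ₐ[ℂ] C)}

/-- The commutant of the `j`-th copy. -/
def Comm (θ : ι → (D →⋆ₐ[ℂ] C)) (j : ι) (y : C) : Prop := ∀ d, Commute (θ j d) y

lemma comm_star {j : ι} {y : C} (hy : Comm θ j y) : Comm θ j (star y) := fun d => by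
  have := (hy (star d)).star_star
  rwa [← map_star, star_star] at this

lemma comm_mul {j : ι} {y z : C} (hy : Comm θ j y) (hz : Comm θ j z) : Comm θ j (y * z) :=
  fun d => (hy d).mul_right (hz d)

/-- Finite sums of products of the `j`-th copy with its commutant. -/
def splitAlg (θ : ι → (D →⋆ₐ[ℂ] C)) (j : ι) : StarSubalgebra ℂ C where
  carrier := {c | ∃ (n : ℕ) (a : Fin n → D) (b : Fin n → C), (∀ i, Comm θ j (b i)) ∧
    ∑ i, θ j (a i) * b i = c}
  one_mem' := ⟨1, fun _ => 1, fun _ => 1, fun _ d => Commute.one_right _, by simp⟩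
  zero_mem' := ⟨0, ![], ![], fun i => i.elim0, by simp⟩
  add_mem' := by
    rintro x y ⟨n, a, b, hb, rfl⟩ ⟨m, a', b', hb', rfl⟩
    refine ⟨n + m, Fin.append a a', Fin.append b b', fun i => ?_, by simp [Fin.sum_univ_add]⟩
    refine Fin.addCases (fun i => ?_) (fun i => ?_) i
    · rw [Fin.append_left]; exact hb i
    · rw [Fin.append_right]; exact hb' i
  mul_mem' := by
    rintro x y ⟨n, a, b, hb, rfl⟩ ⟨m, a', b', hb', rfl⟩
    refine ⟨n * m, fun i => a (finProdFinEquiv.symm i).1 * a' (finProdFinEquiv.symm i).2,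
      fun i => b (finProdFinEquiv.symm i).1 * b' (finProdFinEquiv.symm i).2,
      fun i => comm_mul (hb _) (hb' _), ?_⟩
    rw [sum_mul_sum, ← Fintype.sum_prod_type', ← finProdFinEquiv.sum_comp]
    refine sum_congr rfl fun i _ => ?_
    simp only [Equiv.symm_apply_apply, map_mul]
    exact ((hb i.1 (a' i.2)).symm.mul_mul_mul_comm _ _).symm
  algebraMap_mem' r := ⟨1, fun _ => algebraMap ℂ D r, fun _ => 1,
    fun _ d => Commute.one_right _, by simp [AlgHomClass.commutes]⟩
  star_mem' := by
    rintro x ⟨n, a, b, hb, rfl⟩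
    refine ⟨n, fun i => star (a i), fun i => star (b i), fun i => comm_star (hb i), ?_⟩
    rw [star_sum]
    refine sum_congr rfl fun i _ => ?_
    rw [star_mul, ← map_star]
    exact (comm_star (hb i) (star (a i))).eq

variable (hθ : CommFam θ) (hgen : Gen θ)

include hθ hgen

lemma mem_closure_split (j : ι) (c : C) : c ∈ closure (splitAlg θ j : Set C) := by
  have h := hgen (splitAlg θ j).topologicalClosure (StarSubalgebra.isClosed_topologicalClosure _)
    (fun i d => ?_) c
  · rwa [← SetLike.mem_coe, StarSubalgebra.topologicalClosure_coe] at h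
  · refine StarSubalgebra.le_topologicalClosure _ ?_
    classical
    rcases eq_or_ne i j with rfl | hij
    · exact ⟨1, fun _ => d, fun _ => 1, fun _ e => Commute.one_right _, by simp⟩
    · exact ⟨1, fun _ => 1, fun _ => θ i d, fun _ e => hθ j i hij.symm e d, by simp⟩

/-- The sandwich lemma. -/
theorem sandwich {P : TwoSidedIdeal C} (hP : IsClosed (P : Set C)) (j : ι) {N : Type*} [Fintype N]
    (x : N → D) (y : N → C) (hy : ∀ r, Comm θ j (y r)) (h : ∑ r, θ j (x r) * y r ∈ P) (c : C) :
    ∑ r, θ j (x r) * c * y r ∈ P := by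
  have hcl : IsClosed {c : C | ∑ r, θ j (x r) * c * y r ∈ P} := hP.preimage (by fun_prop)
  refine hcl.closure_subset_iff.2 ?_ (mem_closure_split hθ hgen j c)
  rintro _ ⟨n, a, b, hb, rfl⟩
  show ∑ r, θ j (x r) * (∑ i, θ j (a i) * b i) * y r ∈ P
  simp only [mul_sum, sum_mul]
  rw [sum_comm]
  refine sum_mem_ideal P _ _ fun i _ => ?_
  have e : ∀ r, θ j (x r) * (θ j (a i) * b i) * y r = b i * (θ j (x r) * y r) * θ j (a i) := by
    intro r
    rw [(hb i (a i)).eq, ← mul_assoc, (hb i (x r)).eq, mul_assoc _ (θ j (a i)), (hy r (a i)).eq]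
    simp only [mul_assoc]
  simp only [e, ← mul_sum, ← sum_mul]
  exact P.mul_mem_right _ _ (P.mul_mem_left _ _ h)

/-- Product rule. -/
theorem IsMax.mem_or_mem_of_comm {P : TwoSidedIdeal C} (hP : IsMax P) (j : ι) (d : D) {y : C}
    (hy : Comm θ j y) (h : θ j d * y ∈ P) : θ j d ∈ P ∨ y ∈ P := by
  refine hP.mem_or_mem fun c => ?_
  have := sandwich hθ hgen hP.closed j (N := Unit) (fun _ => d) (fun _ => y) (fun _ => hy)
    (by simpa using h) c
  simpa using this

/-- Products over distinct copies avoid a maximal ideal. -/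
theorem IsMax.prod_notMem {P : TwoSidedIdeal C} (hP : IsMax P) :
    ∀ (l : List ι), l.Nodup → ∀ d : ι → D, (∀ j ∈ l, θ j (d j) ∉ P) →
      (l.map fun j => θ j (d j)).prod ∉ P := by
  intro l
  induction l with
  | nil => intro _ d _; simpa using hP.one_notMem
  | cons j l ih =>
    intro hl d hd
    rw [List.map_cons, List.prod_cons]
    intro hm
    rw [List.nodup_cons] at hl
    have hy : Comm θ j (l.map fun i => θ i (d i)).prod := by
      intro e
      refine Commute.list_prod_right _ _ fun z hz => ?_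
      obtain ⟨i, hi, rfl⟩ := List.mem_map.1 hz
      exact hθ j i (fun e' => hl.1 (e' ▸ hi)) _ _
    rcases hP.mem_or_mem_of_comm hθ hgen j (d j) hy hm with h' | h'
    · exact hd j (by simp) h'
    · exact ih hl.2 d (fun i hi => hd i (by simp [hi])) h'

end Copies

section Tensor

variable {C : Type*} [CStarAlgebra C] {P : TwoSidedIdeal C}

/-- A functional vanishing on a subspace with prescribed non-vanishing. -/
lemma exists_functional (P : TwoSidedIdeal C) (s : Set C) {x : C}
    (hx : x ∉ idealSub P ⊔ Submodule.span ℂ s) :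
    ∃ g : C →ₗ[ℂ] ℂ, g x ≠ 0 ∧ (∀ p ∈ P, g p = 0) ∧ ∀ y ∈ s, g y = 0 := by
  obtain ⟨g, hg, hb⟩ := Submodule.exists_dual_map_eq_bot_of_notMem hx inferInstance
  have h0 : ∀ y ∈ idealSub P ⊔ Submodule.span ℂ s, g y = 0 := fun y hy => by
    have := Submodule.mem_map_of_mem (f := g) hy
    rw [hb] at this
    simpa using this
  exact ⟨g, hg, fun p hp => h0 p (Submodule.mem_sup_left hp),
    fun y hy => h0 y (Submodule.mem_sup_right (Submodule.subset_span hy))⟩

/-- If `∑ xᵣ q yᵣ ∈ P` for all `q`, then every slice is in `P`. -/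
theorem IsMax.slice (hP : IsMax P) : ∀ (n : ℕ) (x y : Fin n → C),
    (∀ q, ∑ r, x r * q * y r ∈ P) →
      ∀ g : C →ₗ[ℂ] ℂ, (∀ p ∈ P, g p = 0) → ∑ r, g (y r) • x r ∈ P := by
  intro n
  induction n with
  | zero => intro x y _ g _; simp
  | succ n ih =>
    intro x y H g hg
    by_cases hdep : ∃ r, y r ∈ idealSub P ⊔
        Submodule.span ℂ (Set.range fun i : Fin n => y (r.succAbove i))
    · obtain ⟨r, hr⟩ := hdep
      obtain ⟨p, hp, w, hw, e⟩ := Submodule.mem_sup.1 hr
      obtain ⟨c, rfl⟩ := (Submodule.mem_span_range_iff_exists_fun ℂ).1 hw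
      have hp' : p ∈ P := hp
      have H' : ∀ q, ∑ i, (x (r.succAbove i) + c i • x r) * q * y (r.succAbove i) ∈ P := by
        intro q
        have h1 := P.sub_mem (H q) (P.mul_mem_left (x r * q) _ hp')
        rw [Fin.sum_univ_succAbove _ r, ← e] at h1
        convert h1 using 1
        simp only [mul_add, add_mul, sum_add_distrib, mul_sum, smul_mul_assoc, mul_smul_comm]
        abel
      have := ih _ _ H' g hg
      rw [Fin.sum_univ_succAbove _ r, ← e]
      convert this using 1
      simp only [map_add, hg p hp', zero_add, map_sum, map_smul, smul_add, sum_add_distrib,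
        smul_smul, sum_smul, smul_eq_mul]
      rw [add_comm]
      congr 1
      exact sum_congr rfl fun i _ => by rw [mul_comm]
    · push Not at hdep
      refine sum_mem_ideal P _ _ fun r _ => smul_mem_ideal P _ ?_
      by_contra hxr
      obtain ⟨m, a, b, e⟩ := hP.exists_rep (x r) hxr
      set B : Fin (n + 1) → C := fun s => ∑ i, a i * x s * b i with hB
      have hBq : ∀ q, ∑ s, B s * q * y s ∈ P := by
        intro q
        simp only [hB, sum_mul]
        rw [sum_comm]
        refine sum_mem_ideal P _ _ fun i _ => ?_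
        have := P.mul_mem_left (a i) _ (H (b i * q))
        simpa [mul_sum, mul_assoc] using this
      have hcen : ∀ s t, B s * t - t * B s ∈ P := by
        intro s t
        set d : Fin (n + 1) → C := fun s => B s * t - t * B s with hd
        have hdq : ∀ q, ∑ s, d s * q * y s ∈ P := by
          intro q
          have := P.sub_mem (hBq (t * q)) (P.mul_mem_left t _ (hBq q))
          simpa [hd, sub_mul, mul_sum, mul_assoc, sum_sub_distrib] using this
        have hdr : d r ∈ P := by
          have h1 := P.sub_mem (P.mul_mem_right _ t e) (P.mul_mem_left t _ e)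
          simpa [hd, hB, sub_mul, mul_sub] using h1
        rcases Fin.eq_self_or_eq_succAbove r s with rfl | ⟨i, rfl⟩
        · exact hdr
        · have hd' : ∀ q, ∑ i, d (r.succAbove i) * q * y (r.succAbove i) ∈ P := by
            intro q
            have h1 := hdq q
            rw [Fin.sum_univ_succAbove _ r] at h1
            simpa using P.sub_mem h1 (P.mul_mem_right _ (y r) (P.mul_mem_right _ q hdr))
          obtain ⟨f, hf, hfP, hfy⟩ := exists_functional P _ (hdep (r.succAbove i))
          have := ih _ _ hd' f hfP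
          rw [Finset.sum_eq_single i] at this
          · have h2 := smul_mem_ideal P (f (y (r.succAbove i)))⁻¹ this
            simpa [hd, smul_smul, inv_mul_cancel₀ hf] using h2
          · intro k _ hk
            obtain ⟨k', hk'⟩ := Fin.exists_succAbove_eq
              (x := r.succAbove k) (y := r.succAbove i) (fun e' => hk (Fin.succAbove_right_injective e'))
            rw [hfy _ ⟨k', by simp only [hk']⟩, zero_smul]
          · simp
      choose c hc using fun s => hP.scalar_of_central' (hcen s)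
      have h0 : ∑ s, c s • y s ∈ P := by
        have h1 := P.sub_mem (hBq 1)
          (sum_mem_ideal P univ _ fun s _ => P.mul_mem_right _ (y s) (hc s))
        simpa [sub_mul, sum_sub_distrib, Algebra.smul_def] using h1
      have hcr : c r = 1 := by
        have h1 := P.sub_mem e (hc r)
        simp only [hB] at h1
        rw [sub_sub_sub_cancel_left, ← map_one (algebraMap ℂ C), ← map_sub] at h1
        exact sub_eq_zero.1 (hP.eq_zero_of_algebraMap h1)
      refine hdep r ?_
      rw [Fin.sum_univ_succAbove _ r, hcr, one_smul] at h0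
      have h3 : ∑ i, c (r.succAbove i) • y (r.succAbove i) ∈
          Submodule.span ℂ (Set.range fun i : Fin n => y (r.succAbove i)) :=
        Submodule.sum_mem _ fun i _ => Submodule.smul_mem _ _ (Submodule.subset_span ⟨i, rfl⟩)
      have := Submodule.sub_mem _ (Submodule.mem_sup_left (T := Submodule.span ℂ
        (Set.range fun i : Fin n => y (r.succAbove i))) (show _ ∈ idealSub P from h0))
        (Submodule.mem_sup_right h3)
      simpa using this

end Tensor

end Vale.Agent.P101
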