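import Mathlib
import Vale.Agent.P101.Ideal

/-! Square-zero elements and a non-scalar element. -/

open Finset

namespace Vale.Agent.P101

section Char

variable {C : Type*} [CStarAlgebra C] {P : TwoSidedIdeal C}

/-- If every element is scalar modulo `P`, there is a character. -/
theorem IsMax.nonempty_char (hP : IsMax P) (h : ∀ x : C, ∃ r : ℂ, x - algebraMap ℂ C r ∈ P) :
    Nonempty (C →⋆ₐ[ℂ] ℂ) := by
  choose χ hχ using h
  have huniq : ∀ x r, x - algebraMap ℂ C r ∈ P → χ x = r := by
    intro x r hr
    have := P.sub_mem hr (hχ x)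
    rw [sub_sub_sub_cancel_left, ← map_sub] at this
    exact sub_eq_zero.1 (hP.eq_zero_of_algebraMap this)
  refine ⟨{ toFun := χ, map_one' := huniq 1 1 (by simp),
            map_mul' := fun x y => huniq _ _ ?_, map_zero' := huniq 0 0 (by simp),
            map_add' := fun x y => huniq _ _ ?_, commutes' := fun r => huniq _ _ (by simp),
            map_star' := fun x => huniq _ _ ?_ }⟩
  · have := P.add_mem (P.mul_mem_right _ y (hχ x))
      (P.mul_mem_left (algebraMap ℂ C (χ x)) _ (hχ y))
    rw [sub_mul, mul_sub, sub_add_sub_cancel, ← map_mul] at this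
    exact this
  · have := P.add_mem (hχ x) (hχ y)
    rwa [sub_add_sub_comm, ← map_add] at this
  · have := hP.star_mem (hχ x)
    rwa [star_sub, ← algebraMap_star_comm] at this

/-- Without characters, the square-zero elements generate the algebra as an ideal. -/
theorem exists_nilp_gen (h : IsEmpty (C →⋆ₐ[ℂ] ℂ)) :
    ∃ (n : ℕ) (a v b : Fin n → C), (∀ i, v i * v i = 0) ∧ ∑ i, a i * v i * b i = 1 := by
  by_contra hno
  obtain ⟨P, hP, hG⟩ := exists_isMax {v : C | v * v = 0}
    fun n a g b hg he => hno ⟨n, a, g, b, hg, he⟩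
  refine h.false (hP.nonempty_char fun x => ?_).some
  have hsa : ∀ z : C, IsSelfAdjoint z → ∃ r : ℝ, z - algebraMap ℝ C r ∈ P := by
    intro z hz
    refine hP.scalar_of_dichotomy hz fun t => hP.mem_or_mem fun c => hG ?_
    have e0 : cfc (fun x => max (x - t) 0) z * cfc (fun x => max (t - x) 0) z = 0 := by
      rw [← cfc_mul _ _ z]
      refine (cfc_congr fun x _ => ?_).trans (cfc_const_zero ℝ z)
      rcases le_total x t with hx | hx
      · simp [max_eq_right (by linarith : x - t ≤ 0)]
      · simp [max_eq_right (by linarith : t - x ≤ 0)]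
    set f := cfc (fun x => max (t - x) 0) z
    set g := cfc (fun x => max (x - t) 0) z
    show f * c * g * (f * c * g) = 0
    calc f * c * g * (f * c * g) = f * c * (g * f) * c * g := by noncomm_ring
      _ = 0 := by simp [e0]
  obtain ⟨u, hu⟩ := hsa _ (realPart x).2
  obtain ⟨v, hv⟩ := hsa _ (imaginaryPart x).2
  refine ⟨(u : ℂ) + Complex.I * v, ?_⟩
  have := P.add_mem hu (smul_mem_ideal P Complex.I hv)
  convert this using 1
  conv_lhs => rw [← realPart_add_I_smul_imaginaryPart x]
  rw [IsScalarTower.algebraMap_apply ℝ ℂ C u, IsScalarTower.algebraMap_apply ℝ ℂ C v,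
    map_add, map_mul, smul_sub, Algebra.smul_def Complex.I (algebraMap ℂ C (algebraMap ℝ ℂ v))]
  simp only [Complex.coe_algebraMap]
  abel

/-- A hermitian functional killing `P` which does not vanish at a self-adjoint element. -/
theorem IsMax.exists_hermitian (hP : IsMax P) {z : C} (hz : IsSelfAdjoint z) (hzP : z ∉ P) :
    ∃ f : C →ₗ[ℂ] ℂ, (∀ p ∈ P, f p = 0) ∧ (∀ x, f (star x) = star (f x)) ∧ f z ≠ 0 := by
  obtain ⟨g, hg, hgP, -⟩ := exists_functional P ∅ (x := z) (by rw [Submodule.span_empty, sup_bot_eq]; exact hzP)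
  have key : ∀ g : C →ₗ[ℂ] ℂ, ∃ f : C →ₗ[ℂ] ℂ, ∀ x, f x = g x + star (g (star x)) := fun g =>
    ⟨{ toFun := fun x => g x + star (g (star x))
       map_add' := fun x y => by simp only [star_add, map_add]; abel
       map_smul' := fun r x => by simp [star_smul, mul_add] }, fun x => rfl⟩
  obtain ⟨f1, hf1⟩ := key g
  obtain ⟨f2, hf2⟩ := key (Complex.I • g)
  have hk : ∀ p ∈ P, f1 p = 0 ∧ f2 p = 0 := fun p hp => by
    simp [hf1, hf2, hgP p hp, hgP _ (hP.star_mem hp)]
  have hh : ∀ x, f1 (star x) = star (f1 x) ∧ f2 (star x) = star (f2 x) := fun x => by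
    constructor
    · rw [hf1, hf1, star_add, star_star, star_star, add_comm]
    · rw [hf2, hf2, star_add, star_star, star_star, add_comm]
  by_cases h1 : f1 z = 0
  · refine ⟨f2, fun p hp => (hk p hp).2, fun x => (hh x).2, fun h2 => hg ?_⟩
    rw [hf1, hz.star_eq] at h1
    rw [hf2, hz.star_eq, LinearMap.smul_apply, smul_eq_mul, star_mul', Complex.star_def,
      Complex.conj_I, ← Complex.star_def] at h2
    linear_combination (1 / 2 : ℂ) * h1 - (Complex.I / 2) * h2 + (g z - star (g z)) / 2 * Complex.I_sq
  · exact ⟨f1, fun p hp => (hk p hp).1, fun x => (hh x).1, h1⟩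

end Char

section Pairs

variable {C : Type*} [CStarAlgebra C] {D : Type*} [CStarAlgebra D] {m : ℕ}

/-- The sum over pairs of copies of the products of the corresponding generators. -/
noncomputable def pairSum {R : Type*} [Fintype R] (θ : Fin m → (D →⋆ₐ[ℂ] C)) (L : R → D) : C :=
  ∑ p ∈ univ.filter (fun p : Fin m × Fin m => p.1 < p.2), ∑ r, θ p.1 (L r) * θ p.2 (L r)

variable {θ : Fin m → (D →⋆ₐ[ℂ] C)} {R : Type*} [Fintype R] {L : R → D}

lemma isSelfAdjoint_pairSum (hθ : CommFam θ) (hL : ∀ r, IsSelfAdjoint (L r)) :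
    IsSelfAdjoint (pairSum θ L) := by
  refine isSelfAdjoint_sum _ fun p hp => isSelfAdjoint_sum _ fun r _ => ?_
  exact (((hL r).map (θ p.1)).commute_iff ((hL r).map (θ p.2))).1
    (hθ _ _ (mem_filter.1 hp).2.ne _ _)

/-- The double commutator picks out one pair. -/
lemma double_comm (hθ : CommFam θ) (L : R → D) (a b : D) {j l : Fin m} (h : j < l) :
    θ l b * (θ j a * pairSum θ L - pairSum θ L * θ j a)
      - (θ j a * pairSum θ L - pairSum θ L * θ j a) * θ l b
      = ∑ r, θ j (a * L r - L r * a) * θ l (b * L r - L r * b) := by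
  let δ : C →+ C := ((AddMonoidHom.mulLeft (θ l b)).comp
      (AddMonoidHom.mulLeft (θ j a) - AddMonoidHom.mulRight (θ j a)))
    - ((AddMonoidHom.mulRight (θ l b)).comp
      (AddMonoidHom.mulLeft (θ j a) - AddMonoidHom.mulRight (θ j a)))
  have hδ : ∀ c, δ c = θ l b * (θ j a * c - c * θ j a) - (θ j a * c - c * θ j a) * θ l b :=
    fun c => rfl
  rw [← hδ, pairSum, map_sum, Finset.sum_eq_single (j, l)]
  · rw [map_sum]
    refine sum_congr rfl fun r _ => ?_
    rw [hδ, map_sub, map_sub, map_mul, map_mul, map_mul, map_mul]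
    have c1 := hθ j l h.ne
    have e1 : θ j a * (θ j (L r) * θ l (L r)) - θ j (L r) * θ l (L r) * θ j a
        = (θ j a * θ j (L r) - θ j (L r) * θ j a) * θ l (L r) := by
      rw [sub_mul, mul_assoc (θ j (L r)) (θ l (L r)), ← (c1 a (L r)).eq]
      simp only [mul_assoc]
    rw [e1, ← map_mul, ← map_mul, ← map_sub, ← map_mul, ← map_mul, mul_sub, ← mul_assoc,
      ← (c1 (a * L r - L r * a) b).eq]
    simp only [map_mul, mul_assoc]
  · intro p hp hne
    rw [map_sum]
    refine sum_eq_zero fun r _ => ?_
    rw [hδ]
    have hlt : p.1 < p.2 := (mem_filter.1 hp).2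
    by_cases hj : p.1 ≠ j ∧ p.2 ≠ j
    · rw [((hθ j p.1 hj.1.symm a (L r)).mul_right (hθ j p.2 hj.2.symm a (L r))).eq]
      simp
    · have hl : p.1 ≠ l ∧ p.2 ≠ l := by
        refine ⟨fun e => ?_, fun e => ?_⟩
        · rw [not_and_or, not_not, not_not] at hj
          rcases hj with e' | e'
          · exact h.ne (e'.symm.trans e)
          · omega
        · rw [not_and_or, not_not, not_not] at hj
          rcases hj with e' | e'
          · exact hne (Prod.ext e' e)
          · exact h.ne (e'.symm.trans e)
      have c3 : Commute (θ l b) (θ p.1 (L r) * θ p.2 (L r)) :=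
        (hθ l p.1 hl.1.symm b (L r)).mul_right (hθ l p.2 hl.2.symm b (L r))
      have c4 : Commute (θ l b) (θ j a) := hθ l j h.ne' b a
      rw [((c4.mul_right c3).sub_right (c3.mul_right c4)).eq, sub_self]
  · simp [h]

/-- The pair sum is not a scalar in any simple quotient. -/
theorem pairSum_not_scalar (hθ : CommFam θ) (hgen : Gen θ) (hL : ∀ r, IsSelfAdjoint (L r))
    (hcard : Fintype.card R < m) {n : ℕ} (a v b : Fin n → D) (hv : ∀ i, v i * v i = 0)
    (hsum : ∑ i, a i * v i * b i = 1) (hspan : ∀ i, v i ∈ Submodule.span ℂ (Set.range L))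
    {P : TwoSidedIdeal C} (hP : IsMax P) (lam : ℝ) : pairSum θ L - algebraMap ℝ C lam ∉ P := by
  intro hX
  have hex : ∀ j, ∃ a : D, IsSelfAdjoint a ∧ ∃ r, θ j (a * L r - L r * a) ∉ P := by
    intro j
    by_contra hno
    push Not at hno
    have hall : ∀ r (d : D), θ j (d * L r - L r * d) ∈ P := by
      intro r d
      have h1 := hno _ (realPart d).2 r
      have h2 := hno _ (imaginaryPart d).2 r
      have := P.add_mem h1 (smul_mem_ideal P Complex.I h2)
      rw [← map_smul, ← map_add] at this
      convert this using 2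
      conv_lhs => rw [← realPart_add_I_smul_imaginaryPart d]
      simp only [add_mul, mul_add, smul_sub, smul_mul_assoc, mul_smul_comm]
      abel
    have hcen : ∀ r c, θ j (L r) * c - c * θ j (L r) ∈ P := by
      intro r c
      set Z := centralMod P fun x hx => hP.star_mem hx with hZ
      set U : StarSubalgebra ℂ C :=
        { carrier := {c | θ j (L r) * c - c * θ j (L r) ∈ P}
          one_mem' := by simp
          zero_mem' := by simp
          add_mem' := fun {x y} hx hy => by
            show θ j (L r) * (x + y) - (x + y) * θ j (L r) ∈ P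
            have := P.add_mem hx hy
            convert this using 1
            noncomm_ring
          mul_mem' := fun {x y} hx hy => by
            show θ j (L r) * (x * y) - x * y * θ j (L r) ∈ P
            have := P.add_mem (P.mul_mem_right _ y hx) (P.mul_mem_left x _ hy)
            convert this using 1
            noncomm_ring
          algebraMap_mem' := fun q => by simp [Algebra.commutes q]
          star_mem' := fun {x} hx => by
            show θ j (L r) * star x - star x * θ j (L r) ∈ P
            have := P.neg_mem (hP.star_mem hx)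
            simpa [star_sub, star_mul, ((hL r).map (θ j)).star_eq] using this }
      refine hgen U (hP.closed.preimage (by fun_prop)) (fun i d => ?_) c
      show θ j (L r) * θ i d - θ i d * θ j (L r) ∈ P
      rcases eq_or_ne i j with rfl | hij
      · have := P.neg_mem (hall r d)
        simpa using this
      · simp [(hθ i j hij d (L r)).eq]
    choose q hq using fun r => hP.scalar_of_central' (hcen r)
    refine hP.one_notMem ?_
    rw [← map_one (θ j), ← hsum, map_sum]
    refine sum_mem_ideal P _ _ fun i _ => ?_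
    rw [map_mul, map_mul]
    refine P.mul_mem_right _ _ (P.mul_mem_left _ _ ?_)
    obtain ⟨c, hc⟩ := (Submodule.mem_span_range_iff_exists_fun ℂ).1 (hspan i)
    have hvs : θ j (v i) - algebraMap ℂ C (∑ r, c r * q r) ∈ P := by
      have := sum_mem_ideal P univ _ fun r _ => smul_mem_ideal P (c r) (hq r)
      convert this using 1
      rw [← hc]
      rw [map_sum, map_sum, ← sum_sub_distrib]
      refine sum_congr rfl fun r _ => ?_
      rw [map_smul, map_mul, smul_sub, Algebra.smul_def (c r) (algebraMap ℂ C (q r))]
    have hz : ∑ r, c r * q r = 0 := by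
      have h1 := P.mul_mem_left (θ j (v i) + algebraMap ℂ C (∑ r, c r * q r)) _ hvs
      rw [add_mul, mul_sub, mul_sub, ← map_mul, hv, map_zero,
        ← Algebra.commutes (∑ r, c r * q r) (θ j (v i))] at h1
      have h2 : algebraMap ℂ C ((∑ r, c r * q r) * ∑ r, c r * q r) ∈ P := by
        simpa using P.neg_mem h1
      exact mul_self_eq_zero.1 (hP.eq_zero_of_algebraMap h2)
    simpa [hz] using hvs
  choose A hA r0 hr0 using hex
  set e : Fin m → R → D := fun j r => Complex.I • (A j * L r - L r * A j) with he
  have hesa : ∀ j r, IsSelfAdjoint (e j r) := fun j r => by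
    show star (Complex.I • (A j * L r - L r * A j)) = _
    rw [star_smul, star_sub, star_mul, star_mul, (hA j).star_eq, (hL r).star_eq,
      Complex.star_def, Complex.conj_I, neg_smul, ← smul_neg, neg_sub]
  have hne : ∀ j, θ j (e j (r0 j)) ∉ P := fun j hmem => hr0 j (by
    simpa [he, smul_smul, Complex.I_mul_I, neg_smul] using smul_mem_ideal P (-Complex.I) hmem)
  choose f hfP hfs hfz using fun j => hP.exists_hermitian ((hesa j (r0 j)).map (θ j)) (hne j)
  let w : Fin m → EuclideanSpace ℝ R := fun j =>
    WithLp.toLp 2 fun r => (f j (θ j (e j r))).re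
  have him : ∀ j r, f j (θ j (e j r)) = ((f j (θ j (e j r))).re : ℂ) := fun j r => by
    have := hfs j (θ j (e j r))
    rw [((hesa j r).map (θ j)).star_eq, Complex.star_def] at this
    exact (Complex.conj_eq_iff_re.1 this.symm).symm
  have horth : ∀ j l, j < l → ∑ r, (f j (θ j (e j r))).re * (f l (θ l (e l r))).re = 0 := by
    intro j l hjl
    have hd : ∑ r, θ j (e j r) * θ l (e l r) ∈ P := by
      have h1 : ∀ a : C, a * pairSum θ L - pairSum θ L * a ∈ P := fun a => by
        have := P.sub_mem (P.mul_mem_left a _ hX) (P.mul_mem_right _ a hX)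
        simpa [mul_sub, sub_mul, Algebra.commutes lam a] using this
      have h2 := P.sub_mem (P.mul_mem_left (θ l (A l)) _ (h1 (θ j (A j))))
        (P.mul_mem_right _ (θ l (A l)) (h1 (θ j (A j))))
      rw [double_comm hθ L (A j) (A l) hjl] at h2
      have := smul_mem_ideal P (Complex.I * Complex.I) h2
      convert this using 1
      simp [he, smul_sum, smul_smul]
    have hq := fun q => sandwich hθ hgen hP.closed j (fun r => e j r) (fun r => θ l (e l r))
      (fun r d => hθ j l hjl.ne d _) hd q
    set σ := (Fintype.equivFin R).symm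
    have hsl := hP.slice _ (fun s => θ j (e j (σ s))) (fun s => θ l (e l (σ s)))
      (fun q => by rw [σ.sum_comp fun r => θ j (e j r) * q * θ l (e l r)]; exact hq q) (f l) (hfP l)
    have h0 := hfP j _ hsl
    rw [map_sum, σ.sum_comp fun r => f j (f l (θ l (e l r)) • θ j (e j r))] at h0
    simp only [map_smul, smul_eq_mul] at h0
    rw [sum_congr rfl fun r _ => by rw [him l r, him j r]] at h0
    have := congrArg Complex.re h0
    simp only [Complex.re_sum, Complex.mul_re, Complex.ofReal_re, Complex.ofReal_im, mul_zero,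
      sub_zero, Complex.zero_re] at this
    rw [← this]
    exact sum_congr rfl fun r _ => mul_comm _ _
  have hli : LinearIndependent ℝ w := by
    refine linearIndependent_of_ne_zero_of_inner_eq_zero (fun j h0 => hfz j ?_) fun j l hjl => ?_
    · have : (f j (θ j (e j (r0 j)))).re = 0 := by
        simpa [w] using congrArg (fun x : EuclideanSpace ℝ R => x (r0 j)) h0
      rw [him j (r0 j), this, Complex.ofReal_zero]
    · show inner ℝ (w j) (w l) = 0
      rw [PiLp.inner_apply]
      rcases lt_or_gt_of_ne hjl with h' | h'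
      · simpa [w, mul_comm] using horth j l h'
      · simpa [w] using horth l j h'
  have := hli.fintype_card_le_finrank
  rw [finrank_euclideanSpace, Fintype.card_fin] at this
  omega

end Pairs

end Vale.Agent.P101
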