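import Mathlib
import Vale.Agent.P101.Ideal

/-! Separable generated subalgebras and commuting copies obtained by re-indexing. -/

open TopologicalSpace

namespace Vale.Agent.P101

section Gen

variable {F : Type*} [CStarAlgebra F]

/-- The closed unital *-subalgebra generated by a set. -/
def genAlg (s : Set F) : StarSubalgebra ℂ F := (StarAlgebra.adjoin ℂ s).topologicalClosure

lemma isClosed_genAlg (s : Set F) : IsClosed (genAlg s : Set F) :=
  StarSubalgebra.isClosed_topologicalClosure _

lemma subset_genAlg (s : Set F) : s ⊆ genAlg s :=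
  (StarAlgebra.subset_adjoin ℂ s).trans (StarSubalgebra.le_topologicalClosure _)

lemma genAlg_le {s : Set F} {U : StarSubalgebra ℂ F} (hU : IsClosed (U : Set F))
    (h : s ⊆ U) : genAlg s ≤ U :=
  StarSubalgebra.topologicalClosure_minimal (StarAlgebra.adjoin_le h) hU

lemma isSeparable_adjoin {s : Set F} (hs : IsSeparable s) :
    IsSeparable ((StarAlgebra.adjoin ℂ s : StarSubalgebra ℂ F) : Set F) := by
  obtain ⟨c, hc, hsc⟩ := hs
  set M : Set F := c ∪ star c
  have hM : M.Countable := hc.union (by rw [← Set.image_star]; exact hc.image _)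
  have hW : (Submonoid.closure M : Set F).Countable := by
    have : Countable M := hM.to_subtype
    rw [Submonoid.closure_eq_mrange]
    exact Set.countable_range _
  set W : Submodule ℂ F := Submodule.span ℂ (Submonoid.closure M : Set F) with hWd
  have hsub : ((StarAlgebra.adjoin ℂ c).toSubalgebra : Subalgebra ℂ F) = Algebra.adjoin ℂ M := by
    rw [StarAlgebra.adjoin_toSubalgebra]
  have h1 : IsSeparable ((StarAlgebra.adjoin ℂ c).topologicalClosure : Set F) := by
    rw [StarSubalgebra.topologicalClosure_coe]
    refine IsSeparable.closure ?_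
    have e : ((StarAlgebra.adjoin ℂ c : StarSubalgebra ℂ F) : Set F) = W := by
      rw [← StarSubalgebra.coe_toSubalgebra, hsub, ← Subalgebra.coe_toSubmodule,
        Algebra.adjoin_eq_span]
    rw [e]
    exact hW.isSeparable.span
  refine h1.mono ?_
  refine StarAlgebra.adjoin_le fun x hx => ?_
  have := closure_mono (StarAlgebra.subset_adjoin ℂ c) (hsc hx)
  rwa [← StarSubalgebra.topologicalClosure_coe] at this

lemma isSeparable_genAlg {s : Set F} (hs : IsSeparable s) :
    IsSeparable (genAlg s : Set F) := by
  rw [genAlg, StarSubalgebra.topologicalClosure_coe]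
  exact (isSeparable_adjoin hs).closure

lemma hom_continuous {D : Type*} [CStarAlgebra D] {E : Type*} [CStarAlgebra E]
    (φ : D →⋆ₐ[ℂ] E) : Continuous φ :=
  AddMonoidHomClass.continuous_of_bound φ 1 fun a => by
    rw [one_mul]; exact NonUnitalStarAlgHom.norm_apply_le φ a

/-- A closed unital *-subalgebra is a C*-algebra. -/
noncomputable abbrev subCStar (D : StarSubalgebra ℂ F) (hD : IsClosed (D : Set F)) :
    CStarAlgebra D :=
  StarSubalgebra.cstarAlgebra D (h_closed := hD)

theorem exists_copies (hR : Reindex F) (D : StarSubalgebra ℂ F) [hD : IsClosed (D : Set F)]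
    (hsep : IsSeparable (D : Set F)) (T : Set F) (hT : T.Countable) : ∀ m : ℕ,
      ∃ θ : Fin m → (D →⋆ₐ[ℂ] F), CommFam θ ∧ ∀ j d, ∀ t ∈ T, Commute (θ j d) t := by
  let := subCStar D hD
  intro m
  induction m with
  | zero => exact ⟨fun j => j.elim0, fun i => i.elim0, fun j => j.elim0⟩
  | succ m ih =>
    obtain ⟨θ, hθ, hθT⟩ := ih
    have : SeparableSpace D := hsep.separableSpace
    obtain ⟨c, hc, hcd⟩ := exists_countable_dense D
    obtain ⟨φ, hφ⟩ := hR D hD hsep (T ∪ ⋃ j, θ j '' c)
      (hT.union (Set.countable_iUnion fun j => hc.image _))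
    have hcomm : ∀ j e d, Commute (φ e) (θ j d) := by
      intro j e d
      have hcl : IsClosed {d | Commute (φ e) (θ j d)} :=
        isClosed_eq (continuous_const.mul (hom_continuous (θ j)))
          ((hom_continuous (θ j)).mul continuous_const)
      have : closure c ⊆ {d | Commute (φ e) (θ j d)} :=
        hcl.closure_subset_iff.2 fun d hd =>
          hφ e _ (Or.inr (Set.mem_iUnion.2 ⟨j, d, hd, rfl⟩))
      exact this (hcd d)
    refine ⟨Fin.cons φ θ, ?_, ?_⟩
    · intro i j hij x y
      induction i using Fin.cases with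
      | zero =>
        induction j using Fin.cases with
        | zero => exact absurd rfl hij
        | succ j => simpa using hcomm j x y
      | succ i =>
        induction j using Fin.cases with
        | zero => simpa using (hcomm i y x).symm
        | succ j => simpa using hθ i j (fun e => hij (e ▸ rfl)) x y
    · intro j d t ht
      induction j using Fin.cases with
      | zero => simpa using hφ d t (Or.inl ht)
      | succ j => simpa using hθT j d t ht

/-- Generating commuting copies in a separable subalgebra. -/
theorem exists_family (hR : Reindex F) (D : StarSubalgebra ℂ F) [hD : IsClosed (D : Set F)]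
    (hsep : IsSeparable (D : Set F)) (m : ℕ) :
    ∃ (C : StarSubalgebra ℂ F) (hC : IsClosed (C : Set F)), IsSeparable (C : Set F) ∧
      ∃ θ : Fin m → (D →⋆ₐ[ℂ] C), letI := subCStar C hC
        CommFam θ ∧ Gen θ := by
  let := subCStar D hD
  obtain ⟨θ, hθ, -⟩ := exists_copies hR D hsep ∅ Set.countable_empty m
  set s : Set F := ⋃ j, Set.range (θ j) with hs
  set C := genAlg s with hCd
  have hC : IsClosed (C : Set F) := isClosed_genAlg s
  have : SeparableSpace D := hsep.separableSpace
  refine ⟨C, hC, isSeparable_genAlg (IsSeparable.iUnion fun j =>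
    isSeparable_range (hom_continuous (θ j))), fun j => (θ j).codRestrict C fun d =>
      subset_genAlg s (Set.mem_iUnion.2 ⟨j, d, rfl⟩), ?_, ?_⟩
  · intro i j hij x y
    exact Subtype.ext (hθ i j hij x y).eq
  · intro U hU hmem c
    have hcl : IsClosed ((U.map C.subtype : StarSubalgebra ℂ F) : Set F) := by
      rw [StarSubalgebra.coe_map]
      exact hC.isClosedEmbedding_subtypeVal.isClosedMap _ hU
    have hle : genAlg s ≤ U.map C.subtype := by
      refine genAlg_le hcl fun x hx => ?_
      obtain ⟨j, d, rfl⟩ := Set.mem_iUnion.1 hx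
      exact ⟨_, hmem j d, rfl⟩
    obtain ⟨u, hu, e⟩ := hle c.2
    exact Subtype.ext (e : (u : F) = c) ▸ hu

end Gen

end Vale.Agent.P101
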