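import Mathlib
import Vale.Agent.P101.Ideal
import Vale.Agent.P101.Copies

/-! Windows for commuting self-adjoint elements, tents, and periodic arcs. -/

open Finset

namespace Vale.Agent.P101

section Window

variable {C : Type*} [CStarAlgebra C]

/-- Functional calculus of commuting self-adjoint elements vanishes off the joint window. -/
theorem window_eq_zero {G : ℕ} (Y : Fin G → C) (hY : ∀ g, IsSelfAdjoint (Y g))
    (hcomm : ∀ g g', Commute (Y g) (Y g')) (w : Fin G → ℝ → ℝ) (hw : ∀ g, Continuous (w g))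
    (f : ℝ → ℝ) (hf : Continuous f)
    (hzero : ∀ x : Fin G → ℝ, (∀ g, w g (x g) ≠ 0) → f (∑ g, x g) = 0) :
    cfc f (∑ g, Y g) * ((List.finRange G).map fun g => cfc (w g) (Y g)).prod = 0 := by
  set B := genAlg (Set.range Y) with hB
  have hBc : IsClosed (B : Set C) := isClosed_genAlg _
  have hmem : ∀ g, Y g ∈ B := fun g => subset_genAlg _ ⟨g, rfl⟩
  have hcl : ∀ s : Set C, IsClosed ((StarSubalgebra.centralizer ℂ s : StarSubalgebra ℂ C) : Set C) :=
    fun s => by rw [StarSubalgebra.coe_centralizer]; exact Set.isClosed_centralizer _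
  have h1 : B ≤ StarSubalgebra.centralizer ℂ (Set.range Y) := by
    refine genAlg_le (hcl _) ?_
    rintro _ ⟨g, rfl⟩
    rw [SetLike.mem_coe, StarSubalgebra.mem_centralizer_iff]
    rintro _ ⟨g', rfl⟩
    rw [(hY g').star_eq]
    exact ⟨hcomm g' g, hcomm g' g⟩
  have hBcomm : ∀ x ∈ B, ∀ y ∈ B, x * y = y * x := by
    intro x hx y hy
    have h2 : B ≤ StarSubalgebra.centralizer ℂ {x} := by
      refine genAlg_le (hcl _) ?_
      rintro _ ⟨g, rfl⟩
      rw [SetLike.mem_coe, StarSubalgebra.mem_centralizer_iff]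
      rintro _ rfl
      have a1 := (StarSubalgebra.mem_centralizer_iff ℂ).1 (h1 hx) _ ⟨g, rfl⟩
      have a2 := (StarSubalgebra.mem_centralizer_iff ℂ).1 (h1 (star_mem hx)) _ ⟨g, rfl⟩
      exact ⟨a1.1.symm, a2.1.symm⟩
    exact ((StarSubalgebra.mem_centralizer_iff ℂ).1 (h2 hy) x rfl).1
  let : CommCStarAlgebra B :=
    { subCStar B hBc with mul_comm := fun x y => Subtype.ext (hBcomm x x.2 y y.2) }
  let Z : Fin G → B := fun g => ⟨Y g, hmem g⟩
  have hZ : ∀ g, IsSelfAdjoint (Z g) := fun g => Subtype.ext (hY g)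
  have hS : IsSelfAdjoint (∑ g, Z g) := isSelfAdjoint_sum _ fun g _ => hZ g
  have hι : Continuous (B.subtype : B →⋆ₐ[ℂ] C) := continuous_subtype_val
  have key : cfc f (∑ g, Z g) * ((List.finRange G).map fun g => cfc (w g) (Z g)).prod = 0 := by
    refine (gelfandTransform_isometry B).injective ?_
    rw [map_zero]
    refine ContinuousMap.ext fun φ => ?_
    show φ _ = 0
    have hφ : Continuous φ := map_continuous φ
    have hcfc : ∀ (k : ℝ → ℝ), Continuous k → ∀ z : B, IsSelfAdjoint z →
        φ (cfc k z) = (k (φ z).re : ℂ) := by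
      intro k hk z hz
      have hr : φ z = ((φ z).re : ℂ) := (Complex.conj_eq_iff_re.1 (hz.map φ).star_eq).symm
      rw [StarAlgHomClass.map_cfc (S := ℂ) φ k z hk.continuousOn hφ hz (hz.map φ)]
      conv_lhs => rw [hr]
      rw [show ((φ z).re : ℂ) = algebraMap ℝ ℂ (φ z).re from rfl, cfc_algebraMap]
      rfl
    rw [map_mul]
    by_cases hall : ∀ g, w g (φ (Z g)).re ≠ 0
    · rw [hcfc f hf _ hS, map_sum, Complex.re_sum, hzero _ hall]
      simp
    · push Not at hall
      obtain ⟨g, hg⟩ := hall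
      rw [map_list_prod]
      refine mul_eq_zero_of_right _ (List.prod_eq_zero ?_)
      simp only [List.map_map, List.mem_map, Function.comp_apply]
      exact ⟨g, List.mem_finRange g, by rw [hcfc _ (hw g) _ (hZ g), hg]; simp⟩
  have := congrArg B.subtype key
  rw [map_mul, map_zero, map_list_prod, List.map_map,
    StarAlgHom.map_cfc B.subtype f _ hf.continuousOn hι hS (hS.map B.subtype), map_sum] at this
  have hl : (List.finRange G).map (fun g => cfc (w g) (Y g)) =
      (List.finRange G).map (⇑B.subtype ∘ fun g => cfc (w g) (Z g)) :=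
    List.map_congr_left fun g _ =>
      (StarAlgHom.map_cfc B.subtype (w g) _ (hw g).continuousOn hι (hZ g) (hY g)).symm
  rw [hl]
  exact this

end Window

/-- A tent of half-width `δ` at `c`. -/
noncomputable def tent (δ c : ℝ) (x : ℝ) : ℝ := max 0 (1 - |x - c| / δ)

lemma continuous_tent (δ c : ℝ) : Continuous (tent δ c) := by
  unfold tent; fun_prop

lemma abs_le_of_tent_ne_zero {δ c x : ℝ} (hδ : 0 < δ) (h : tent δ c x ≠ 0) : |x - c| ≤ δ := by
  by_contra! hlt
  refine h (max_eq_left ?_)
  rw [sub_nonpos, le_div_iff₀ hδ]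
  linarith

section Tent

variable {C : Type*} [CStarAlgebra C] {P : TwoSidedIdeal C}

/-- If `(s - z)₊ ∉ P`, some tent at a point below `s` is not in `P`. -/
theorem IsMax.exists_tent (hP : IsMax P) {z : C} (_hz : IsSelfAdjoint z) {s δ : ℝ} (hδ : 0 < δ)
    (h : cfc (fun x => max (s - x) 0) z ∉ P) :
    ∃ c, -‖z‖ ≤ c ∧ c ≤ s ∧ cfc (tent δ c) z ∉ P := by
  have : Nontrivial C := ⟨⟨1, 0, fun e => hP.one_notMem (e ▸ P.zero_mem)⟩⟩
  set S := {t : ℝ | cfc (fun x => max (t - x) 0) z ∈ P} with hS
  have hzero : ∀ t ≤ -‖z‖, t ∈ S := by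
    intro t ht
    show cfc (fun x => max (t - x) 0) z ∈ P
    have e : cfc (fun x => max (t - x) 0) z = 0 := by
      refine (cfc_congr fun x hx => ?_).trans (cfc_const_zero ℝ z)
      have := abs_le.1 (Real.norm_eq_abs x ▸ spectrum.norm_le_norm_of_mem hx)
      exact max_eq_right (by linarith)
    rw [e]
    exact P.zero_mem
  have hdown : ∀ u t, u < t → t ∈ S → u ∈ S := by
    intro u t hut ht
    have hd : ∀ x, 0 < max (max (t - x) 0) (t - u) := fun x =>
      lt_max_of_lt_right (sub_pos.2 hut)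
    have e : (fun x => max (u - x) 0) = fun x =>
        max (t - x) 0 * (max (u - x) 0 / max (max (t - x) 0) (t - u)) := by
      funext x
      rcases le_total x u with hx | hx
      · rw [max_eq_left (by linarith : (0:ℝ) ≤ t - x),
          max_eq_left (by linarith : t - u ≤ t - x), max_eq_left (by linarith : (0:ℝ) ≤ u - x)]
        have : t - x ≠ 0 := by linarith
        field_simp
      · simp [max_eq_right (by linarith : u - x ≤ 0)]
    have hk : Continuous fun x => max (u - x) 0 / max (max (t - x) 0) (t - u) :=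
      Continuous.div (by fun_prop) (by fun_prop) fun x => (hd x).ne'
    show cfc (fun x => max (u - x) 0) z ∈ P
    rw [e, cfc_mul _ _ z (by fun_prop) hk.continuousOn]
    exact P.mul_mem_right _ _ ht
  have hb : ∀ t ∈ S, t < s := fun t ht => lt_of_not_ge fun hst => h (by
    rcases hst.eq_or_lt with e | e
    · exact e ▸ ht
    · exact hdown _ _ e ht)
  have hne : S.Nonempty := ⟨_, hzero _ le_rfl⟩
  have hbd : BddAbove S := ⟨s, fun t ht => (hb t ht).le⟩
  set c := sSup S with hc
  refine ⟨c, le_csSup hbd (hzero _ le_rfl), csSup_le hne fun t ht => (hb t ht).le, fun hmem => ?_⟩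
  have h1 : c - δ / 2 ∈ S := by
    obtain ⟨t, ht, hlt⟩ := exists_lt_of_lt_csSup hne (by linarith : c - δ / 2 < c)
    exact hdown _ _ hlt ht
  have h2 : c + δ / 2 ∉ S := fun hm => by linarith [le_csSup hbd hm]
  refine h2 ?_
  show cfc (fun x => max (c + δ / 2 - x) 0) z ∈ P
  set κ := min (1 / 2) (δ / 2) with hκ
  have hκ0 : 0 < κ := lt_min (by norm_num) (by linarith)
  set q : ℝ → ℝ := fun x => max (c + δ / 2 - x) 0 /
    max (max (c - δ / 2 - x) 0 + tent δ c x) κ with hq
  have hqc : Continuous q := by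
    have := continuous_tent δ c
    exact Continuous.div (by fun_prop) (by fun_prop) fun x => (lt_max_of_lt_right hκ0).ne'
  have e : (fun x => max (c + δ / 2 - x) 0) =
      fun x => (max (c - δ / 2 - x) 0 + tent δ c x) * q x := by
    funext x
    rcases le_or_gt (c + δ / 2) x with hx | hx
    · simp [hq, max_eq_right (by linarith : c + δ / 2 - x ≤ 0)]
    · have hlow : κ ≤ max (c - δ / 2 - x) 0 + tent δ c x := by
        have t0 : 0 ≤ tent δ c x := le_max_left _ _
        rcases le_or_gt (c - δ / 2) x with h' | h'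
        · have : (1 / 2 : ℝ) ≤ tent δ c x := by
            refine le_trans ?_ (le_max_right _ _)
            have : |x - c| / δ ≤ 1 / 2 := by
              rw [div_le_iff₀ hδ, abs_le]; constructor <;> linarith
            linarith
          linarith [min_le_left (1 / 2 : ℝ) (δ / 2), le_max_right (c - δ / 2 - x) 0]
        · rw [max_eq_left (by linarith : (0:ℝ) ≤ c - δ / 2 - x)]
          rcases le_or_gt δ (c - x) with h'' | h''
          · linarith [min_le_right (1 / 2 : ℝ) (δ / 2)]
          · have ht : 1 - (c - x) / δ ≤ tent δ c x := by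
              refine le_trans (le_of_eq ?_) (le_max_right _ _)
              rw [abs_of_nonpos (by linarith), neg_sub]
            set u := (c - x) / δ with hu
            have hux : c - x = u * δ := by rw [hu, div_mul_cancel₀ _ hδ.ne']
            have hu1 : u < 1 := by rw [hu, div_lt_one hδ]; linarith
            have hu2 : (1 / 2 : ℝ) < u := by rw [hu, lt_div_iff₀ hδ]; linarith
            nlinarith [min_le_left (1 / 2 : ℝ) (δ / 2), min_le_right (1 / 2 : ℝ) (δ / 2),
              mul_nonneg (sub_nonneg.2 hu1.le) (sub_nonneg.2 (min_le_left (1 / 2 : ℝ) (δ / 2))),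
              mul_nonneg (sub_nonneg.2 hu2.le) (sub_nonneg.2 (min_le_right (1 / 2 : ℝ) (δ / 2)))]
      simp only [hq, max_eq_left hlow]
      rw [mul_div_cancel₀ _ (lt_of_lt_of_le hκ0 hlow).ne']
  have hct := continuous_tent δ c
  rw [e, cfc_mul _ _ z (by fun_prop) hqc.continuousOn, cfc_add z _ _ (by fun_prop) hct.continuousOn]
  exact P.mul_mem_right _ _ (P.add_mem h1 hmem)

/-- The mirrored statement. -/
theorem IsMax.exists_tent' (hP : IsMax P) {z : C} (hz : IsSelfAdjoint z) {t δ : ℝ} (hδ : 0 < δ)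
    (h : cfc (fun x => max (x - t) 0) z ∉ P) :
    ∃ c, t ≤ c ∧ c ≤ ‖z‖ ∧ cfc (tent δ c) z ∉ P := by
  have e : cfc (fun x => max (-t - x) 0) (-z) = cfc (fun x => max (x - t) 0) z := by
    rw [← cfc_comp_neg (fun x => max (-t - x) 0) z]
    refine cfc_congr fun x _ => ?_
    ring_nf
  obtain ⟨c, h1, h2, h3⟩ := hP.exists_tent hz.neg hδ (e ▸ h)
  refine ⟨-c, by linarith, by rw [norm_neg] at h1; linarith, fun hm => h3 ?_⟩
  rw [← cfc_comp_neg (tent δ c) z (continuous_tent δ c).continuousOn]
  have ef : (fun x => tent δ c (-x)) = tent δ (-c) := by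
    funext x
    simp only [tent]
    rw [abs_sub_comm (-x) c, show c - -x = x - -c by ring]
  rw [ef]
  exact hm

end Tent

section Arcs

open Real

/-- The `i`-th periodic arc function. -/
noncomputable def arc (T : ℕ) (Per : ℝ) (i : ℕ) (x : ℝ) : ℝ :=
  max 0 (cos (2 * π * (x / Per - (i : ℝ) / T)) - cos (π / T))

lemma continuous_arc (T : ℕ) (Per : ℝ) (i : ℕ) : Continuous (arc T Per i) := by
  unfold arc; fun_prop

lemma exists_int_of_arc_pos {T : ℕ} (hT : 1 ≤ T) {Per : ℝ} {i : ℕ} {x : ℝ}
    (h : 0 < arc T Per i x) : ∃ z : ℤ, |x / Per - (i : ℝ) / T - z| < 1 / (2 * T) := by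
  set u := x / Per - (i : ℝ) / T with hu
  have hc : cos (π / T) < cos (2 * π * u) := by
    by_contra! hle
    exact h.ne' (max_eq_left (sub_nonpos.2 hle))
  refine ⟨round u, ?_⟩
  have hv : |u - round u| ≤ 1 / 2 := abs_sub_round u
  have hT' : (1 : ℝ) ≤ T := by exact_mod_cast hT
  by_contra! hge
  have hpi := Real.pi_pos
  have e : cos (2 * π * u) = cos (2 * π * |u - round u|) := by
    rw [show 2 * π * |u - round u| = |2 * π * (u - round u)| by
        rw [abs_mul (2 * π), abs_of_pos (by positivity : 0 < 2 * π)],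
      Real.cos_abs, show 2 * π * (u - round u) = 2 * π * u - (round u : ℤ) * (2 * π) by ring,
      Real.cos_sub_int_mul_two_pi]
  have hle : cos (2 * π * |u - round u|) ≤ cos (π / T) := by
    refine Real.cos_le_cos_of_nonneg_of_le_pi (by positivity) (by nlinarith) ?_
    rw [div_le_iff₀ (by positivity)]
    rw [div_le_iff₀ (by positivity)] at hge
    nlinarith
  linarith [e ▸ hc]

lemma arc_nonneg (T : ℕ) (Per : ℝ) (i : ℕ) (x : ℝ) : 0 ≤ arc T Per i x := le_max_left _ _

/-- Different arcs are disjoint. -/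
lemma arc_mul_eq_zero {T : ℕ} {Per : ℝ} {i l : ℕ} (hi : i < T) (hl : l < T) (hil : i ≠ l)
    (x : ℝ) : arc T Per i x * arc T Per l x = 0 := by
  rcases (arc_nonneg T Per i x).eq_or_lt with h | h
  · rw [← h, zero_mul]
  rcases (arc_nonneg T Per l x).eq_or_lt with h' | h'
  · rw [← h', mul_zero]
  have hT : 1 ≤ T := by omega
  obtain ⟨z, hz⟩ := exists_int_of_arc_pos hT h
  obtain ⟨z', hz'⟩ := exists_int_of_arc_pos hT h'
  have hT' : (0 : ℝ) < T := by exact_mod_cast hT
  have h1 := abs_lt.1 hz
  have h2 := abs_lt.1 hz'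
  have e : (1 : ℝ) / (2 * T) * T = 1 / 2 := by field_simp
  have a1 := mul_lt_mul_of_pos_right h1.1 hT'
  have a2 := mul_lt_mul_of_pos_right h1.2 hT'
  have a3 := mul_lt_mul_of_pos_right h2.1 hT'
  have a4 := mul_lt_mul_of_pos_right h2.2 hT'
  simp only [sub_mul, neg_mul, div_mul_cancel₀ _ hT'.ne', e] at a1 a2 a3 a4
  have k1 : ((l : ℤ) - i + (z' - z) * T : ℤ) < (1 : ℝ) := by push_cast; linarith
  have k2 : (-1 : ℝ) < ((l : ℤ) - i + (z' - z) * T : ℤ) := by push_cast; linarith
  have k3 : (l : ℤ) - i + (z' - z) * T = 0 := by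
    have u1 : (l : ℤ) - i + (z' - z) * T < 1 := by exact_mod_cast k1
    have u2 : -1 < (l : ℤ) - i + (z' - z) * T := by exact_mod_cast k2
    omega
  exfalso
  rcases lt_trichotomy (z' - z) 0 with hz0 | hz0 | hz0
  · have : (z' - z) * T ≤ -(T : ℤ) := by nlinarith
    omega
  · rw [hz0, zero_mul] at k3
    omega
  · have : (T : ℤ) ≤ (z' - z) * T := by nlinarith
    omega

/-- An arc is bounded below near its centre. -/
lemma arc_lower {T : ℕ} {Per r : ℝ} (i : ℕ) (z : ℤ) (hT : 1 ≤ T) (hPer : 0 < Per) (hr : 0 ≤ r)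
    (hrP : 2 * r * T < Per) : 0 < cos (2 * π * (r / Per)) - cos (π / T) ∧
      ∀ x, |x - Per * ((i : ℝ) / T + z)| ≤ r →
        cos (2 * π * (r / Per)) - cos (π / T) ≤ arc T Per i x := by
  have hT' : (0 : ℝ) < T := by exact_mod_cast hT
  have hpi := Real.pi_pos
  have hlt : 2 * π * (r / Per) < π / T := by
    rw [lt_div_iff₀ hT', show 2 * π * (r / Per) * T = π * (2 * r * T / Per) by ring]
    calc π * (2 * r * T / Per) < π * 1 := by
          gcongr
          rw [div_lt_one hPer]; exact hrP
      _ = π := mul_one π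
  have hpiT : π / T ≤ π := div_le_self hpi.le (by exact_mod_cast hT)
  refine ⟨sub_pos.2 (Real.cos_lt_cos_of_nonneg_of_le_pi (by positivity) hpiT hlt), fun x hx => ?_⟩
  refine le_trans (sub_le_sub_right ?_ _) (le_max_right _ _)
  set u := x / Per - (i : ℝ) / T with hu
  have hz : |u - z| ≤ r / Per := by
    have e : u - z = (x - Per * ((i : ℝ) / T + z)) / Per := by
      rw [hu]; field_simp; ring
    rw [e, abs_div, abs_of_pos hPer]
    gcongr
  have e : cos (2 * π * u) = cos (2 * π * |u - z|) := by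
    rw [show 2 * π * |u - z| = |2 * π * (u - z)| by
        rw [abs_mul (2 * π), abs_of_pos (by positivity : 0 < 2 * π)],
      Real.cos_abs, show 2 * π * (u - z) = 2 * π * u - (z : ℤ) * (2 * π) by ring,
      Real.cos_sub_int_mul_two_pi]
  rw [e]
  exact Real.cos_le_cos_of_nonneg_of_le_pi (by positivity) (hlt.le.trans hpiT) (by gcongr)

end Arcs

end Vale.Agent.P101
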