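import Mathlib
import Vale.Agent.P101.Nilp
import Vale.Agent.P101.Window

/-! A single full square-zero element. -/

open Finset TopologicalSpace

namespace Vale.Agent.P101

section Spread

variable {C : Type*} [CStarAlgebra C]

/-- Finitely many gaps witness that `X` is nowhere scalar, in every larger algebra. -/
theorem exists_gaps {X : C} (hX : IsSelfAdjoint X)
    (hns : ∀ P : TwoSidedIdeal C, IsMax P → ∀ r : ℝ, X - algebraMap ℝ C r ∉ P) :
    ∃ (N : ℕ) (s t : Fin N → ℝ), (∀ i, s i < t i) ∧ ∃ a c b : Fin N → C,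
      ∑ i, a i * (cfc (fun x => max (s i - x) 0) X * c i * cfc (fun x => max (x - t i) 0) X) * b i
        = 1 := by
  set G : Set C := {w | ∃ s t : ℝ, s < t ∧ ∃ c,
    cfc (fun x => max (s - x) 0) X * c * cfc (fun x => max (x - t) 0) X = w}
  by_contra hno
  obtain ⟨P, hP, hG⟩ := exists_isMax G fun n a g b hg he => hno (by
    choose s t hst c hc using hg
    exact ⟨n, s, t, hst, a, c, b, by simp only [hc]; exact he⟩)
  obtain ⟨r, hr⟩ := hP.scalar_of_dichotomy hX fun t => by
    by_contra hne
    rw [not_or] at hne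
    have : ∃ s, s < t ∧ cfc (fun x => max (s - x) 0) X ∉ P := by
      by_contra hs
      push Not at hs
      refine hne.1 (hP.closed.closure_subset (Metric.mem_closure_iff.2 fun ε hε => ?_))
      refine ⟨_, hs (t - ε / 2) (by linarith), ?_⟩
      rw [dist_eq_norm, ← cfc_sub (fun x => max (t - x) 0) (fun x => max (t - ε / 2 - x) 0) X]
      refine lt_of_le_of_lt (norm_cfc_le (c := ε / 2) (by positivity) fun x _ => ?_) (by linarith)
      rw [Real.norm_eq_abs, abs_le]
      rcases max_cases (t - x) 0 with ⟨a1, a2⟩ | ⟨a1, a2⟩ <;>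
        rcases max_cases (t - ε / 2 - x) 0 with ⟨b1, b2⟩ | ⟨b1, b2⟩ <;>
        constructor <;> rw [a1, b1] <;> linarith
    obtain ⟨s, hst, hs⟩ := this
    rcases hP.mem_or_mem (fun c => hG ⟨s, t, hst, c, rfl⟩) with h | h
    · exact hs h
    · exact hne.2 h
  exact hns P hP r hr

end Spread

section Main

variable {F : Type*} [CStarAlgebra F]

/-- Copies of a separable C*-algebra `D` inside a reindexable algebra generate nicely. -/
theorem exists_full_sq_zero (hR : Reindex F) (h : IsEmpty (F →⋆ₐ[ℂ] ℂ)) :
    ∃ v : F, v * v = 0 ∧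
      ∃ (n : ℕ) (b : Fin n → F), ∑ i, star (b i) * (star v * v) * b i = 1 := by
  obtain ⟨n, a, v, b, hv, hsum⟩ := exists_nilp_gen h
  -- the separable algebra carrying the data
  set D := genAlg (Set.range a ∪ Set.range v ∪ Set.range b) with hDd
  have hD : IsClosed (D : Set F) := isClosed_genAlg _
  let := subCStar D hD
  have hDs : IsSeparable (D : Set F) :=
    isSeparable_genAlg (((Set.finite_range a).union (Set.finite_range v)).union
      (Set.finite_range b)).countable.isSeparable
  let a0 : Fin n → D := fun i => ⟨a i, subset_genAlg _ (Or.inl (Or.inl ⟨i, rfl⟩))⟩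
  let v0 : Fin n → D := fun i => ⟨v i, subset_genAlg _ (Or.inl (Or.inr ⟨i, rfl⟩))⟩
  let b0 : Fin n → D := fun i => ⟨b i, subset_genAlg _ (Or.inr ⟨i, rfl⟩)⟩
  have hsum0 : ∑ i, a0 i * v0 i * b0 i = 1 := Subtype.ext (by simpa [a0, v0, b0] using hsum)
  have hv0 : ∀ i, v0 i * v0 i = 0 := fun i => Subtype.ext (hv i)
  let L : Fin n ⊕ Fin n → D := Sum.elim (fun i => realPart (v0 i)) fun i => imaginaryPart (v0 i)
  have hL : ∀ r, IsSelfAdjoint (L r) := by
    rintro (i | i) <;> simp [L]
  have hspan : ∀ i, v0 i ∈ Submodule.span ℂ (Set.range L) := fun i => by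
    conv => arg 2; rw [← realPart_add_I_smul_imaginaryPart (v0 i)]
    exact Submodule.add_mem _ (Submodule.subset_span ⟨Sum.inl i, rfl⟩)
      (Submodule.smul_mem _ _ (Submodule.subset_span ⟨Sum.inr i, rfl⟩))
  -- first family
  obtain ⟨C1, hC1, hC1s, θ, hθ⟩ := exists_family hR D hDs (2 * n + 1)
  let := subCStar C1 hC1
  obtain ⟨hθc, hθg⟩ := hθ
  set X := pairSum θ L with hXd
  have hX : IsSelfAdjoint X := isSelfAdjoint_pairSum hθc hL
  obtain ⟨N, s, t, hst, ca, cc, cb, hgap⟩ := exists_gaps hX fun P hP r =>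
    pairSum_not_scalar hθc hθg hL (by simp; omega) a0 v0 b0 hv0 hsum0 hspan hP r
  obtain ⟨η, hη, hηle⟩ : ∃ η : ℝ, 0 < η ∧ ∀ i, η ≤ t i - s i := by
    rcases isEmpty_or_nonempty (Fin N) with hN | hN
    · exact ⟨1, one_pos, fun i => hN.elim i⟩
    · obtain ⟨i, hi⟩ := Finite.exists_min fun i => t i - s i
      exact ⟨_, sub_pos.2 (hst i), hi⟩
  -- parameters
  set K := ‖X‖ with hK
  have hK0 : 0 ≤ K := norm_nonneg _
  set T := n + 1 with hT
  set Per : ℝ := 2 * T * (2 * K + 2) with hPerd
  have hPer : 0 < Per := by positivity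
  obtain ⟨G, hG⟩ := exists_nat_ge (Per / η)
  have hGη : Per ≤ G * η := by rwa [div_le_iff₀ hη] at hG
  set δ : ℝ := 1 / ((G : ℝ) + 1) with hδd
  have hδ : 0 < δ := by positivity
  have hGδ : (G : ℝ) * δ ≤ 1 := by
    rw [hδd, mul_one_div, div_le_one (by positivity)]; linarith
  -- second family
  obtain ⟨C2, hC2, -, ρ, hρ⟩ := exists_family hR C1 hC1s (G + 1)
  let := subCStar C2 hC2
  obtain ⟨hρc, hρg⟩ := hρ
  let Y : Fin G → C2 := fun g => ρ g.succ X
  have hY : ∀ g, IsSelfAdjoint (Y g) := fun g => hX.map _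
  have hYc : ∀ g g', Commute (Y g) (Y g') := fun g g' => by
    rcases eq_or_ne g g' with rfl | hne
    · exact Commute.refl _
    · exact hρc _ _ (fun e => hne (Fin.succ_injective _ e)) _ _
  set S := ∑ g, Y g with hSd
  have hS : IsSelfAdjoint S := isSelfAdjoint_sum _ fun g _ => hY g
  let e : Fin n → C2 := fun i => cfc (arc T Per i) S
  have he0 : ∀ i l, i ≠ l → e i * e l = 0 := fun i l hil => by
    show cfc (arc T Per i) S * cfc (arc T Per l) S = 0
    rw [← cfc_mul _ _ S (continuous_arc T Per i).continuousOn (continuous_arc T Per l).continuousOn]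
    exact (cfc_congr fun x _ => arc_mul_eq_zero (by omega) (by omega)
      (fun h' => hil (Fin.ext h')) x).trans (cfc_const_zero ℝ S)
  let u : Fin n → C2 := fun i => ρ 0 (θ 0 (v0 i))
  have huS : ∀ i d, Commute (ρ 0 d) (cfc (arc T Per i) S) := fun i d =>
    ((Commute.sum_right _ _ _ fun g _ => hρc 0 g.succ (Fin.succ_ne_zero g).symm d X).symm.cfc_real
      _).symm
  set w : C2 := ∑ i, u i * e i with hwd
  have hw : w * w = 0 := by
    rw [hwd, sum_mul_sum]
    refine sum_eq_zero fun i _ => sum_eq_zero fun l _ => ?_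
    rw [((huS i (θ 0 (v0 l))).symm).mul_mul_mul_comm]
    rcases eq_or_ne i l with rfl | hil
    · simp [u, ← map_mul, hv0]
    · rw [he0 i l hil, mul_zero]
  -- fullness
  have hfull : ∃ (m : ℕ) (p q : Fin m → C2), ∑ i, p i * w * q i = 1 := by
    by_contra hno
    obtain ⟨P, hP, hwP⟩ := exists_isMax {w} fun m p g q hg he => hno ⟨m, p, q, by
      simpa [Set.mem_singleton_iff.1 (hg _)] using he⟩
    have hw' : w ∈ P := hwP rfl
    have hch : ∀ g : Fin G, ∃ lam mu : ℝ, -K ≤ lam ∧ lam + η ≤ mu ∧ mu ≤ K ∧
        cfc (tent δ lam) (Y g) ∉ P ∧ cfc (tent δ mu) (Y g) ∉ P := by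
      intro g
      have hρcont := hom_continuous (ρ g.succ)
      have hex : ∃ i, cfc (fun x => max (s i - x) 0) (Y g) ∉ P ∧
          cfc (fun x => max (x - t i) 0) (Y g) ∉ P := by
        by_contra hne
        push Not at hne
        refine hP.one_notMem ?_
        rw [← map_one (ρ g.succ), ← hgap, map_sum]
        refine sum_mem_ideal P _ _ fun i _ => ?_
        simp only [map_mul]
        rw [StarAlgHom.map_cfc (ρ g.succ) _ X (by fun_prop) hρcont hX (hY g),
          StarAlgHom.map_cfc (ρ g.succ) _ X (by fun_prop) hρcont hX (hY g)]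
        refine P.mul_mem_right _ _ (P.mul_mem_left _ _ ?_)
        by_cases h1 : cfc (fun x => max (s i - x) 0) (Y g) ∈ P
        · exact P.mul_mem_right _ _ (P.mul_mem_right _ _ h1)
        · exact P.mul_mem_left _ _ (hne i h1)
      obtain ⟨i, h1, h2⟩ := hex
      obtain ⟨lam, l1, l2, l3⟩ := hP.exists_tent (hY g) hδ h1
      obtain ⟨mu, m1, m2, m3⟩ := hP.exists_tent' (hY g) hδ h2
      have hn : ‖Y g‖ ≤ K := NonUnitalStarAlgHom.norm_apply_le (ρ g.succ) X
      exact ⟨lam, mu, by linarith, by linarith [hηle i], by linarith, l3, m3⟩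
    choose lam mu hlam hgapη hmu hlP hmP using hch
    let σ : ℕ → ℝ := fun k => ∑ g : Fin G, if (g : ℕ) < k then mu g else lam g
    have hσ0 : σ 0 = ∑ g, lam g := by simp [σ]
    have hσG : σ 0 + Per ≤ σ G := by
      have : σ G = ∑ g, mu g := by simp [σ]
      rw [this, hσ0]
      have : ∑ g : Fin G, (lam g + η) ≤ ∑ g, mu g := sum_le_sum fun g _ => hgapη g
      simp [sum_add_distrib] at this
      linarith
    have hstep : ∀ k, σ (k + 1) ≤ σ k + 2 * K := by
      intro k
      show ∑ g : Fin G, _ ≤ ∑ g : Fin G, _ + 2 * K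
      have hle : ∀ g : Fin G, (if (g : ℕ) < k + 1 then mu g else lam g) ≤
          (if (g : ℕ) < k then mu g else lam g) + if (g : ℕ) = k then 2 * K else 0 := by
        intro g
        rcases lt_trichotomy (g : ℕ) k with h' | h' | h'
        · simp [h', h'.ne, Nat.lt_succ_of_lt h']
        · simp [h']
          linarith [hlam g, hmu g]
        · simp [not_lt.2 h'.le, h'.ne', not_lt.2 (Nat.succ_le_of_lt h')]
      refine (sum_le_sum fun g _ => hle g).trans ?_
      rw [sum_add_distrib]
      gcongr
      by_cases hk : k < G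
      · rw [Finset.sum_eq_single ⟨k, hk⟩ (fun g _ hg => if_neg fun e' => hg (Fin.ext e')) (by simp)]
        simp
      · rw [sum_eq_zero fun (g : Fin G) _ => if_neg fun (e' : (g : ℕ) = k) => hk (e' ▸ g.2)]
        linarith
    -- for every index a window
    have hwin : ∀ i : Fin n, ∃ (k : ℝ → ℝ) (d : Fin (G + 1) → C1),
        Continuous k ∧ (∀ g : Fin G, ρ g.succ (d g.succ) ∉ P) ∧
          ∀ l : Fin n, cfc (arc T Per l) S * cfc k S *
              ((List.finRange G).map fun g => ρ g.succ (d g.succ)).prod =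
            if l = i then ((List.finRange G).map fun g => ρ g.succ (d g.succ)).prod else 0 := by
      intro i
      set z : ℤ := ⌈σ 0 / Per - (i : ℕ) / (T : ℝ)⌉ with hz
      set y := Per * (((i : ℕ) : ℝ) / T + z) with hy
      have hy0 : σ 0 ≤ y := by
        have h1 := Int.le_ceil (σ 0 / Per - (i : ℕ) / (T : ℝ))
        rw [← hz, sub_le_iff_le_add, div_le_iff₀ hPer] at h1
        rw [hy]; linarith
      have hy1 : y ≤ σ 0 + Per := by
        have h1 := (Int.ceil_lt_add_one (σ 0 / Per - (i : ℕ) / (T : ℝ))).le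
        rw [← hz] at h1
        have h2 := mul_le_mul_of_nonneg_left h1 hPer.le
        rw [mul_add, mul_sub, mul_div_cancel₀ _ hPer.ne'] at h2
        rw [hy]; linarith
      classical
      have hexk : ∃ k, y ≤ σ k := ⟨G, hy1.trans hσG⟩
      set k0 := Nat.find hexk
      have hk1 : y ≤ σ k0 := Nat.find_spec hexk
      have hk2 : σ k0 ≤ y + 2 * K := by
        rcases Nat.eq_zero_or_eq_succ_pred k0 with e0 | e0
        · rw [e0]; linarith
        · have hlt : ¬ y ≤ σ k0.pred := Nat.find_min hexk (Nat.pred_lt (by rw [e0]; simp))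
          rw [e0]
          exact (hstep _).trans (by linarith)
      let cs : Fin G → ℝ := fun g => if (g : ℕ) < k0 then mu g else lam g
      set r : ℝ := 2 * K + 1 with hr
      have hrP : 2 * r * T < Per := by
        have hT' : (0 : ℝ) < T := by positivity
        rw [hPerd]; nlinarith
      obtain ⟨hc0, hlow⟩ := arc_lower (T := T) i z (by omega) hPer (by positivity : 0 ≤ r) hrP
      set c := Real.cos (2 * Real.pi * (r / Per)) - Real.cos (Real.pi / T)
      let k : ℝ → ℝ := fun x => (max (arc T Per i x) c)⁻¹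
      have hk : Continuous k := Continuous.inv₀
        ((continuous_arc T Per i).max continuous_const) fun x => (lt_max_of_lt_right hc0).ne'
      let d : Fin (G + 1) → C1 := Fin.cons 0 fun g => cfc (tent δ (cs g)) X
      have hd : ∀ g : Fin G, ρ g.succ (d g.succ) = cfc (tent δ (cs g)) (Y g) := fun g => by
        simp only [d, Fin.cons_succ]
        exact StarAlgHom.map_cfc (ρ g.succ) _ X (continuous_tent δ _).continuousOn
          (hom_continuous _) hX (hY g)
      refine ⟨k, d, hk, fun g => ?_, fun l => ?_⟩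
      · rw [hd]
        simp only [cs]
        split_ifs
        exacts [hmP g, hlP g]
      simp only [hd]
      set Pi := ((List.finRange G).map fun g => cfc (tent δ (cs g)) (Y g)).prod
      set h0 : ℝ := if l = i then 1 else 0 with hh0
      have key := window_eq_zero Y hY hYc (fun g => tent δ (cs g)) (fun g => continuous_tent δ _)
        (fun x => arc T Per l x * k x - h0) (((continuous_arc T Per l).mul hk).sub continuous_const)
        (fun x hx => by
          have hb : |(∑ g, x g) - σ k0| ≤ 1 := by
            show |(∑ g, x g) - ∑ g, cs g| ≤ 1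
            rw [← sum_sub_distrib]
            refine (abs_sum_le_sum_abs _ _).trans (le_trans ?_ hGδ)
            refine (sum_le_sum fun g _ => abs_le_of_tent_ne_zero hδ (hx g)).trans ?_
            simp
          have hb' := abs_le.1 hb
          have hnear : |(∑ g, x g) - y| ≤ r := abs_le.2 ⟨by linarith, by linarith⟩
          have hpos := hlow _ hnear
          rcases eq_or_ne l i with rfl | hli
          · simp [hh0, k, max_eq_left hpos,
              mul_inv_cancel₀ (lt_of_lt_of_le hc0 hpos).ne']
          · have := arc_mul_eq_zero (T := T) (Per := Per) (i := (l : ℕ)) (l := (i : ℕ))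
              (by omega) (by omega) (fun e' => hli (Fin.ext e')) (∑ g, x g)
            rw [mul_eq_zero] at this
            rcases this with h' | h'
            · simp [hh0, hli, h']
            · exact absurd h' (lt_of_lt_of_le hc0 hpos).ne')
      rw [← hSd, cfc_sub (fun x => arc T Per l x * k x) (fun _ => h0) S
          ((continuous_arc T Per l).mul hk).continuousOn continuousOn_const,
        cfc_mul (arc T Per l) k S (continuous_arc T Per l).continuousOn hk.continuousOn,
        cfc_const h0 S, sub_mul, sub_eq_zero] at key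
      rw [key]
      simp only [hh0]
      split_ifs <;> simp [Pi]
    choose k d hk hdP hwin using hwin
    refine hP.one_notMem ?_
    rw [← map_one (ρ 0), ← map_one (θ 0), ← hsum0, map_sum, map_sum]
    refine sum_mem_ideal P _ _ fun i _ => ?_
    simp only [map_mul]
    refine P.mul_mem_right _ _ (P.mul_mem_left _ _ ?_)
    set Pi := ((List.finRange G).map fun g => ρ g.succ (d i g.succ)).prod with hPi
    have hcomm : Comm ρ 0 Pi := fun x => Commute.list_prod_right _ _ fun z hz => by
      obtain ⟨g, -, rfl⟩ := List.mem_map.1 hz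
      exact hρc _ _ (Fin.succ_ne_zero g).symm _ _
    have hPiP : Pi ∉ P := by
      have := hP.prod_notMem hρc hρg ((List.finRange G).map Fin.succ)
        ((List.nodup_finRange G).map (Fin.succ_injective G)) (d i) (fun j hj => by
          obtain ⟨g, -, rfl⟩ := List.mem_map.1 hj
          exact hdP i g)
      rwa [List.map_map] at this
    have hmem : u i * Pi ∈ P := by
      have := P.mul_mem_right _ (cfc (k i) S * Pi) hw'
      rw [hwd, sum_mul] at this
      convert this using 1
      simp only [e, mul_assoc]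
      rw [Finset.sum_eq_single i]
      · rw [← mul_assoc (cfc (arc T Per i) S), hwin i i, if_pos rfl]
      · intro l _ hl
        rw [← mul_assoc (cfc (arc T Per l) S), hwin i l, if_neg hl, mul_zero]
      · simp
    exact (hP.mem_or_mem_of_comm hρc hρg 0 _ hcomm hmem).resolve_right hPiP
  obtain ⟨m, p, q, hpq⟩ := hfull
  let : PartialOrder C2 := CStarAlgebra.spectralOrder C2
  have : StarOrderedRing C2 := CStarAlgebra.spectralOrderedRing C2
  obtain ⟨q', hq'⟩ := exists_sum_eq_one p q w hpq
  refine ⟨C2.subtype w, by rw [← map_mul, hw, map_zero], m, fun i => C2.subtype (q' i), ?_⟩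
  have := congrArg C2.subtype hq'
  simp only [map_sum, map_mul, map_star, map_one] at this ⊢
  exact this

end Main

end Vale.Agent.P101
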