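import Mathlib
import Vale.Agent.P101.OZ
import Vale.Agent.P101.Defs

/-!
Homomorphisms out of dimension drop algebras.
-/

noncomputable section

open scoped Matrix.Norms.L2Operator Kronecker
open Filter Topology Matrix

namespace Vale.Agent.P101

namespace DD

variable {p q : ℕ}

/-- Matrices over the product index. -/
abbrev MM (p q : ℕ) := Matrix (Fin p × Fin q) (Fin p × Fin q) ℂ

/-- The coordinate. -/
def tt : C(unitInterval, ℂ) := ⟨fun t => ((t : ℝ) : ℂ), by fun_prop⟩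

/-- The weight vanishing at both ends. -/
def ss : C(unitInterval, ℂ) := tt * (1 - tt)

@[simp] lemma tt_apply (t : unitInterval) : tt t = ((t : ℝ) : ℂ) := rfl

@[simp] lemma ss_apply (t : unitInterval) : ss t = ((t : ℝ) : ℂ) * (1 - ((t : ℝ) : ℂ)) := rfl

/-- Embedding on the left. -/
def lft : Matrix (Fin p) (Fin p) ℂ →ₗ[ℂ] MM p q where
  toFun x := x ⊗ₖ (1 : Matrix (Fin q) (Fin q) ℂ)
  map_add' x y := by simp [Matrix.add_kronecker]
  map_smul' r x := by simp [Matrix.smul_kronecker]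

/-- Embedding on the right. -/
def rgt : Matrix (Fin q) (Fin q) ℂ →ₗ[ℂ] MM p q where
  toFun y := (1 : Matrix (Fin p) (Fin p) ℂ) ⊗ₖ y
  map_add' x y := by simp [Matrix.kronecker_add]
  map_smul' r x := by simp [Matrix.kronecker_smul]

lemma lft_apply (x : Matrix (Fin p) (Fin p) ℂ) :
    (lft x : MM p q) = x ⊗ₖ (1 : Matrix (Fin q) (Fin q) ℂ) := rfl

lemma rgt_apply (y : Matrix (Fin q) (Fin q) ℂ) :
    (rgt y : MM p q) = (1 : Matrix (Fin p) (Fin p) ℂ) ⊗ₖ y := rfl

lemma lft_mul (x x' : Matrix (Fin p) (Fin p) ℂ) : (lft (x * x') : MM p q) = lft x * lft x' := by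
  simp [lft_apply, ← Matrix.mul_kronecker_mul]

lemma rgt_mul (y y' : Matrix (Fin q) (Fin q) ℂ) : (rgt (y * y') : MM p q) = rgt y * rgt y' := by
  simp [rgt_apply, ← Matrix.mul_kronecker_mul]

lemma lft_one : (lft 1 : MM p q) = 1 := by simp [lft_apply]

lemma rgt_one : (rgt 1 : MM p q) = 1 := by simp [rgt_apply]

lemma lft_star (x : Matrix (Fin p) (Fin p) ℂ) : (lft (star x) : MM p q) = star (lft x) := by
  simp [lft_apply, Matrix.star_eq_conjTranspose, Matrix.conjTranspose_kronecker]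

lemma rgt_star (y : Matrix (Fin q) (Fin q) ℂ) : (rgt (star y) : MM p q) = star (rgt y) := by
  simp [rgt_apply, Matrix.star_eq_conjTranspose, Matrix.conjTranspose_kronecker]

/-- The left inverse of `lft`. -/
def unlft [NeZero q] : MM p q →ₗ[ℂ] Matrix (Fin p) (Fin p) ℂ where
  toFun Z := Z.submatrix (fun i => (i, 0)) (fun i => (i, 0))
  map_add' _ _ := rfl
  map_smul' _ _ := rfl

/-- The left inverse of `rgt`. -/
def unrgt [NeZero p] : MM p q →ₗ[ℂ] Matrix (Fin q) (Fin q) ℂ where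
  toFun Z := Z.submatrix (fun j => (0, j)) (fun j => (0, j))
  map_add' _ _ := rfl
  map_smul' _ _ := rfl

lemma unlft_lft [NeZero q] (x : Matrix (Fin p) (Fin p) ℂ) : unlft (lft x : MM p q) = x := by
  ext i j
  show (x ⊗ₖ (1 : Matrix (Fin q) (Fin q) ℂ)) (i, 0) (j, 0) = x i j
  simp

lemma unrgt_rgt [NeZero p] (y : Matrix (Fin q) (Fin q) ℂ) : unrgt (rgt y : MM p q) = y := by
  ext i j
  show ((1 : Matrix (Fin p) (Fin p) ℂ) ⊗ₖ y) (0, i) (0, j) = y i j
  simp

/-- Parameters of the dense subalgebra. -/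
abbrev V (p q : ℕ) :=
  Matrix (Fin p) (Fin p) ℂ × Matrix (Fin q) (Fin q) ℂ × C(unitInterval, MM p q)

/-- The function with given parameters. -/
def ev : V p q →ₗ[ℂ] C(unitInterval, MM p q) where
  toFun v := (1 - tt) • ContinuousMap.const _ (lft v.1) + tt • ContinuousMap.const _ (rgt v.2.1)
    + ss • v.2.2
  map_add' v w := by ext1 t; simp [smul_add]; abel
  map_smul' r v := by ext1 t; simp [smul_add, smul_comm _ r]

lemma ev_apply (v : V p q) (t : unitInterval) : ev v t =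
    (1 - ((t : ℝ) : ℂ)) • lft v.1 + ((t : ℝ) : ℂ) • rgt v.2.1
      + (((t : ℝ) : ℂ) * (1 - ((t : ℝ) : ℂ))) • v.2.2 t := rfl

lemma ev_zero_pt (v : V p q) : ev v 0 = lft v.1 := by simp [ev_apply]

lemma ev_one_pt (v : V p q) : ev v 1 = rgt v.2.1 := by simp [ev_apply]

lemma ev_mem (v : V p q) : ev v ∈ dimDrop p q := by
  refine ⟨⟨v.1, ?_⟩, v.2.1, ?_⟩
  · exact ev_zero_pt v
  · exact ev_one_pt v

/-- The unit parameters. -/
def oneV : V p q := (1, 1, 0)

lemma ev_oneV : (ev oneV : C(unitInterval, MM p q)) = 1 := by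
  ext1 t
  simp only [ev_apply, oneV, lft_one, rgt_one, ContinuousMap.zero_apply, smul_zero, add_zero,
    ← add_smul, sub_add_cancel, one_smul, ContinuousMap.one_apply]

/-- Star of parameters. -/
def starV (v : V p q) : V p q := (star v.1, star v.2.1, star v.2.2)

lemma ev_starV (v : V p q) : ev (starV v) = star (ev v) := by
  ext1 t; simp [ev_apply, starV, lft_star, rgt_star]

/-- The linear part. -/
def lin (v : V p q) : C(unitInterval, MM p q) :=
  (1 - tt) • ContinuousMap.const _ (lft v.1) + tt • ContinuousMap.const _ (rgt v.2.1)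

lemma lin_apply (v : V p q) (t : unitInterval) : lin v t =
    (1 - ((t : ℝ) : ℂ)) • lft v.1 + ((t : ℝ) : ℂ) • rgt v.2.1 := rfl

/-- Product of parameters. -/
def mulV (v w : V p q) : V p q :=
  (v.1 * w.1, v.2.1 * w.2.1,
    ContinuousMap.const _ ((lft v.1 - rgt v.2.1) * (rgt w.2.1 - lft w.1))
      + ev v * w.2.2 + v.2.2 * lin w)

lemma ev_mulV (v w : V p q) : ev (mulV v w) = ev v * ev w := by
  ext1 t
  simp only [ContinuousMap.mul_apply, ev_apply, mulV, lft_mul, rgt_mul, ContinuousMap.add_apply,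
    ContinuousMap.const_apply, lin_apply]
  simp only [mul_add, add_mul, mul_sub, sub_mul, smul_add, smul_sub, smul_mul_assoc,
    mul_smul_comm, smul_smul]
  module

variable {F : Type*} [CStarAlgebra F] [PartialOrder F] [StarOrderedRing F]

open scoped Classical in
/-- Functional calculus on the unit interval. -/
def gam (a : F) : C(unitInterval, ℂ) →⋆ₐ[ℂ] F :=
  if h : IsStarNormal a then
    (cfcHom h).comp (ContinuousMap.compStarAlgHom' ℂ ℂ
      ⟨fun z : spectrum ℂ a => Set.projIcc (0 : ℝ) 1 zero_le_one (z : ℂ).re, by fun_prop⟩)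
  else (StarAlgHom.ofId ℂ F).comp (ContinuousMap.evalStarAlgHom ℂ ℂ (0 : unitInterval))

lemma gam_tt {a : F} (h0 : 0 ≤ a) (h1 : a ≤ 1) : gam a tt = a := by
  have hsa : IsSelfAdjoint a := .of_nonneg h0
  have hn : IsStarNormal a := hsa.isStarNormal
  rw [gam, dif_pos hn]
  refine Eq.trans ?_ (cfcHom_id (R := ℂ) hn)
  show cfcHom (R := ℂ) hn _ = cfcHom (R := ℂ) hn _
  congr 1
  ext z
  have hre := hsa.mem_spectrum_eq_re z.2
  have hr : (z : ℂ).re ∈ spectrum ℝ a := by
    have := hsa.spectrumRestricts.apply_mem z.2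
    exact this
  have l0 : 0 ≤ (z : ℂ).re := spectrum_nonneg_of_nonneg h0 hr
  have l1 : (z : ℂ).re ≤ 1 := (le_algebraMap_iff_spectrum_le (r := (1 : ℝ)) hsa).1 (by simpa using h1) _ hr
  show (((Set.projIcc (0 : ℝ) 1 zero_le_one (z : ℂ).re : unitInterval) : ℝ) : ℂ) = (z : ℂ)
  rw [Set.projIcc_of_mem _ ⟨l0, l1⟩]
  exact hre.symm

lemma commute_gam {a b : F} (h0 : 0 ≤ a) (hb : Commute a b) (φ : C(unitInterval, ℂ)) :
    Commute (gam a φ) b := by
  have hsa : IsSelfAdjoint a := .of_nonneg h0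
  rw [gam, dif_pos hsa.isStarNormal]
  exact Commute.cfcHom _ hb (by rwa [hsa.star_eq]) _

section Hom

variable (P : Matrix (Fin p) (Fin p) ℂ →ₗ[ℂ] F) (Q : Matrix (Fin q) (Fin q) ℂ →ₗ[ℂ] F)

/-- The map on the ideal. -/
def TT : C(unitInterval, MM p q) →ₗ[ℂ] F where
  toFun f := ∑ a, ∑ b, gam (Q 1) ⟨fun t => f t a b, by fun_prop⟩
    * pairMap P Q (Matrix.single a b 1)
  map_add' f g := by
    simp only [← Finset.sum_add_distrib, ← add_mul, ← map_add]
    rfl
  map_smul' r f := by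
    simp only [Finset.smul_sum, ← smul_mul_assoc, ← map_smul, RingHom.id_apply]
    rfl

/-- The homomorphism on parameters. -/
def psi : V p q →ₗ[ℂ] F where
  toFun v := P v.1 + Q v.2.1 + TT P Q v.2.2
  map_add' v w := by simp; abel
  map_smul' r v := by simp [smul_add]

lemma psi_apply (v : V p q) : psi P Q v = P v.1 + Q v.2.1 + TT P Q v.2.2 := rfl

lemma eq_sum_smul (f : C(unitInterval, MM p q)) :
    f = ∑ a, ∑ b, (⟨fun t => f t a b, by fun_prop⟩ : C(unitInterval, ℂ))
      • ContinuousMap.const _ (Matrix.single a b (1 : ℂ)) := by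
  ext1 t
  simp only [ContinuousMap.sum_apply, ContinuousMap.smul_apply', ContinuousMap.coe_mk,
    ContinuousMap.const_apply, Matrix.smul_single, smul_eq_mul, mul_one]
  exact Matrix.matrix_eq_sum_single _

lemma TT_smul_const (φ : C(unitInterval, ℂ)) (Z : MM p q) :
    TT P Q (φ • ContinuousMap.const _ Z) = gam (Q 1) φ * pairMap P Q Z := by
  conv_rhs => rw [map_sum_single (pairMap P Q) Z]
  show ∑ a, ∑ b, _ = _
  simp only [Finset.mul_sum]
  refine Finset.sum_congr rfl fun a _ => Finset.sum_congr rfl fun b _ => ?_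
  rw [mul_smul_comm, ← smul_mul_assoc, ← map_smul (gam (Q 1))]
  congr 2
  ext t
  simp [mul_comm]

lemma TT_const (Z : MM p q) : TT P Q (ContinuousMap.const _ Z) = pairMap P Q Z := by
  have := TT_smul_const P Q 1 Z
  have e : ContinuousMap.const unitInterval Z
      = (1 : C(unitInterval, ℂ)) • ContinuousMap.const unitInterval Z := by ext1 t; simp
  rw [map_one, one_mul, ← e] at this
  exact this

variable {P Q}
variable (hP : IsOZ P) (hQ : IsOZ Q) (hc : ∀ x y, Commute (P x) (Q y)) (hu : P 1 + Q 1 = 1)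
  (h0 : 0 ≤ Q 1) (h1 : Q 1 ≤ 1)

include hQ hc h0 in
lemma gam_comm_pair (φ : C(unitInterval, ℂ)) (Z : MM p q) :
    Commute (gam (Q 1) φ) (pairMap P Q Z) :=
  commute_gam h0 (commute_pairMap hc (fun x => (hc x 1).symm) hQ.comm_unit Z) φ

include hc h0 in
lemma gam_comm_left (φ : C(unitInterval, ℂ)) (x : Matrix (Fin p) (Fin p) ℂ) :
    Commute (gam (Q 1) φ) (P x) := commute_gam h0 (hc x 1).symm φ

include hQ h0 in
lemma gam_comm_right (φ : C(unitInterval, ℂ)) (y : Matrix (Fin q) (Fin q) ℂ) :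
    Commute (gam (Q 1) φ) (Q y) := commute_gam h0 (hQ.comm_unit y) φ

include hu h0 h1 in
lemma gam_one_sub : gam (Q 1) (1 - tt) = P 1 := by
  rw [map_sub, map_one, gam_tt h0 h1, ← hu, add_sub_cancel_right]

include hP hQ hc hu h0 h1

lemma TT_mul (f g : C(unitInterval, MM p q)) : TT P Q f * TT P Q g = TT P Q (ss • (f * g)) := by
  have key : ∀ (φ ψ : C(unitInterval, ℂ)) (Z W : MM p q),
      TT P Q (φ • ContinuousMap.const _ Z) * TT P Q (ψ • ContinuousMap.const _ W)
        = TT P Q (ss • ((φ • ContinuousMap.const _ Z) * (ψ • ContinuousMap.const _ W))) := by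
    intro φ ψ Z W
    have e : ss • ((φ • ContinuousMap.const _ Z) * (ψ • ContinuousMap.const _ W))
        = (φ * ψ * ss) • ContinuousMap.const unitInterval (Z * W) := by
      ext1 t; simp [smul_smul]; congr 1; ring
    have e1 : gam (Q 1) ss = pairMap P Q 1 := by
      rw [ss, map_mul, gam_tt h0 h1, gam_one_sub hu h0 h1, ← Matrix.one_kronecker_one,
        pairMap_kron, (hc 1 1).eq]
    rw [e, TT_smul_const, TT_smul_const, TT_smul_const,
      (gam_comm_pair hQ hc h0 ψ Z).symm.mul_mul_mul_comm, (isOZ_pairMap hP hQ hc).mul_map,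
      ← mul_assoc, ← map_mul, ← e1, ← map_mul]
  conv_lhs => rw [eq_sum_smul f, eq_sum_smul g]
  conv_rhs => rw [eq_sum_smul f, eq_sum_smul g]
  simp only [map_sum, Finset.sum_mul, Finset.mul_sum, key]
  have hs : ∀ (z : Fin p × Fin q → C(unitInterval, MM p q)), ss • ∑ i, z i = ∑ i, ss • z i :=
    fun z => by ext1 t; simp [Finset.smul_sum]
  simp only [hs, map_sum]

lemma left_mul_TT (x : Matrix (Fin p) (Fin p) ℂ) (f : C(unitInterval, MM p q)) :
    P x * TT P Q f = TT P Q (((1 - tt) • ContinuousMap.const _ (lft x)) * f) := by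
  have key : ∀ (φ : C(unitInterval, ℂ)) (Z : MM p q),
      P x * TT P Q (φ • ContinuousMap.const _ Z) =
        TT P Q (((1 - tt) • ContinuousMap.const _ (lft x)) * (φ • ContinuousMap.const _ Z)) := by
    intro φ Z
    have e : ((1 - tt) • ContinuousMap.const _ (lft x)) * (φ • ContinuousMap.const _ Z)
        = (φ * (1 - tt)) • ContinuousMap.const unitInterval (lft x * Z) := by
      ext1 t; simp [← Complex.coe_smul, smul_smul]
    rw [e, TT_smul_const, TT_smul_const, (gam_comm_left hc h0 φ x).symm.left_comm,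
      left_mul_pairMap hP hc, map_mul (gam (Q 1)), gam_one_sub hu h0 h1, lft_apply, mul_assoc]
  conv_lhs => rw [eq_sum_smul f]
  conv_rhs => rw [eq_sum_smul f]
  simp only [map_sum, Finset.mul_sum, key]

lemma TT_mul_left (x : Matrix (Fin p) (Fin p) ℂ) (f : C(unitInterval, MM p q)) :
    TT P Q f * P x = TT P Q (f * ((1 - tt) • ContinuousMap.const _ (lft x))) := by
  have key : ∀ (φ : C(unitInterval, ℂ)) (Z : MM p q),
      TT P Q (φ • ContinuousMap.const _ Z) * P x =
        TT P Q ((φ • ContinuousMap.const _ Z) * ((1 - tt) • ContinuousMap.const _ (lft x))) := by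
    intro φ Z
    have e : (φ • ContinuousMap.const _ Z) * ((1 - tt) • ContinuousMap.const _ (lft x))
        = (φ * (1 - tt)) • ContinuousMap.const unitInterval (Z * lft x) := by
      ext1 t; simp [← Complex.coe_smul, smul_smul, mul_comm]
    rw [e, TT_smul_const, TT_smul_const, mul_assoc,
      pairMap_mul_left hP hc, map_mul (gam (Q 1)), gam_one_sub hu h0 h1, lft_apply, mul_assoc]
  conv_lhs => rw [eq_sum_smul f]
  conv_rhs => rw [eq_sum_smul f]
  simp only [map_sum, Finset.sum_mul, key]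

lemma right_mul_TT (y : Matrix (Fin q) (Fin q) ℂ) (f : C(unitInterval, MM p q)) :
    Q y * TT P Q f = TT P Q ((tt • ContinuousMap.const _ (rgt y)) * f) := by
  have key : ∀ (φ : C(unitInterval, ℂ)) (Z : MM p q),
      Q y * TT P Q (φ • ContinuousMap.const _ Z) =
        TT P Q ((tt • ContinuousMap.const _ (rgt y)) * (φ • ContinuousMap.const _ Z)) := by
    intro φ Z
    have e : (tt • ContinuousMap.const _ (rgt y)) * (φ • ContinuousMap.const _ Z)
        = (φ * tt) • ContinuousMap.const unitInterval (rgt y * Z) := by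
      ext1 t; simp [← Complex.coe_smul, smul_smul]
    rw [e, TT_smul_const, TT_smul_const, (gam_comm_right hQ h0 φ y).symm.left_comm,
      right_mul_pairMap hQ hc, map_mul (gam (Q 1)), gam_tt h0 h1, rgt_apply, mul_assoc]
  conv_lhs => rw [eq_sum_smul f]
  conv_rhs => rw [eq_sum_smul f]
  simp only [map_sum, Finset.mul_sum, key]

lemma TT_mul_right (y : Matrix (Fin q) (Fin q) ℂ) (f : C(unitInterval, MM p q)) :
    TT P Q f * Q y = TT P Q (f * (tt • ContinuousMap.const _ (rgt y))) := by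
  have key : ∀ (φ : C(unitInterval, ℂ)) (Z : MM p q),
      TT P Q (φ • ContinuousMap.const _ Z) * Q y =
        TT P Q ((φ • ContinuousMap.const _ Z) * (tt • ContinuousMap.const _ (rgt y))) := by
    intro φ Z
    have e : (φ • ContinuousMap.const _ Z) * (tt • ContinuousMap.const _ (rgt y))
        = (φ * tt) • ContinuousMap.const unitInterval (Z * rgt y) := by
      ext1 t; simp [← Complex.coe_smul, smul_smul, mul_comm]
    rw [e, TT_smul_const, TT_smul_const, mul_assoc,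
      pairMap_mul_right hQ hc, map_mul (gam (Q 1)), gam_tt h0 h1, rgt_apply, mul_assoc]
  conv_lhs => rw [eq_sum_smul f]
  conv_rhs => rw [eq_sum_smul f]
  simp only [map_sum, Finset.sum_mul, key]

lemma TT_star (f : C(unitInterval, MM p q)) : star (TT P Q f) = TT P Q (star f) := by
  have key : ∀ (φ : C(unitInterval, ℂ)) (Z : MM p q),
      star (TT P Q (φ • ContinuousMap.const _ Z))
        = TT P Q (star (φ • ContinuousMap.const _ Z)) := by
    intro φ Z
    have e : star (φ • ContinuousMap.const unitInterval Z)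
        = star φ • ContinuousMap.const unitInterval (star Z) := by
      ext1 t; simp [ContinuousMap.star_apply]
    rw [e, TT_smul_const, TT_smul_const, star_mul, (isOZ_pairMap hP hQ hc).star_map, ← map_star,
      (gam_comm_pair hQ hc h0 _ _).eq]
  conv_lhs => rw [eq_sum_smul f]
  conv_rhs => rw [eq_sum_smul f]
  simp only [map_sum, star_sum, key]

lemma psi_mulV (v w : V p q) : psi P Q (mulV v w) = psi P Q v * psi P Q w := by
  have pp : P v.1 * P w.1 = P (v.1 * w.1) - pairMap P Q (lft (v.1 * w.1)) := by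
    rw [hP.mul_map, lft_apply, pairMap_kron, eq_sub_iff_add_eq, (hc _ _).eq, ← add_mul, hu,
      one_mul]
  have qq : Q v.2.1 * Q w.2.1 = Q (v.2.1 * w.2.1) - pairMap P Q (rgt (v.2.1 * w.2.1)) := by
    rw [hQ.mul_map, rgt_apply, pairMap_kron, eq_sub_iff_add_eq, ← add_mul, add_comm, hu, one_mul]
  have pq : P v.1 * Q w.2.1 = pairMap P Q (lft v.1 * rgt w.2.1) := by
    rw [lft_apply, rgt_apply, ← Matrix.mul_kronecker_mul, mul_one, one_mul, pairMap_kron]
  have qp : Q v.2.1 * P w.1 = pairMap P Q (rgt v.2.1 * lft w.1) := by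
    rw [lft_apply, rgt_apply, ← Matrix.mul_kronecker_mul, mul_one, one_mul, pairMap_kron,
      (hc _ _).eq]
  have e : ev v * w.2.2 = ((1 - tt) • ContinuousMap.const _ (lft v.1)) * w.2.2
      + (tt • ContinuousMap.const _ (rgt v.2.1)) * w.2.2 + ss • (v.2.2 * w.2.2) := by
    ext1 t; simp [ev_apply, add_mul]
  have e' : v.2.2 * lin w = v.2.2 * ((1 - tt) • ContinuousMap.const _ (lft w.1))
      + v.2.2 * (tt • ContinuousMap.const _ (rgt w.2.1)) := by
    rw [lin, mul_add]
  simp only [psi_apply, mulV, map_add, TT_const, e, e', mul_add, add_mul, mul_sub, sub_mul,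
    map_sub, pp, qq, pq, qp, left_mul_TT hP hQ hc hu h0 h1, right_mul_TT hP hQ hc hu h0 h1,
    TT_mul_left hP hQ hc hu h0 h1, TT_mul_right hP hQ hc hu h0 h1, TT_mul hP hQ hc hu h0 h1,
    lft_mul, rgt_mul]
  abel

lemma psi_starV (v : V p q) : psi P Q (starV v) = star (psi P Q v) := by
  simp [psi_apply, starV, star_add, hP.star_map, hQ.star_map, TT_star hP hQ hc hu h0 h1]

lemma psi_oneV : psi P Q oneV = 1 := by simp [psi_apply, oneV, hu]

lemma psi_norm_le [NeZero p] [NeZero q] (v : V p q) : ‖psi P Q v‖ ≤ ‖ev v‖ := by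
  obtain ⟨cT, hcT0, hcT⟩ : ∃ c : ℝ, 0 ≤ c ∧ ∀ f, ‖TT P Q f‖ ≤ c * ‖f‖ := by
    let L : ∀ _ : Fin p × Fin q, ∀ _ : Fin p × Fin q, MM p q →L[ℂ] ℂ := fun a b =>
      LinearMap.toContinuousLinearMap (Matrix.entryLinearMap ℂ ℂ a b)
    refine ⟨∑ a, ∑ b, ‖L a b‖ * ‖pairMap P Q (Matrix.single a b (1 : ℂ))‖, ?_, fun f => ?_⟩
    · positivity
    · show ‖∑ a, ∑ b, _‖ ≤ _
      refine (norm_sum_le _ _).trans ?_
      rw [Finset.sum_mul]
      refine Finset.sum_le_sum fun a _ => (norm_sum_le _ _).trans ?_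
      rw [Finset.sum_mul]
      refine Finset.sum_le_sum fun b _ => (norm_mul_le _ _).trans ?_
      rw [mul_right_comm]
      refine mul_le_mul_of_nonneg_right ((NonUnitalStarAlgHom.norm_apply_le _ _).trans ?_)
        (norm_nonneg _)
      refine (ContinuousMap.norm_le _ (by positivity)).2 fun t => ?_
      exact ((L a b).le_opNorm (f t)).trans
        (mul_le_mul_of_nonneg_left (f.norm_coe_le_norm t) (norm_nonneg _))
  -- reduce to the case of a self-adjoint image
  suffices hsa : ∀ w : V p q, IsSelfAdjoint (ev w) → IsSelfAdjoint (psi P Q w) →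
      ‖psi P Q w‖ ≤ ‖ev w‖ by
    have h := hsa (mulV (starV v) v) (by rw [ev_mulV, ev_starV]; exact .star_mul_self _)
      (by rw [psi_mulV hP hQ hc hu h0 h1, psi_starV hP hQ hc hu h0 h1]; exact .star_mul_self _)
    rw [psi_mulV hP hQ hc hu h0 h1, psi_starV hP hQ hc hu h0 h1, CStarRing.norm_star_mul_self,
      ev_mulV, ev_starV] at h
    rw [CStarRing.norm_star_mul_self (x := ev v)] at h
    exact nonneg_le_nonneg_of_sq_le_sq (norm_nonneg _) h
  intro w hw hpw
  let LP : MM p q →L[ℂ] F := LinearMap.toContinuousLinearMap (P ∘ₗ unlft)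
  let LQ : MM p q →L[ℂ] F := LinearMap.toContinuousLinearMap (Q ∘ₗ unrgt)
  refine le_of_forall_gt_imp_ge_of_dense fun r hr => ?_
  have hr0 : 0 < r := lt_of_le_of_lt (norm_nonneg _) hr
  -- iterated squares
  let it : ℕ → V p q := fun n => Nat.rec w (fun _ z => mulV z z) n
  have hit : ∀ n, ev (it n) = ev w ^ 2 ^ n ∧ psi P Q (it n) = psi P Q w ^ 2 ^ n := by
    intro n
    induction n with
    | zero => simp [it]
    | succ n ih =>
      rw [pow_succ, pow_mul, pow_mul, sq, sq, ← ih.1, ← ih.2]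
      exact ⟨ev_mulV _ _, psi_mulV hP hQ hc hu h0 h1 _ _⟩
  have hev : ∀ n, ‖ev (it n)‖ ≤ r ^ 2 ^ n := fun n => by
    rw [(hit n).1]
    exact (norm_pow_le' _ (by positivity)).trans (pow_le_pow_left₀ (norm_nonneg _) hr.le _)
  have hX : ∀ n, ‖lft (it n).1‖ ≤ r ^ 2 ^ n := fun n => by
    rw [← ev_zero_pt]; exact (ContinuousMap.norm_coe_le_norm _ _).trans (hev n)
  have hY : ∀ n, ‖rgt (it n).2.1‖ ≤ r ^ 2 ^ n := fun n => by
    rw [← ev_one_pt]; exact (ContinuousMap.norm_coe_le_norm _ _).trans (hev n)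
  set b := ‖w.2.2‖ / r + 2 with hb
  have hH : ∀ n, ‖(it n).2.2‖ ≤ (3 ^ n * b - 2) * r ^ 2 ^ n := by
    intro n
    induction n with
    | zero => simp [it, hb, div_mul_cancel₀ _ hr0.ne']
    | succ n ih =>
      set z := it n
      set R := r ^ 2 ^ n with hR
      have hR0 : 0 ≤ R := pow_nonneg hr0.le _
      have hR2 : r ^ 2 ^ (n + 1) = R * R := by rw [pow_succ, pow_mul, sq]
      have hlin : ‖lin z‖ ≤ 2 * R := by
        refine (ContinuousMap.norm_le _ (by positivity)).2 fun t => ?_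
        rw [lin_apply]
        refine (norm_add_le _ _).trans ?_
        rw [norm_smul, norm_smul, ← Complex.ofReal_one, ← Complex.ofReal_sub, Complex.norm_real,
          Complex.norm_real, Real.norm_of_nonneg t.2.1, Real.norm_of_nonneg (sub_nonneg.2 t.2.2)]
        nlinarith [mul_le_of_le_one_left (norm_nonneg (lft z.1 : MM p q))
          (sub_le_self (1 : ℝ) t.2.1), mul_le_of_le_one_left
          (norm_nonneg (rgt z.2.1 : MM p q)) t.2.2, hX n, hY n]
      have hK : ‖ContinuousMap.const unitInterval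
          ((lft z.1 - rgt z.2.1) * (rgt z.2.1 - lft z.1))‖ ≤ 4 * (R * R) := by
        refine (ContinuousMap.norm_le _ (by positivity)).2 fun t => (norm_mul_le _ _).trans ?_
        have e1 := (norm_sub_le (lft z.1 : MM p q) (rgt z.2.1)).trans (add_le_add (hX n) (hY n))
        have e2 := (norm_sub_le (rgt z.2.1 : MM p q) (lft z.1)).trans (add_le_add (hY n) (hX n))
        exact (mul_le_mul e1 e2 (norm_nonneg _) (by positivity)).trans_eq (by ring)
      have hm1 := (norm_mul_le (ev z) z.2.2).trans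
        (mul_le_mul (hev n) ih (norm_nonneg _) hR0)
      have hm2 := (norm_mul_le z.2.2 (lin z)).trans
        (mul_le_mul ih hlin (norm_nonneg _) (le_trans (norm_nonneg _) ih))
      show ‖ContinuousMap.const unitInterval _ + ev z * z.2.2 + z.2.2 * lin z‖ ≤ _
      refine (norm_add₃_le).trans ?_
      rw [hR2, pow_succ]
      nlinarith [mul_nonneg hR0 hR0]
  set K := ‖LP‖ + ‖LQ‖ + cT * b with hK
  have hbound : ∀ n, ‖psi P Q w‖ ^ 2 ^ n ≤ K * 3 ^ n * r ^ 2 ^ n := by
    intro n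
    rw [← hpw.norm_pow_two_pow, ← (hit n).2, psi_apply]
    refine (norm_add₃_le).trans ?_
    have e1 : ‖P (it n).1‖ ≤ ‖LP‖ * r ^ 2 ^ n := by
      have e : P (it n).1 = LP (lft (it n).1) := by simp [LP, unlft_lft]
      rw [e]
      exact (LP.le_opNorm _).trans (mul_le_mul_of_nonneg_left (hX n) (norm_nonneg _))
    have e2 : ‖Q (it n).2.1‖ ≤ ‖LQ‖ * r ^ 2 ^ n := by
      have e : Q (it n).2.1 = LQ (rgt (it n).2.1) := by simp [LQ, unrgt_rgt]
      rw [e]
      exact (LQ.le_opNorm _).trans (mul_le_mul_of_nonneg_left (hY n) (norm_nonneg _))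
    have e3 := (hcT (it n).2.2).trans (mul_le_mul_of_nonneg_left (hH n) hcT0)
    have h3 : (1 : ℝ) ≤ 3 ^ n := one_le_pow₀ (by norm_num)
    have hR0 : (0 : ℝ) ≤ r ^ 2 ^ n := pow_nonneg hr0.le _
    rw [hK]
    nlinarith [mul_le_mul_of_nonneg_right h3 (mul_nonneg (norm_nonneg LP) hR0),
      mul_le_mul_of_nonneg_right h3 (mul_nonneg (norm_nonneg LQ) hR0), mul_nonneg hcT0 hR0]
  -- conclusion
  by_contra! hlt
  set c := ‖psi P Q w‖ / r with hc'
  have hc1 : 1 < c := (one_lt_div hr0).2 hlt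
  obtain ⟨m, hm⟩ := pow_unbounded_of_one_lt 4 hc1
  have h4 : ∀ j : ℕ, (4 : ℝ) ^ j ≤ K * 3 ^ (m + j) := by
    intro j
    have e : c ^ 2 ^ (m + j) ≤ K * 3 ^ (m + j) := by
      rw [hc', div_pow, div_le_iff₀ (pow_pos hr0 _)]; exact hbound _
    refine le_trans ?_ e
    have e4 : (4 : ℝ) ≤ c ^ 2 ^ m :=
      hm.le.trans (pow_le_pow_right₀ hc1.le m.lt_two_pow_self.le)
    rw [pow_add, pow_mul]
    exact (pow_le_pow_left₀ (by norm_num) e4 j).trans
      (pow_le_pow_right₀ (by linarith) j.lt_two_pow_self.le)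
  obtain ⟨j, hj⟩ := pow_unbounded_of_one_lt (K * 3 ^ m) (show (1 : ℝ) < 4 / 3 by norm_num)
  have := h4 j
  rw [pow_add, ← mul_assoc, ← div_le_iff₀ (by positivity), ← div_pow] at this
  linarith

end Hom

lemma isClosed_dimDrop [NeZero p] [NeZero q] :
    IsClosed (dimDrop p q : Set C(unitInterval, MM p q)) := by
  have h1 : IsClosed (LinearMap.range (lft : _ →ₗ[ℂ] MM p q) : Set (MM p q)) :=
    Submodule.closed_of_finiteDimensional _
  have h2 : IsClosed (LinearMap.range (rgt : _ →ₗ[ℂ] MM p q) : Set (MM p q)) :=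
    Submodule.closed_of_finiteDimensional _
  have e : (dimDrop p q : Set C(unitInterval, MM p q)) =
      (fun f => f 0) ⁻¹' (LinearMap.range (lft : _ →ₗ[ℂ] MM p q) : Set (MM p q)) ∩
      (fun f => f 1) ⁻¹' (LinearMap.range (rgt : _ →ₗ[ℂ] MM p q) : Set (MM p q)) := by
    ext f
    constructor
    · rintro ⟨⟨x, hx⟩, y, hy⟩
      exact ⟨⟨x, hx.symm⟩, y, hy.symm⟩
    · rintro ⟨⟨x, hx⟩, y, hy⟩
      exact ⟨⟨x, hx.symm⟩, y, hy.symm⟩
  rw [e]
  exact (h1.preimage (continuous_eval_const _)).inter (h2.preimage (continuous_eval_const _))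

/-- The parametrisation, valued in the dimension drop algebra. -/
def evD : V p q →ₗ[ℂ] dimDrop p q where
  toFun v := ⟨ev v, ev_mem v⟩
  map_add' v w := Subtype.ext (map_add ev v w)
  map_smul' r v := Subtype.ext (map_smul ev r v)

lemma denseRange_evD : DenseRange (evD (p := p) (q := q)) := by
  rintro ⟨f, ⟨x, hx⟩, y, hy⟩
  rw [Metric.mem_closure_range_iff]
  intro ε hε
  set r : C(unitInterval, MM p q) := f - ev (x, y, 0) with hr
  have hr0 : r 0 = 0 := by
    rw [hr, ContinuousMap.sub_apply, ev_zero_pt, hx]; exact sub_self _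
  have hr1 : r 1 = 0 := by
    rw [hr, ContinuousMap.sub_apply, ev_one_pt, hy]; exact sub_self _
  set σ : unitInterval → ℝ := fun t => (t : ℝ) * (1 - t) with hσ
  have hσc : Continuous σ := by fun_prop
  have hK : IsCompact {t | ε / 2 ≤ ‖r t‖} :=
    (isClosed_le continuous_const (by fun_prop)).isCompact
  obtain ⟨δ, hδ, hδK⟩ := hK.exists_forall_le' hσc.continuousOn (a := 0) fun t ht => by
    have h0 : t ≠ 0 := fun h => by
      rw [Set.mem_ofPred_eq, h, hr0, norm_zero] at ht; linarith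
    have h1 : t ≠ 1 := fun h => by
      rw [Set.mem_ofPred_eq, h, hr1, norm_zero] at ht; linarith
    exact mul_pos (unitInterval.pos_iff_ne_zero.2 h0)
      (sub_pos.2 (unitInterval.lt_one_iff_ne_one.2 h1))
  have hm : ∀ t, max (σ t) δ ≠ 0 := fun t => (lt_max_of_lt_right hδ).ne'
  let h : C(unitInterval, MM p q) :=
    ⟨fun t => (((max (σ t) δ)⁻¹ : ℝ) : ℂ) • r t, by fun_prop (disch := exact hm)⟩
  refine ⟨(x, y, h), lt_of_le_of_lt ?_ (half_lt_self hε)⟩
  show dist f (ev (x, y, h)) ≤ ε / 2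
  rw [dist_eq_norm, ContinuousMap.norm_le _ (by positivity)]
  intro t
  have e : (f - ev (x, y, h)) t = (((1 - σ t * (max (σ t) δ)⁻¹ : ℝ)) : ℂ) • r t := by
    simp only [hr, hσ, h, ContinuousMap.sub_apply, ev_apply, ContinuousMap.coe_mk,
      ContinuousMap.zero_apply, smul_zero, add_zero]
    push_cast
    module
  rw [e, norm_smul, Complex.norm_real]
  by_cases ht : ε / 2 ≤ ‖r t‖
  · rw [max_eq_left (hδK t ht), mul_inv_cancel₀ (hδ.trans_le (hδK t ht)).ne', sub_self, norm_zero,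
      zero_mul]
    positivity
  · have hσ0 : 0 ≤ σ t := mul_nonneg t.2.1 (sub_nonneg.2 t.2.2)
    have hb : σ t * (max (σ t) δ)⁻¹ ≤ 1 := by
      rw [← div_eq_mul_inv, div_le_one (lt_max_of_lt_right hδ)]; exact le_max_left _ _
    have hb0 : 0 ≤ σ t * (max (σ t) δ)⁻¹ := mul_nonneg hσ0 (inv_nonneg.2 (hδ.le.trans (le_max_right _ _)))
    rw [Real.norm_of_nonneg (sub_nonneg.2 hb)]
    exact (mul_le_of_le_one_left (norm_nonneg _) (sub_le_self _ hb0)).trans (not_le.1 ht).le

end DD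

open DD

/-- Two commuting order zero systems with complementary units give a contractive homomorphism
out of the dimension drop algebra. -/
theorem exists_hom_dimDrop {F : Type*} [CStarAlgebra F] [PartialOrder F] [StarOrderedRing F]
    {p q : ℕ} [NeZero p] [NeZero q]
    (P : Matrix (Fin p) (Fin p) ℂ →ₗ[ℂ] F) (Q : Matrix (Fin q) (Fin q) ℂ →ₗ[ℂ] F)
    (hP : IsOZ P) (hQ : IsOZ Q) (hc : ∀ x y, Commute (P x) (Q y)) (hu : P 1 + Q 1 = 1)
    (h0 : 0 ≤ Q 1) (h1 : Q 1 ≤ 1) :
    ∃ Ψ : dimDrop p q →⋆ₐ[ℂ] F,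
      ∀ f, ‖Ψ f‖ ≤ ‖(f : C(unitInterval, Matrix (Fin p × Fin q) (Fin p × Fin q) ℂ))‖ := by
  have hd := denseRange_evD (p := p) (q := q)
  have hn : ∀ v : V p q, ‖psi P Q v‖ ≤ 1 * ‖evD v‖ := fun v => by
    rw [one_mul]; exact psi_norm_le hP hQ hc hu h0 h1 v
  set g : dimDrop p q →L[ℂ] F := LinearMap.extendOfNorm (Eₗ := dimDrop p q) (psi P Q) evD
  have hg : ∀ v, g (evD v) = psi P Q v := LinearMap.extendOfNorm_eq hd ⟨1, hn⟩
  have hone : g 1 = 1 := by
    rw [show (1 : dimDrop p q) = evD oneV from Subtype.ext ev_oneV.symm, hg]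
    exact psi_oneV hP hQ hc hu h0 h1
  have hmul : ∀ a b, g (a * b) = g a * g b := by
    refine hd.induction_on₂ (isClosed_eq (by fun_prop) (by fun_prop)) fun v w => ?_
    rw [show evD v * evD w = evD (mulV v w) from Subtype.ext (ev_mulV v w).symm, hg, hg, hg]
    exact psi_mulV hP hQ hc hu h0 h1 v w
  have hstar : ∀ a, g (star a) = star (g a) := fun a => by
    refine hd.induction_on a (isClosed_eq
      (g.continuous.comp ((continuous_subtype_val.star).subtype_mk _)) g.continuous.star) fun v => ?_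
    rw [show star (evD v) = evD (starV v) from Subtype.ext (ev_starV v).symm, hg, hg]
    exact psi_starV hP hQ hc hu h0 h1 v
  refine ⟨⟨AlgHom.ofLinearMap g.toLinearMap hone hmul, hstar⟩, fun f => ?_⟩
  exact (LinearMap.norm_extendOfNorm_apply_le hd 1 hn f).trans_eq (one_mul _)

/-- Systems of sizes `k` and `k + 1` give homomorphisms out of dimension drop algebras whose sizes
divide `k` and `k + 1`. -/
theorem exists_hom_dimDrop_coprime {F : Type*} [CStarAlgebra F] [PartialOrder F]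
    [StarOrderedRing F] {k : ℕ} (hk : k ≠ 0) (P : Matrix (Fin k) (Fin k) ℂ →ₗ[ℂ] F)
    (Q : Matrix (Fin (k + 1)) (Fin (k + 1)) ℂ →ₗ[ℂ] F)
    (hP : IsOZ P) (hQ : IsOZ Q) (hc : ∀ x y, Commute (P x) (Q y)) (hu : P 1 + Q 1 = 1)
    (h0 : 0 ≤ Q 1) (h1 : Q 1 ≤ 1) {p q : ℕ} (hp : p ∣ k) (hq : q ∣ k + 1) :
    ∃ Ψ : dimDrop p q →⋆ₐ[ℂ] F,
      ∀ f, ‖Ψ f‖ ≤ ‖(f : C(unitInterval, Matrix (Fin p × Fin q) (Fin p × Fin q) ℂ))‖ := by
  have aux : ∀ {a b : ℕ} (R : Matrix (Fin b) (Fin b) ℂ →ₗ[ℂ] F), IsOZ R → a ∣ b →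
      ∃ R' : Matrix (Fin a) (Fin a) ℂ →ₗ[ℂ] F, IsOZ R' ∧ R' 1 = R 1 ∧
        ∀ x, ∃ z, R' x = R z := by
    intro a b R hR hab
    obtain ⟨r, rfl⟩ := hab
    let E := Matrix.reindexAlgEquiv ℂ ℂ (finProdFinEquiv (m := a) (n := r))
    refine ⟨R ∘ₗ E.toLinearMap ∘ₗ lft, ⟨fun x => ?_, fun x y => ?_⟩, ?_, fun x => ⟨_, rfl⟩⟩
    · show star (R (E (lft x))) = R (E (lft (star x)))
      rw [hR.star_map, lft_star]
      rfl
    · show R (E (lft x)) * R (E (lft y)) = R (E (lft 1)) * R (E (lft (x * y)))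
      rw [hR.mul_map, lft_one, map_one E, lft_mul, map_mul E]
    · show R (E (lft 1)) = R 1
      rw [lft_one, map_one E]
  obtain ⟨P', hP', eP, cP⟩ := aux P hP hp
  obtain ⟨Q', hQ', eQ, cQ⟩ := aux Q hQ hq
  have : NeZero p := ⟨fun h => hk (by simpa [h] using hp)⟩
  have : NeZero q := ⟨fun h => by simp [h] at hq⟩
  refine exists_hom_dimDrop P' Q' hP' hQ' (fun x y => ?_) (by rw [eP, eQ, hu]) (eQ.symm ▸ h0)
    (eQ.symm ▸ h1)
  obtain ⟨z, hz⟩ := cP x
  obtain ⟨w, hw⟩ := cQ y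
  rw [hz, hw]
  exact hc z w

/-- Coprime sizes divide consecutive large numbers. -/
theorem exists_dvd_dvd_succ {p q : ℕ} (hp : p ≠ 0) (hq : q ≠ 0) (h : Nat.Coprime p q) (N : ℕ) :
    ∃ k, 2 ≤ k ∧ N ≤ k ∧ p ∣ k ∧ q ∣ k + 1 := by
  obtain ⟨c, hc1, hc2⟩ := Nat.chineseRemainder h 0 (q - 1)
  refine ⟨c + p * q * (N + 2), ?_, ?_, ?_, ?_⟩
  · nlinarith [Nat.pos_of_ne_zero (mul_ne_zero hp hq)]
  · nlinarith [Nat.pos_of_ne_zero (mul_ne_zero hp hq)]
  · exact dvd_add (Nat.modEq_zero_iff_dvd.1 hc1) ((dvd_mul_right _ _).mul_right _)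
  · have h1 := hc2.add_right 1
    rw [Nat.sub_add_cancel (Nat.pos_of_ne_zero hq)] at h1
    have h2 : q ∣ c + 1 := Nat.modEq_zero_iff_dvd.1
      (h1.trans (Nat.modEq_zero_iff_dvd.2 dvd_rfl))
    rw [add_right_comm]
    exact dvd_add h2 ((dvd_mul_left _ _).mul_right _)

/-- An algebra receiving a dimension drop algebra has no characters. -/
theorem isEmpty_char_of_hom {F : Type*} [CStarAlgebra F] {p q : ℕ} (hp : 2 ≤ p) (hq : 2 ≤ q)
    (Ψ : dimDrop p q →⋆ₐ[ℂ] F) : IsEmpty (F →⋆ₐ[ℂ] ℂ) := by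
  refine ⟨fun χ => ?_⟩
  let g : DD.V p q →ₗ[ℂ] ℂ := (χ.comp Ψ).toAlgHom.toLinearMap ∘ₗ evD
  have gmul : ∀ v w, g (mulV v w) = g v * g w := fun v w => by
    show χ (Ψ (evD (mulV v w))) = χ (Ψ (evD v)) * χ (Ψ (evD w))
    rw [show evD (mulV v w) = evD v * evD w from Subtype.ext (ev_mulV v w), map_mul, map_mul]
  have gev : ∀ v w, ev v = ev w → g v = g w := fun v w h => by
    show χ (Ψ (evD v)) = χ (Ψ (evD w))
    rw [show evD v = evD w from Subtype.ext h]
  let H : C(unitInterval, MM p q) →ₗ[ℂ] DD.V p q :=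
    { toFun := fun k => (0, 0, k), map_add' := by simp, map_smul' := by simp }
  -- a general fact about multiplicative functionals on matrix units
  have mu : ∀ {ι : Type} [Fintype ι] [DecidableEq ι] (φ : Matrix ι ι ℂ →ₗ[ℂ] ℂ) (c : ℂ),
      (∀ x y, φ x * φ y = c * φ (x * y)) → (∃ i l : ι, i ≠ l) → c * φ 1 = 0 := by
    intro ι _ _ φ c hmul ⟨i0, l0, hne⟩
    have hz : ∀ i : ι, c * φ (Matrix.single i i 1) = 0 := by
      intro i
      obtain ⟨l, hl⟩ : ∃ l, i ≠ l := by
        by_cases h : i = i0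
        · exact ⟨l0, h ▸ hne⟩
        · exact ⟨i0, h⟩
      have e1 := hmul (Matrix.single i i 1) (Matrix.single l l 1)
      rw [Matrix.single_mul_single_of_ne _ _ _ _ hl, map_zero, mul_zero] at e1
      have e2 := hmul (Matrix.single i l 1) (Matrix.single l i 1)
      have e3 := hmul (Matrix.single l i 1) (Matrix.single i l 1)
      rw [Matrix.single_mul_single_same, mul_one] at e2 e3
      rw [mul_comm] at e3
      have e4 : c * φ (Matrix.single i i 1) = c * φ (Matrix.single l l 1) := e2.symm.trans e3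
      refine mul_self_eq_zero.1 ?_
      nth_rewrite 2 [e4]
      rw [mul_mul_mul_comm, e1, mul_zero]
    have e : (1 : Matrix ι ι ℂ) = ∑ i, Matrix.single i i 1 := by
      exact Matrix.sum_single_one.symm
    rw [e, map_sum, Finset.mul_sum, Finset.sum_eq_zero fun i _ => hz i]
  -- the ideal is killed
  set σ := g (H 1)
  let φI : MM p q →ₗ[ℂ] ℂ :=
    { toFun := fun Z => g (H (ContinuousMap.const _ Z))
      map_add' := fun x y => by rw [← map_add g, ← map_add H]; rfl
      map_smul' := fun r x => by rw [RingHom.id_apply, ← map_smul g, ← map_smul H]; rfl }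
  have hI : σ * σ = 0 := by
    have : σ * φI 1 = 0 := mu φI σ (fun x y => by
      show g (H _) * g (H _) = g (H 1) * g (H _)
      rw [← gmul, ← gmul]
      refine gev _ _ ?_
      rw [ev_mulV, ev_mulV]
      ext1 t
      simp [ev_apply, H, smul_smul]) ⟨(⟨0, by omega⟩, ⟨0, by omega⟩),
        (⟨1, by omega⟩, ⟨0, by omega⟩), by simp⟩
    exact this
  have hI' : ∀ k, g (H k) = 0 := fun k => by
    have e : g (H k) * g (H k) = σ * g (H (k * k)) := by
      show _ = g (H 1) * _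
      rw [← gmul, ← gmul]
      refine gev _ _ ?_
      rw [ev_mulV, ev_mulV]
      ext1 t
      simp [ev_apply, H, smul_smul]
    rw [mul_self_eq_zero.1 hI, zero_mul] at e
    exact mul_self_eq_zero.1 e
  have key : ∀ v, g v = g (v.1, v.2.1, 0) := fun v => by
    have e : v = (v.1, v.2.1, 0) + H v.2.2 := by simp [H]
    conv_lhs => rw [e, map_add, hI', add_zero]
  let gL : Matrix (Fin p) (Fin p) ℂ →ₗ[ℂ] ℂ := g ∘ₗ LinearMap.inl ℂ _ _
  let gR : Matrix (Fin q) (Fin q) ℂ →ₗ[ℂ] ℂ :=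
    g ∘ₗ LinearMap.inr ℂ _ _ ∘ₗ LinearMap.inl ℂ _ _
  have hL : gL 1 = 0 := by
    have h := mu gL 1 (fun x y => by
      show g (x, 0) * g (y, 0) = 1 * g (x * y, 0)
      rw [← gmul, key, one_mul]
      show g (x * y, (0 : Matrix _ _ ℂ) * 0, 0) = g (x * y, 0, 0)
      rw [mul_zero]) ⟨⟨0, by omega⟩, ⟨1, by omega⟩, by simp⟩
    rwa [one_mul] at h
  have hR : gR 1 = 0 := by
    have h := mu gR 1 (fun x y => by
      show g (0, x, 0) * g (0, y, 0) = 1 * g (0, x * y, 0)
      rw [← gmul, key, one_mul]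
      show g ((0 : Matrix _ _ ℂ) * 0, x * y, 0) = g (0, x * y, 0)
      rw [mul_zero]) ⟨⟨0, by omega⟩, ⟨1, by omega⟩, by simp⟩
    rwa [one_mul] at h
  have h1 : g oneV = 1 := by
    show χ (Ψ (evD oneV)) = 1
    rw [show evD oneV = (1 : dimDrop p q) from Subtype.ext ev_oneV, map_one, map_one]
  have h2 : g oneV = gL 1 + gR 1 := by
    show g oneV = g (1, 0) + g (0, 1, 0)
    rw [← map_add]
    simp [oneV]
  rw [h1, hL, hR, add_zero] at h2
  exact one_ne_zero h2

/-- An inductive limit of prime dimension drop algebras provides the local data for a unital map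
into any algebra which receives all prime dimension drop algebras contractively. -/
theorem exists_local {B F : Type*} [CStarAlgebra B] [CStarAlgebra F] (hB : IsPrimeDimDropLimit B)
    (hF : ∀ p q : ℕ, 2 ≤ p → 2 ≤ q → Nat.Coprime p q → ∃ Ψ : dimDrop p q →⋆ₐ[ℂ] F,
      ∀ f, ‖Ψ f‖ ≤ ‖(f : C(unitInterval, Matrix (Fin p × Fin q) (Fin p × Fin q) ℂ))‖) :
    TopologicalSpace.SeparableSpace B ∧
      ∃ S : ℕ → StarSubalgebra ℂ B, Monotone S ∧ Dense (⋃ n, (S n : Set B)) ∧
        ∃ ψ : ∀ n, S n →⋆ₐ[ℂ] F, ∀ n x, ‖ψ n x‖ ≤ ‖x‖ := by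
  obtain ⟨S, hS, hd, he⟩ := hB
  have h : ∀ n, TopologicalSpace.IsSeparable (S n : Set B) ∧
      ∃ ψ : S n →⋆ₐ[ℂ] F, ∀ x, ‖ψ x‖ ≤ ‖x‖ := by
    intro n
    obtain ⟨p, q, hp, hq, hpq, ⟨e⟩⟩ := he n
    have : NeZero p := ⟨by omega⟩
    have : NeZero q := ⟨by omega⟩
    have : IsClosed (dimDrop p q : Set C(unitInterval, MM p q)) := DD.isClosed_dimDrop
    let : CStarAlgebra (dimDrop p q) := StarSubalgebra.cstarAlgebra _
    let ι : dimDrop p q →⋆ₐ[ℂ] B := (S n).subtype.comp e.toStarAlgHom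
    have hinj : Function.Injective ι := Subtype.val_injective.comp e.injective
    have hiso : ∀ f : dimDrop p q, ‖ι f‖ = ‖(f : C(unitInterval, MM p q))‖ := fun f =>
      NonUnitalStarAlgHom.norm_map ι hinj f
    refine ⟨?_, ?_⟩
    · have hr : Set.range ι = (S n : Set B) := by
        ext b
        refine ⟨?_, fun hb => ⟨e.symm ⟨b, hb⟩, congrArg Subtype.val (e.apply_symm_apply ⟨b, hb⟩)⟩⟩
        rintro ⟨f, rfl⟩
        exact (e f).2
      rw [← hr]
      exact TopologicalSpace.isSeparable_range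
        (AddMonoidHomClass.continuous_of_bound ι 1 fun f => (hiso f).le.trans (one_mul _).ge)
    · obtain ⟨Ψ, hΨ⟩ := hF p q hp hq hpq
      refine ⟨Ψ.comp e.symm.toStarAlgHom, fun x => (hΨ (e.symm x)).trans (le_of_eq ?_)⟩
      rw [← hiso]
      show ‖((e (e.symm x) : S n) : B)‖ = ‖x‖
      rw [e.apply_symm_apply]
      rfl
  refine ⟨TopologicalSpace.isSeparable_univ_iff.1 ?_, S, hS, hd, fun n => (h n).2.choose,
    fun n => (h n).2.choose_spec⟩
  rw [← hd.closure_eq]
  exact (TopologicalSpace.IsSeparable.iUnion fun n => (h n).1).closure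

end Vale.Agent.P101
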