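import Vale.Agent.P101.CentralSeq
import Vale.Agent.P101.Defs

/-!
The diagonal argument in `F_ω(A)`: contractive unital *-homomorphisms on an increasing dense
family of *-subalgebras give one *-homomorphism on the whole algebra, commuting with a prescribed
countable set.  In particular `F_ω(A)` has the re-indexing property.
-/

open Filter Topology TopologicalSpace

namespace Vale.Agent.P101

noncomputable section

variable {A : Type*} [CStarAlgebra A] [Nontrivial A] {ω : Ultrafilter ℕ}

set_option synthInstance.maxHeartbeats 200000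
set_option maxHeartbeats 1000000

theorem eventually_norm_le (X : BddSeq A) {ε : ℝ} (hε : 0 < ε) :
    ∀ᶠ i in (ω : Filter ℕ), ‖X i‖ ≤ ‖qmk ω X‖ + ε :=
  (tendsto_norm_qmk ω X).eventually_le_const (lt_add_of_pos_right _ hε)

/-- A diagonal sequence is bounded in the quotient by the bounds of the single steps. -/
theorem norm_qmk_le_of_diag (hω : (ω : Filter ℕ) ≤ cofinite) (U : BddSeq A) (X : ℕ → BddSeq A)
    (i : ℕ → ℕ) (c : ℝ)
    (hU : ∀ᶠ n in atTop, U n = X n (i n) ∧ ‖qmk ω (X n)‖ ≤ c ∧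
      ‖X n (i n)‖ ≤ ‖qmk ω (X n)‖ + 1 / ((n : ℝ) + 1)) :
    ‖qmk ω U‖ ≤ c := by
  have hle : (ω : Filter ℕ) ≤ atTop := Nat.cofinite_eq_atTop ▸ hω
  refine le_of_tendsto_of_tendsto (tendsto_norm_qmk ω U)
    (g := fun n : ℕ => c + 1 / ((n : ℝ) + 1)) ?_ ?_
  · simpa using ((tendsto_one_div_add_atTop_nhds_zero_nat (𝕜 := ℝ)).mono_left hle).const_add c
  · filter_upwards [hle hU] with n hn
    rw [hn.1]
    exact hn.2.2.trans (add_le_add hn.2.1 le_rfl)

theorem qmk_constSeq_comm (z : CentralSeq A ω) (a : A) :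
    Commute (z : Ultrapower A ω) (qmk ω (constSeq a)) :=
  (((StarSubalgebra.mem_centralizer_iff ℂ).1 z.2) _ ⟨a, rfl⟩).1.symm

/-- **Diagonal argument.** -/
theorem exists_hom_of_local [SeparableSpace A] (hω : (ω : Filter ℕ) ≤ cofinite)
    (B : Type*) [CStarAlgebra B] [SeparableSpace B] (S : ℕ → StarSubalgebra ℂ B)
    (hmono : Monotone S) (hdense : Dense (⋃ n, (S n : Set B)))
    (ψ : ∀ n, S n →⋆ₐ[ℂ] CentralSeq A ω) (hψ : ∀ n x, ‖ψ n x‖ ≤ ‖x‖)
    (T : Set (CentralSeq A ω)) (hT : T.Countable) :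
    ∃ θ : B →⋆ₐ[ℂ] CentralSeq A ω, ∀ b, ∀ t ∈ T, Commute (θ b) t := by
  classical
  -- a countable dense family inside the union
  obtain ⟨s, hsub, hsc, hs⟩ := (IsSeparable.of_separableSpace
    (⋃ n, (S n : Set B))).exists_countable_dense_subset
  obtain ⟨d, hd⟩ := (hsc.insert (0 : B)).exists_eq_range (Set.insert_nonempty _ _)
  have hdr : DenseRange d := by
    show Dense (Set.range d)
    rw [← hd]
    exact Dense.mono (Set.subset_insert _ _)
      (dense_closure.1 ((hdense.mono hs)))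
  obtain ⟨j₀, hj₀⟩ : ∃ j, d j = 0 := (hd ▸ Set.mem_insert _ _ : (0 : B) ∈ Set.range d)
  have hdmem : ∀ j, ∃ n, d j ∈ S n := fun j => by
    have h : d j ∈ insert (0 : B) s := hd ▸ Set.mem_range_self j
    rcases h with h | h
    · exact ⟨0, h ▸ zero_mem _⟩
    · simpa using hsub h
  choose m hm using hdmem
  have hev : ∀ j, ∀ᶠ n in atTop, d j ∈ S n := fun j =>
    (eventually_ge_atTop (m j)).mono fun n hn => hmono hn (hm j)
  -- representatives
  let Ψ : ∀ n, S n →⋆ₐ[ℂ] Ultrapower A ω := fun n => (StarSubalgebra.subtype _).comp (ψ n)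
  let v : ℕ → ℕ → Ultrapower A ω := fun n j => if h : d j ∈ S n then Ψ n ⟨d j, h⟩ else 0
  have hvψ : ∀ n j (h : d j ∈ S n), v n j = Ψ n ⟨d j, h⟩ := fun n j h => dif_pos h
  have hΨ : ∀ n x, ‖Ψ n x‖ ≤ ‖x‖ := fun n x => hψ n x
  have hvc : ∀ n j a, Commute (v n j) (qmk ω (constSeq a)) := fun n j a => by
    show Commute (dite _ _ _) _
    split_ifs with h
    · exact qmk_constSeq_comm (ψ n ⟨d j, h⟩) a
    · exact Commute.zero_left _
  choose r hr using fun n j => Ideal.Quotient.mk_surjective (v n j)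
  have hr' : ∀ n j, qmk ω (r n j) = v n j := hr
  -- the sequences to commute with
  obtain ⟨t, ht⟩ := (hT.insert 0).exists_eq_range (Set.insert_nonempty _ _)
  choose τ hτ using fun k => Ideal.Quotient.mk_surjective ((t k : Ultrapower A ω))
  let Y : ℕ ⊕ ℕ → BddSeq A := Sum.elim (fun k => constSeq (denseSeq A k)) τ
  let q : ℕ → ℂ := denseSeq ℂ
  -- the indices
  have hidx : ∀ n : ℕ, ∃ i : ℕ,
      (∀ j ∈ Finset.range n, ‖r n j i‖ ≤ ‖qmk ω (r n j)‖ + 1 / ((n : ℝ) + 1)) ∧
      (∀ j ∈ Finset.range n, ∀ l ∈ Finset.range n, ∀ p ∈ Finset.range n,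
        ‖(r n j + r n l - r n p) i‖ ≤ ‖qmk ω (r n j + r n l - r n p)‖ + 1 / ((n : ℝ) + 1)) ∧
      (∀ j ∈ Finset.range n, ∀ l ∈ Finset.range n, ∀ p ∈ Finset.range n,
        ‖(r n j * r n l - r n p) i‖ ≤ ‖qmk ω (r n j * r n l - r n p)‖ + 1 / ((n : ℝ) + 1)) ∧
      (∀ j ∈ Finset.range n, ∀ p ∈ Finset.range n,
        ‖(star (r n j) - r n p) i‖ ≤ ‖qmk ω (star (r n j) - r n p)‖ + 1 / ((n : ℝ) + 1)) ∧
      (∀ k ∈ Finset.range n, ∀ p ∈ Finset.range n,
        ‖(q k • 1 - r n p) i‖ ≤ ‖qmk ω (q k • 1 - r n p)‖ + 1 / ((n : ℝ) + 1)) ∧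
      (∀ k ∈ (Finset.range n).disjSum (Finset.range n), ∀ j ∈ Finset.range n,
        ‖(r n j * constSeq (Y k n) - constSeq (Y k n) * r n j) i‖ ≤
          ‖qmk ω (r n j * constSeq (Y k n) - constSeq (Y k n) * r n j)‖ +
            1 / ((n : ℝ) + 1)) := fun n => by
    have hε : (0 : ℝ) < 1 / ((n : ℝ) + 1) := by positivity
    apply Filter.Eventually.exists (f := (ω : Filter ℕ))
    simp only [eventually_and, Finset.eventually_all]
    refine ⟨?_, ?_, ?_, ?_, ?_, ?_⟩ <;> intros <;> exact eventually_norm_le _ hε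
  choose i h0 hA hM hS hC hY using hidx
  -- the diagonal sequences
  let U : ℕ → BddSeq A := fun j => BddSeq.mk
    (fun n => if ‖r n j (i n)‖ ≤ ‖d j‖ + 1 then r n j (i n) else 0) (‖d j‖ + 1) fun n => by
      split_ifs with h
      · exact h
      · simp; positivity
  have hlt : ∀ k : ℕ, ∀ᶠ n in atTop, k ∈ Finset.range n := fun k =>
    (eventually_gt_atTop k).mono fun n hn => Finset.mem_range.2 hn
  have hUev : ∀ j, ∀ᶠ n in atTop, U j n = r n j (i n) := fun j => by
    filter_upwards [hlt j, hev j] with n hn hjn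
    refine if_pos ((h0 n j hn).trans (add_le_add ?_ ?_))
    · rw [hr', hvψ n j hjn]; exact hΨ n _
    · rw [div_le_one (by positivity)]; simp
  let θ : ℕ → Ultrapower A ω := fun j => qmk ω (U j)
  have hadd : ∀ j l p, ‖θ j + θ l - θ p‖ ≤ ‖d j + d l - d p‖ := fun j l p => by
    simp only [θ, ← map_add, ← map_sub]
    refine norm_qmk_le_of_diag hω _ (fun n => r n j + r n l - r n p) i _ ?_
    filter_upwards [hlt j, hlt l, hlt p, hev j, hev l, hev p, hUev j, hUev l, hUev p]
      with n a b c a' b' c' ea eb ec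
    refine ⟨?_, ?_, hA n j a l b p c⟩
    · show U j n + U l n - U p n = r n j (i n) + r n l (i n) - r n p (i n)
      rw [ea, eb, ec]
    · simp only [map_add, map_sub, hr', hvψ n _ a', hvψ n _ b', hvψ n _ c']
      rw [← map_add, ← map_sub]
      exact hΨ n _
  have hmul : ∀ j l p, ‖θ j * θ l - θ p‖ ≤ ‖d j * d l - d p‖ := fun j l p => by
    simp only [θ, ← map_mul, ← map_sub]
    refine norm_qmk_le_of_diag hω _ (fun n => r n j * r n l - r n p) i _ ?_
    filter_upwards [hlt j, hlt l, hlt p, hev j, hev l, hev p, hUev j, hUev l, hUev p]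
      with n a b c a' b' c' ea eb ec
    refine ⟨?_, ?_, hM n j a l b p c⟩
    · show U j n * U l n - U p n = r n j (i n) * r n l (i n) - r n p (i n)
      rw [ea, eb, ec]
    · simp only [map_mul, map_sub, hr', hvψ n _ a', hvψ n _ b', hvψ n _ c']
      rw [← map_mul, ← map_sub]
      exact hΨ n _
  have hstar : ∀ j p, ‖star (θ j) - θ p‖ ≤ ‖star (d j) - d p‖ := fun j p => by
    simp only [θ, star_qmk, ← map_sub]
    refine norm_qmk_le_of_diag hω _ (fun n => star (r n j) - r n p) i _ ?_
    filter_upwards [hlt j, hlt p, hev j, hev p, hUev j, hUev p] with n a c a' c' ea ec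
    refine ⟨?_, ?_, hS n j a p c⟩
    · show star (U j n) - U p n = star (r n j (i n)) - r n p (i n)
      rw [ea, ec]
    · rw [map_sub, ← star_qmk, hr', hr', hvψ n _ a', hvψ n _ c', ← map_star, ← map_sub]
      exact hΨ n _
  have hscal : ∀ k p, ‖q k • (1 : Ultrapower A ω) - θ p‖ ≤ ‖q k • (1 : B) - d p‖ := fun k p => by
    have e : qmk ω (q k • 1) = q k • (1 : Ultrapower A ω) := rfl
    rw [← e]
    simp only [θ, ← map_sub]
    refine norm_qmk_le_of_diag hω _ (fun n => q k • 1 - r n p) i _ ?_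
    filter_upwards [hlt k, hlt p, hev p, hUev p] with n a c c' ec
    refine ⟨?_, ?_, hC n k a p c⟩
    · show q k • (1 : A) - U p n = q k • (1 : A) - r n p (i n)
      rw [ec]
    · rw [map_sub, e, hr', hvψ n _ c', ← map_one (Ψ n), ← map_smul, ← map_sub]
      exact hΨ n _
  have hcomm : ∀ k j, Commute (θ j) (qmk ω (Y k)) := fun k j => by
    refine sub_eq_zero.1 (norm_le_zero_iff.1 ?_)
    simp only [θ, ← map_mul, ← map_sub]
    refine norm_qmk_le_of_diag hω _
      (fun n => r n j * constSeq (Y k n) - constSeq (Y k n) * r n j) i _ ?_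
    have hk : ∀ᶠ n in atTop, k ∈ (Finset.range n).disjSum (Finset.range n) := by
      rcases k with k | k <;> filter_upwards [hlt k] with n hn <;> simp [Finset.mem_range.1 hn]
    filter_upwards [hk, hlt j, hUev j] with n a c ec
    refine ⟨?_, ?_, hY n k a j c⟩
    · show U j n * Y k n - Y k n * U j n = r n j (i n) * Y k n - Y k n * r n j (i n)
      rw [ec]
    · rw [map_sub, map_mul, map_mul, hr', (hvc n j (Y k n)).eq, sub_self, norm_zero]
  -- extension
  have h00 : θ j₀ = 0 := by
    have := hadd j₀ j₀ j₀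
    simpa [hj₀] using this
  have hdist : ∀ j p, ‖θ j - θ p‖ ≤ ‖d j - d p‖ := fun j p => by
    simpa [h00, hj₀] using hadd j j₀ p
  let g : Set.range d → Ultrapower A ω := fun x => θ x.2.choose
  have hg : LipschitzWith 1 g := LipschitzWith.of_dist_le_mul fun x y => by
    rw [NNReal.coe_one, one_mul, Subtype.dist_eq, dist_eq_norm, dist_eq_norm]
    refine (hdist _ _).trans_eq ?_
    rw [x.2.choose_spec, y.2.choose_spec]
  have hind : IsUniformInducing ((↑) : Set.range d → B) := isUniformInducing_val _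
  have hsd : DenseRange ((↑) : Set.range d → B) := hdr.denseRange_val
  let f : B → Ultrapower A ω := (hind.isDenseInducing hsd).extend g
  have hf : Continuous f :=
    (uniformContinuous_uniformly_extend hind hsd hg.uniformContinuous).continuous
  have hfd : ∀ j, f (d j) = θ j := fun j => by
    refine (uniformly_extend_of_ind hind hsd hg.uniformContinuous ⟨d j, j, rfl⟩).trans ?_
    refine sub_eq_zero.1 (norm_le_zero_iff.1 ((hdist _ _).trans_eq ?_))
    rw [(⟨d j, j, rfl⟩ : Set.range d).2.choose_spec, sub_self, norm_zero]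
  have hf0 : f 0 = 0 := by rw [← hj₀, hfd, h00]
  have fadd : ∀ x y z, ‖f x + f y - f z‖ ≤ ‖x + y - z‖ := fun x y z =>
    hdr.induction_on₃ (p := fun x y z => ‖f x + f y - f z‖ ≤ ‖x + y - z‖)
      (isClosed_le (by fun_prop) (by fun_prop))
      (fun j l p => by simp only [hfd]; exact hadd j l p) x y z
  have fmul : ∀ x y z, ‖f x * f y - f z‖ ≤ ‖x * y - z‖ := fun x y z =>
    hdr.induction_on₃ (p := fun x y z => ‖f x * f y - f z‖ ≤ ‖x * y - z‖)
      (isClosed_le (by fun_prop) (by fun_prop))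
      (fun j l p => by simp only [hfd]; exact hmul j l p) x y z
  have fstar : ∀ x z, ‖star (f x) - f z‖ ≤ ‖star x - z‖ := fun x z =>
    hdr.induction_on₂ (p := fun x z => ‖star (f x) - f z‖ ≤ ‖star x - z‖)
      (isClosed_le (by fun_prop) (by fun_prop))
      (fun j p => by simp only [hfd]; exact hstar j p) x z
  have fscal : ∀ c : ℂ, f (c • 1) = c • 1 := fun c => by
    refine (sub_eq_zero.1 (norm_le_zero_iff.1 ?_)).symm
    have h : ‖c • (1 : Ultrapower A ω) - f (c • 1)‖ ≤ ‖c • (1 : B) - c • 1‖ := by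
      refine hdr.induction_on (p := fun x => ‖c • (1 : Ultrapower A ω) - f x‖ ≤ ‖c • (1 : B) - x‖)
        (c • 1) (isClosed_le (by fun_prop) (by fun_prop)) fun p => ?_
      refine (denseRange_denseSeq ℂ).induction_on
        (p := fun c => ‖c • (1 : Ultrapower A ω) - f (d p)‖ ≤ ‖c • (1 : B) - d p‖) c
        (isClosed_le (by fun_prop) (by fun_prop)) fun k => ?_
      simp only [hfd]; exact hscal k p
    simpa using h
  have eadd : ∀ x y, f (x + y) = f x + f y := fun x y =>
    (sub_eq_zero.1 (norm_le_zero_iff.1 ((fadd x y (x + y)).trans_eq (by simp)))).symm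
  have emul : ∀ x y, f (x * y) = f x * f y := fun x y =>
    (sub_eq_zero.1 (norm_le_zero_iff.1 ((fmul x y (x * y)).trans_eq (by simp)))).symm
  have estar : ∀ x, f (star x) = star (f x) := fun x =>
    (sub_eq_zero.1 (norm_le_zero_iff.1 ((fstar x (star x)).trans_eq (by simp)))).symm
  have hconst : ∀ x (a : A), Commute (f x) (qmk ω (constSeq a)) := fun x a => by
    have hcc : Continuous fun a : A => qmk ω (constSeq a) :=
      (LipschitzWith.of_dist_le_mul (K := 1) fun a b => by
        rw [NNReal.coe_one, one_mul, dist_eq_norm, dist_eq_norm, ← map_sub]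
        exact le_of_tendsto (tendsto_norm_qmk ω _) (Eventually.of_forall fun _ => le_rfl)).continuous
    refine hdr.induction_on (p := fun x => f x * qmk ω (constSeq a) = qmk ω (constSeq a) * f x) x
      (isClosed_eq (by fun_prop) (by fun_prop)) fun j => ?_
    refine (denseRange_denseSeq A).induction_on
      (p := fun a => f (d j) * qmk ω (constSeq a) = qmk ω (constSeq a) * f (d j)) a
      (isClosed_eq (by fun_prop) (by fun_prop)) fun k => ?_
    rw [hfd]; exact hcomm (Sum.inl k) j
  have hmem : ∀ x, f x ∈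
      StarSubalgebra.centralizer ℂ (Set.range fun a : A => qmk ω (constSeq a)) := fun x => by
    rw [StarSubalgebra.mem_centralizer_iff]
    rintro _ ⟨a, rfl⟩
    exact ⟨(hconst x a).symm, (hconst x (star a)).symm⟩
  let φ : B →⋆ₐ[ℂ] Ultrapower A ω :=
    { toFun := f
      map_one' := by simpa using fscal 1
      map_mul' := emul
      map_zero' := hf0
      map_add' := eadd
      commutes' := fun c => by simpa [Algebra.algebraMap_eq_smul_one] using fscal c
      map_star' := estar }
  refine ⟨φ.codRestrict _ hmem, fun b u hu => Subtype.ext ?_⟩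
  obtain ⟨k, rfl⟩ : ∃ k, t k = u := (ht ▸ Set.mem_insert_of_mem _ hu : u ∈ Set.range t)
  show f b * (t k : Ultrapower A ω) = (t k : Ultrapower A ω) * f b
  rw [← hτ k]
  refine hdr.induction_on (p := fun x => f x * qmk ω (τ k) = qmk ω (τ k) * f x) b
    (isClosed_eq (by fun_prop) (by fun_prop)) fun j => ?_
  rw [hfd]; exact hcomm (Sum.inr k) j

/-- `F_ω(A)` has the re-indexing property. -/
theorem reindex_centralSeq [SeparableSpace A] (hω : (ω : Filter ℕ) ≤ cofinite) :
    Reindex (CentralSeq A ω) := by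
  intro D hD hsep T hT
  have : IsClosed (D : Set (CentralSeq A ω)) := hD
  have : SeparableSpace D := hsep.separableSpace
  exact exists_hom_of_local hω D (fun _ => ⊤) monotone_const
    (dense_univ.mono (fun x _ => Set.mem_iUnion.2 ⟨0, trivial⟩))
    (fun _ => D.subtype.comp (StarSubalgebra.subtype _)) (fun _ _ => le_rfl) T hT

end

end Vale.Agent.P101
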