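import Mathlib
import Vale.Agent.P101.OZ
import Vale.Agent.P101.Basic

/-! Iterated joins of commuting systems. -/

namespace Vale.Agent.P101

variable {F : Type*} [CStarAlgebra F] {ι : Type*} [Fintype ι] [DecidableEq ι]

/-- If the unit of a system kills `z`, so does the system. -/
lemma IsOZ.mul_eq_zero {φ : Matrix ι ι ℂ →ₗ[ℂ] F} (h : IsOZ φ) {z : F} (hz : φ 1 * z = 0)
    (x : Matrix ι ι ℂ) : φ x * z = 0 := by
  rw [← CStarRing.star_mul_self_eq_zero_iff]
  rw [star_mul, h.star_map, mul_assoc, ← mul_assoc (φ (star x)), h.mul_map,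
    (h.comm_unit _).eq, mul_assoc, hz, mul_zero, mul_zero]

lemma pairMap_mul_eq_zero {a b : Matrix ι ι ℂ →ₗ[ℂ] F} (hc : ∀ x y, Commute (a x) (b y)) {z : F}
    (hz : ∀ x, a x * z = 0) (Z : Matrix (ι × ι) (ι × ι) ℂ) : pairMap a b Z * z = 0 := by
  show (∑ p : ι × ι, ∑ q : ι × ι, _) * z = 0
  simp [Finset.sum_mul, (hc _ _).eq, mul_assoc, hz]

variable [PartialOrder F] [StarOrderedRing F]

/-- The complementary coefficient. -/
noncomputable def comp (A : F) : F := cfc (fun t => Real.sqrt (1 - t * t)) A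

lemma comp_sq {A : F} (h0 : 0 ≤ A) (h1 : A ≤ 1) : comp A * comp A = 1 - A * A := by
  have hsa : IsSelfAdjoint A := .of_nonneg h0
  conv_rhs => rw [← cfc_id' ℝ A, ← cfc_one ℝ A, ← cfc_mul _ _ A, ← cfc_sub _ _ A]
  rw [comp, ← cfc_mul _ _ A]
  refine cfc_congr fun t ht => ?_
  have t0 : 0 ≤ t := spectrum_nonneg_of_nonneg h0 ht
  have t1 : t ≤ 1 := (le_algebraMap_iff_spectrum_le (a := A)).1 (by rwa [map_one]) t ht
  exact Real.mul_self_sqrt (by nlinarith)

/-- Iterated join along a list. -/
noncomputable def fold : List (Matrix ι ι ℂ →ₗ[ℂ] F) → (Matrix ι ι ℂ →ₗ[ℂ] F)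
  | [] => 0
  | a :: l => join a (fold l) (comp (a 1))

/-- A list of pairwise commuting contractive systems. -/
def FoldOK (l : List (Matrix ι ι ℂ →ₗ[ℂ] F)) : Prop :=
  (∀ a ∈ l, IsOZ a ∧ 0 ≤ a 1 ∧ a 1 ≤ 1) ∧ l.Pairwise fun a b => ∀ x y, Commute (a x) (b y)

omit [StarOrderedRing F] in
lemma commute_fold : ∀ {l : List (Matrix ι ι ℂ →ₗ[ℂ] F)}, FoldOK l → ∀ {z : F},
    (∀ a ∈ l, ∀ x, Commute z (a x)) → ∀ x, Commute z (fold l x) := by
  intro l
  induction l with
  | nil => intro _ z _ x; simp [fold]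
  | cons a l ih =>
    intro h z hz x
    have hl : FoldOK l := ⟨fun b hb => h.1 b (List.mem_cons_of_mem _ hb),
      (List.pairwise_cons.1 h.2).2⟩
    have hb : ∀ y, Commute z (fold l y) := ih hl fun b hb => hz b (List.mem_cons_of_mem _ hb)
    have ha : ∀ y, Commute z (a y) := hz a List.mem_cons_self
    have hD : Commute z (comp (a 1)) := ((ha 1).symm.cfc_real _).symm
    rw [fold, join_apply]
    refine (((ha 1).mul_right (ha x)).add_right
      ((((hD.mul_right hD).mul_right (hb 1))).mul_right (hb x))).add_right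
      ((hD.smul_right _).mul_right ?_)
    show Commute z (∑ p : ι × ι, ∑ q : ι × ι, _)
    exact Commute.sum_right _ _ _ fun p _ => Commute.sum_right _ _ _ fun q _ =>
      ((ha _).mul_right (hb _)).smul_right _

theorem fold_spec : ∀ {l : List (Matrix ι ι ℂ →ₗ[ℂ] F)}, FoldOK l →
    IsOZ (fold l) ∧ 0 ≤ fold l 1 ∧ fold l 1 ≤ 1 := by
  intro l
  induction l with
  | nil => intro _; exact ⟨⟨fun x => by simp [fold], fun x y => by simp [fold]⟩, by simp [fold],
      by simp [fold]⟩
  | cons a l ih =>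
    intro h
    have hl : FoldOK l := ⟨fun b hb => h.1 b (List.mem_cons_of_mem _ hb),
      (List.pairwise_cons.1 h.2).2⟩
    obtain ⟨hb, hb0, hb1⟩ := ih hl
    obtain ⟨ha, ha0, ha1⟩ := h.1 a List.mem_cons_self
    have hab : ∀ x y, Commute (a x) (fold l y) := fun x y =>
      commute_fold hl (fun c hc x' => (List.pairwise_cons.1 h.2).1 c hc x x') y
    have hDa : ∀ x, Commute (comp (a 1)) (a x) := fun x => (ha.comm_unit x).cfc_real _
    have hDb : ∀ x, Commute (comp (a 1)) (fold l x) := fun x => (hab 1 x).cfc_real _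
    have hoz : IsOZ (join a (fold l) (comp (a 1))) := isOZ_join ha hb hab IsSelfAdjoint.cfc hDa hDb
    have hsq := comp_sq ha0 ha1
    set A := a 1
    set B := fold l 1
    set D := comp A
    have hAB : Commute A B := hab 1 1
    have hA2 : A * A ≤ 1 := by
      have := comp_sq ha0 ha1
      rw [← sub_nonneg, ← this]
      exact (IsSelfAdjoint.cfc : IsSelfAdjoint D).mul_self_nonneg
    have hB2 : 0 ≤ 1 - B * B := by
      rw [← comp_sq hb0 hb1]
      exact (IsSelfAdjoint.cfc : IsSelfAdjoint (comp B)).mul_self_nonneg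
    refine ⟨hoz, ?_, ?_⟩
    · rw [fold, join_one, mul_assoc (D * D)]
      exact add_nonneg (IsSelfAdjoint.of_nonneg ha0).mul_self_nonneg
        (Commute.mul_nonneg (IsSelfAdjoint.cfc : IsSelfAdjoint D).mul_self_nonneg
          (IsSelfAdjoint.of_nonneg hb0).mul_self_nonneg
          (((hDb 1).mul_left (hDb 1)).mul_right ((hDb 1).mul_left (hDb 1))))
    · rw [fold, join_one, mul_assoc (D * D), hsq, ← sub_nonneg,
        show 1 - (A * A + (1 - A * A) * (B * B)) = (1 - A * A) * (1 - B * B) by noncomm_ring]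
      have hc' : Commute (A * A) (B * B) := (hAB.mul_right hAB).mul_left (hAB.mul_right hAB)
      exact Commute.mul_nonneg (sub_nonneg.2 hA2) hB2
        (((Commute.one_right _).sub_right ((Commute.one_left _).sub_left hc')))

/-- Elements killing the product of the defects kill the defect of the fold. -/
theorem mul_fold_defect : ∀ {l : List (Matrix ι ι ℂ →ₗ[ℂ] F)}, FoldOK l → ∀ {z : F},
    z * (l.map fun a => 1 - a 1).prod = 0 → (∀ a ∈ l, Commute z (a 1)) →
      z * (1 - fold l 1) = 0 := by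
  intro l
  induction l with
  | nil => intro _ z hz _; simpa [fold] using hz
  | cons a l ih =>
    intro h z hz hzc
    have hl : FoldOK l := ⟨fun b hb => h.1 b (List.mem_cons_of_mem _ hb),
      (List.pairwise_cons.1 h.2).2⟩
    obtain ⟨ha, ha0, ha1⟩ := h.1 a List.mem_cons_self
    rw [List.map_cons, List.prod_cons, ← mul_assoc] at hz
    have hz' := ih hl hz fun b hb =>
      (hzc b (List.mem_cons_of_mem _ hb)).mul_left
        ((Commute.one_left _).sub_left ((List.pairwise_cons.1 h.2).1 b hb 1 1))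
    set A := a 1
    set B := fold l 1
    have hAB : Commute A B :=
      commute_fold hl (fun c hc x' => (List.pairwise_cons.1 h.2).1 c hc 1 x') 1
    have hc1 : Commute (1 + A) (1 - B) :=
      (Commute.one_right _).sub_right ((Commute.one_left _).add_left hAB)
    rw [fold, join_one, mul_assoc (comp A * comp A), comp_sq ha0 ha1,
      show 1 - (A * A + (1 - A * A) * (B * B)) = (1 - A) * ((1 + A) * (1 - B)) * (1 + B) by
        noncomm_ring,
      hc1.eq, ← mul_assoc, ← mul_assoc, ← mul_assoc, hz', zero_mul, zero_mul]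

/-- The first system fixing `z` decides the action of the fold. -/
theorem fold_mul : ∀ {l₁ l₂ : List (Matrix ι ι ℂ →ₗ[ℂ] F)} {a : Matrix ι ι ℂ →ₗ[ℂ] F},
    FoldOK (l₁ ++ a :: l₂) → ∀ {z : F}, (∀ c ∈ l₁, c 1 * z = 0) → a 1 * z = z →
      ∀ x, fold (l₁ ++ a :: l₂) x * z = a x * z := by
  intro l₁
  induction l₁ with
  | nil =>
    intro l₂ a h z _ hz x
    rw [List.nil_append] at h ⊢
    have hl : FoldOK l₂ := ⟨fun b hb => h.1 b (List.mem_cons_of_mem _ hb),
      (List.pairwise_cons.1 h.2).2⟩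
    obtain ⟨ha, ha0, ha1⟩ := h.1 a List.mem_cons_self
    have hab : ∀ x y, Commute (a x) (fold l₂ y) := fun x y =>
      commute_fold hl (fun c hc x' => (List.pairwise_cons.1 h.2).1 c hc x x') y
    have hD : comp (a 1) * z = 0 := by
      have := cfc_intertwine (IsSelfAdjoint.of_nonneg ha0) (IsSelfAdjoint.one F)
        (w := z) (by rw [hz, mul_one]) (f := fun t => Real.sqrt (1 - t * t)) (by fun_prop)
      rw [comp, this, cfc_apply_one]
      simp
    have hDb : ∀ x, Commute (comp (a 1)) (fold l₂ x) := fun x => (hab 1 x).cfc_real _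
    have hDp : ∀ Z, Commute (comp (a 1)) (pairMap a (fold l₂) Z) := fun Z =>
      commute_pairMap hab (fun x => (ha.comm_unit x).cfc_real _) hDb Z
    have e1 : a 1 * a x * z = a x * z := by rw [(ha.comm_unit x).eq, mul_assoc, hz]
    have e2 : comp (a 1) * comp (a 1) * fold l₂ 1 * fold l₂ x * z = 0 := by
      have hc : Commute (comp (a 1)) (fold l₂ 1 * fold l₂ x) := (hDb 1).mul_right (hDb x)
      rw [mul_assoc (comp (a 1) * comp (a 1)), (hc.mul_left hc).eq, mul_assoc, mul_assoc,
        mul_assoc (comp (a 1)) (comp (a 1)) z, hD, mul_zero,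
        mul_zero, mul_zero]
    have e3 : (Complex.I • comp (a 1)) * pairMap a (fold l₂) (flipComm x) * z = 0 := by
      rw [smul_mul_assoc, (hDp _).eq, smul_mul_assoc, mul_assoc, hD, mul_zero, smul_zero]
    rw [fold, join_apply, add_mul, add_mul, e1, e2, e3, add_zero, add_zero]
  | cons c l₁ ih =>
    intro l₂ a h z hk hz x
    rw [List.cons_append] at h ⊢
    set l := l₁ ++ a :: l₂ with hld
    have hl : FoldOK l := ⟨fun b hb => h.1 b (List.mem_cons_of_mem _ hb),
      (List.pairwise_cons.1 h.2).2⟩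
    obtain ⟨hc, hc0, hc1⟩ := h.1 c List.mem_cons_self
    have hcl : ∀ x y, Commute (c x) (fold l y) := fun x y =>
      commute_fold hl (fun d hd x' => (List.pairwise_cons.1 h.2).1 d hd x x') y
    have hkc : c 1 * z = 0 := hk c List.mem_cons_self
    have ih' := ih hl (fun d hd => hk d (List.mem_cons_of_mem _ hd)) hz
    have hD : comp (c 1) * z = z := by
      have := cfc_intertwine (IsSelfAdjoint.of_nonneg hc0) (IsSelfAdjoint.zero F)
        (w := z) (by rw [hkc, mul_zero]) (f := fun t => Real.sqrt (1 - t * t)) (by fun_prop)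
      rw [comp, this, cfc_apply_zero]
      simp
    have hDb : ∀ x, Commute (comp (c 1)) (fold l x) := fun x => (hcl 1 x).cfc_real _
    have e1 : c 1 * c x * z = 0 := by rw [mul_assoc, hc.mul_eq_zero hkc, mul_zero]
    have hB : fold l 1 * z = z := by rw [ih' 1, hz]
    have e2 : comp (c 1) * comp (c 1) * fold l 1 * fold l x * z = a x * z := by
      have hc' : Commute (comp (c 1)) (fold l 1 * fold l x) := (hDb 1).mul_right (hDb x)
      rw [mul_assoc (comp (c 1) * comp (c 1)), (hc'.mul_left hc').eq, mul_assoc, mul_assoc,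
        mul_assoc (comp (c 1)) (comp (c 1)) z, hD, hD, ← mul_assoc,
        ((fold_spec hl).1.comm_unit x).eq, mul_assoc, hB, ih' x]
    have e3 : (Complex.I • comp (c 1)) * pairMap c (fold l) (flipComm x) * z = 0 := by
      rw [mul_assoc, pairMap_mul_eq_zero hcl (hc.mul_eq_zero hkc), mul_zero]
    rw [fold, join_apply, add_mul, add_mul, e1, e2, e3, zero_add, add_zero]

end Vale.Agent.P101
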