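import Mathlib
import Vale.Agent.P101.OZ
import Vale.Agent.P101.Basic

/-!
From an order zero system `φ` with `1 - φ 1 = star s * s`, `φ e₀₀ * s = s` to commuting systems of
sizes `k` and `k + 1` whose units sum to one.
-/

set_option linter.unusedSectionVars false

open Finset
open scoped BigOperators CStarAlgebra

namespace Vale.Agent.P101

variable {F : Type*} [CStarAlgebra F] [PartialOrder F] [StarOrderedRing F]
variable {k : ℕ} [NeZero k]

/-- The input data. -/
structure Seed (φ : Matrix (Fin k) (Fin k) ℂ →ₗ[ℂ] F) (s : F) : Prop where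
  oz : IsOZ φ
  nonneg : 0 ≤ φ 1
  sq : star s * s = 1 - φ 1
  fix : φ (Matrix.single 0 0 1) * s = s

/-- A matrix unit. -/
def mu (i l : Fin k) : Matrix (Fin k) (Fin k) ℂ := Matrix.single i l 1

variable (φ : Matrix (Fin k) (Fin k) ℂ →ₗ[ℂ] F) (s : F)

/-- The defect. -/
noncomputable def Ee : F := 1 - φ 1

/-- Its square root. -/
noncomputable def Xe : F := cfc Real.sqrt (Ee φ)

/-- The translates of `s`. -/
noncomputable def We (i : Fin k) : F := φ (mu i 0) * s

/-- The exchanged translates. -/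
noncomputable def Ve (i : Fin k) : F := ∑ c, φ (mu c 0) * s * φ (mu i c)

/-- The sum of the ranges of the translates. -/
noncomputable def Se : F := ∑ i, We φ s i * star (We φ s i)

/-- The unit of the new large system. -/
noncomputable def Ge : F := Ee φ + Se φ s

/-- The denominator. -/
def dfun (t : ℝ) : ℝ := t * t + (1 - t) * (1 - t)

lemma dfun_pos (t : ℝ) : 0 < dfun t := by unfold dfun; nlinarith [sq_nonneg (2 * t - 1)]

/-- The row of the large system. -/
noncomputable def re (p : Fin (k + 1)) : F :=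
  Fin.cases (motive := fun _ => F) (Xe φ)
    (fun i => (We φ s i * Ee φ + Complex.I • Ve φ s i)
      * cfc (fun t => (Real.sqrt (dfun t))⁻¹) (Ee φ)) p

/-- The bracket of the small system. -/
noncomputable def brk : Matrix (Fin k) (Fin k) ℂ →ₗ[ℂ] F :=
  (LinearMap.mulLeft ℂ ((1 - Ge φ s) ^ 3 + (Ge φ s + (1 - Ge φ s) ^ 2) * Ee φ)).comp φ
    + (LinearMap.mulLeft ℂ (Ge φ s)).comp
        (∑ i, ((LinearMap.mulLeft ℂ (We φ s i)).comp
          ((LinearMap.mulRight ℂ (star (We φ s i))).comp φ)))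
    + Complex.I • (∑ i, ((LinearMap.mulLeft ℂ (Ve φ s i)).comp
          ((LinearMap.mulRight ℂ (star (We φ s i))).comp φ)))
    - Complex.I • (∑ i, ((LinearMap.mulLeft ℂ (We φ s i)).comp
          ((LinearMap.mulRight ℂ (star (Ve φ s i))).comp φ)))

/-- The inverse denominator at the new unit. -/
noncomputable def dinv : F := cfc (fun t => (dfun t)⁻¹) (Ge φ s)

/-- The small system. -/
noncomputable def small : Matrix (Fin k) (Fin k) ℂ →ₗ[ℂ] F :=
  (LinearMap.mulLeft ℂ (dinv φ s)).comp (brk φ s)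

variable {φ s}
variable (h : Seed φ s)
include h

local instance : NonnegSpectrumClass ℝ F := inferInstance

lemma mu_mul (a b c d : Fin k) :
    φ (mu a b) * φ (mu c d) = if b = c then φ 1 * φ (mu a d) else 0 := by
  rw [h.oz.mul_map]
  by_cases hbc : b = c
  · subst hbc; simp [mu]
  · simp [mu, hbc]

lemma mu_star (a b : Fin k) : star (φ (mu a b)) = φ (mu b a) := by
  rw [h.oz.star_map, mu, Matrix.star_eq_conjTranspose, Matrix.conjTranspose_single, star_one]
  rfl

lemma E_sq : star s * s = Ee φ := h.sq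

lemma E_comm (x : Matrix (Fin k) (Fin k) ℂ) : Commute (Ee φ) (φ x) :=
  (Commute.one_left _).sub_left (h.oz.comm_unit x)

lemma E_sa : IsSelfAdjoint (Ee φ) := (IsSelfAdjoint.one F).sub h.oz.unit_sa

lemma E_nonneg : 0 ≤ Ee φ := by rw [← E_sq h]; exact star_mul_self_nonneg s

lemma E_le_one : Ee φ ≤ 1 := sub_le_self _ h.nonneg

lemma U_s : φ 1 * s = s := by
  conv_lhs => rw [← h.fix]
  rw [← mul_assoc]
  have e := mu_mul h 0 0 0 0
  rw [if_pos rfl] at e
  rw [show φ (Matrix.single 0 0 1) = φ (mu 0 0) from rfl, ← e, mul_assoc]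
  have := h.fix
  rw [show φ (Matrix.single 0 0 1) = φ (mu 0 0) from rfl] at this
  rw [this, this]

lemma E_s : Ee φ * s = 0 := by rw [Ee, sub_mul, one_mul, U_s h, sub_self]

lemma X_sa : IsSelfAdjoint (Xe φ) := IsSelfAdjoint.cfc

lemma X_sq : Xe φ * Xe φ = Ee φ := by
  rw [Xe, ← cfc_mul _ _ (Ee φ) Real.continuous_sqrt.continuousOn Real.continuous_sqrt.continuousOn]
  conv_rhs => rw [← cfc_id' ℝ (Ee φ) (E_sa h)]
  refine cfc_congr fun t ht => ?_
  exact Real.mul_self_sqrt (spectrum_nonneg_of_nonneg (E_nonneg h) ht)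

lemma X_comm (x : Matrix (Fin k) (Fin k) ℂ) : Commute (Xe φ) (φ x) :=
  (E_comm h x).cfc_real Real.sqrt

lemma X_s : Xe φ * s = 0 := by
  rw [← CStarRing.star_mul_self_eq_zero_iff, star_mul, (X_sa h).star_eq, mul_assoc,
    ← mul_assoc (Xe φ), X_sq h, E_s h, mul_zero]

lemma X_W (i : Fin k) : Xe φ * We φ s i = 0 := by
  rw [We, ← mul_assoc, (X_comm h _).eq, mul_assoc, X_s h, mul_zero]

lemma X_V (i : Fin k) : Xe φ * Ve φ s i = 0 := by
  rw [Ve, mul_sum]
  refine sum_eq_zero fun c _ => ?_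
  rw [← mul_assoc, ← mul_assoc, (X_comm h _).eq, mul_assoc (φ (mu c 0)), X_s h, mul_zero, zero_mul]

lemma E_W (i : Fin k) : Ee φ * We φ s i = 0 := by
  rw [← X_sq h, mul_assoc, X_W h, mul_zero]

lemma E_V (i : Fin k) : Ee φ * Ve φ s i = 0 := by
  rw [← X_sq h, mul_assoc, X_V h, mul_zero]

lemma U_W (i : Fin k) : φ 1 * We φ s i = We φ s i := by
  have := E_W h i
  rw [Ee, sub_mul, one_mul, sub_eq_zero] at this
  exact this.symm

lemma mu_W (a b c : Fin k) : φ (mu a b) * We φ s c = if b = c then We φ s a else 0 := by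
  rw [We, ← mul_assoc, mu_mul h]
  split_ifs
  · rw [mul_assoc]; exact U_W h a
  · rw [zero_mul]

lemma phi_W (x : Matrix (Fin k) (Fin k) ℂ) (l : Fin k) :
    φ x * We φ s l = ∑ i, x i l • We φ s i := by
  rw [map_sum_single φ x, sum_mul]
  refine sum_congr rfl fun i _ => ?_
  rw [sum_mul, Finset.sum_eq_single l]
  · rw [smul_mul_assoc, show φ (Matrix.single i l 1) = φ (mu i l) from rfl, mu_W h, if_pos rfl]
  · intro b _ hb
    rw [smul_mul_assoc, show φ (Matrix.single i b 1) = φ (mu i b) from rfl, mu_W h, if_neg hb,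
      smul_zero]
  · simp

lemma star_W (i : Fin k) : star (We φ s i) = star s * φ (mu 0 i) := by
  rw [We, star_mul, mu_star h]

lemma W_W (i l : Fin k) : star (We φ s i) * We φ s l = if i = l then Ee φ else 0 := by
  rw [star_W h, mul_assoc, mu_W h]
  split_ifs
  · rw [We, ← E_sq h, show φ (mu 0 0) * s = s from h.fix]
  · rw [mul_zero]

lemma W_V (i l : Fin k) : star (We φ s i) * Ve φ s l = Ee φ * φ (mu l i) := by
  rw [Ve, mul_sum, Finset.sum_eq_single i]
  · rw [show φ (mu i 0) * s = We φ s i from rfl, ← mul_assoc, W_W h, if_pos rfl]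
  · intro c _ hc
    rw [show φ (mu c 0) * s = We φ s c from rfl, ← mul_assoc, W_W h, if_neg (Ne.symm hc), zero_mul]
  · simp

lemma V_W (i l : Fin k) : star (Ve φ s i) * We φ s l = φ (mu l i) * Ee φ := by
  have := congrArg star (W_V h l i)
  rw [star_mul, star_star, star_mul, (E_sa h).star_eq, mu_star h] at this
  exact this

lemma star_V (i : Fin k) : star (Ve φ s i) = ∑ c, φ (mu c i) * star (We φ s c) := by
  rw [Ve, star_sum]
  refine sum_congr rfl fun c _ => ?_
  rw [star_mul, mu_star h]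
  rfl

lemma V_V (i l : Fin k) :
    star (Ve φ s i) * Ve φ s l = if i = l then Ee φ * (φ 1 * φ 1) else 0 := by
  rw [star_V h, sum_mul]
  calc ∑ x, φ (mu x i) * star (We φ s x) * Ve φ s l
      = ∑ x, Ee φ * (if i = l then φ 1 * φ (mu x x) else 0) := by
        refine sum_congr rfl fun x _ => ?_
        rw [mul_assoc, W_V h, (E_comm h _).symm.left_comm, mu_mul h]
    _ = _ := by
        rw [← mul_sum]
        by_cases hil : i = l
        · simp only [if_pos hil]
          rw [← mul_sum, ← map_sum]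
          simp [mu, Matrix.sum_single_eq_diagonal]
        · simp [hil]

lemma G_sa : IsSelfAdjoint (Ge φ s) :=
  (E_sa h).add (isSelfAdjoint_sum _ fun i _ => IsSelfAdjoint.mul_star_self _)

lemma G_W (i : Fin k) : SemiconjBy (We φ s i) (Ee φ) (Ge φ s) := by
  show We φ s i * Ee φ = Ge φ s * We φ s i
  rw [Ge, add_mul, E_W h, zero_add, Se, sum_mul, Finset.sum_eq_single i]
  · rw [mul_assoc, W_W h, if_pos rfl]
  · intro b _ hb; rw [mul_assoc, W_W h, if_neg hb, mul_zero]
  · simp

lemma G_V (i : Fin k) : SemiconjBy (Ve φ s i) (Ee φ) (Ge φ s) := by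
  show Ve φ s i * Ee φ = Ge φ s * Ve φ s i
  rw [Ge, add_mul, E_V h, zero_add, Se, sum_mul, Ve, sum_mul]
  refine sum_congr rfl fun c _ => ?_
  rw [mul_assoc (We φ s c), show (∑ d, φ (mu d 0) * s * φ (mu i d)) = Ve φ s i from rfl, W_V h,
    (E_comm h _).eq, ← mul_assoc]
  rfl

lemma G_X : SemiconjBy (Xe φ) (Ee φ) (Ge φ s) := by
  show Xe φ * Ee φ = Ge φ s * Xe φ
  rw [Ge, add_mul, Se, sum_mul, Finset.sum_eq_zero (fun i _ => ?_), add_zero]
  · rw [← X_sq h, mul_assoc]
  · rw [mul_assoc, ← (X_sa h).star_eq, ← star_mul, X_W h, star_zero, mul_zero]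

lemma mu_S (a b : Fin k) : φ (mu a b) * Se φ s = We φ s a * star (We φ s b) := by
  rw [Se, mul_sum, Finset.sum_eq_single b]
  · rw [← mul_assoc, mu_W h, if_pos rfl]
  · intro c _ hc; rw [← mul_assoc, mu_W h, if_neg (Ne.symm hc), zero_mul]
  · simp

lemma G_comm (x : Matrix (Fin k) (Fin k) ℂ) : Commute (Ge φ s) (φ x) := by
  refine (E_comm h x).add_left ?_
  rw [map_sum_single φ x]
  refine Commute.sum_right _ _ _ fun a _ => Commute.sum_right _ _ _ fun b _ => ?_
  refine Commute.smul_right ?_ _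
  show Se φ s * φ (mu a b) = φ (mu a b) * Se φ s
  have e := congrArg star (mu_S h b a)
  have hS : IsSelfAdjoint (Se φ s) := isSelfAdjoint_sum _ fun i _ => IsSelfAdjoint.mul_star_self _
  rw [star_mul, hS.star_eq, mu_star h, star_mul, star_star] at e
  rw [e, mu_S h]

lemma G_E : Commute (Ge φ s) (Ee φ) := (Commute.one_right _).sub_right (G_comm h 1)

lemma G_nonneg : 0 ≤ Ge φ s :=
  add_nonneg (E_nonneg h) (sum_nonneg fun _ _ => mul_star_self_nonneg _)

lemma dcont : Continuous fun t => (dfun t)⁻¹ :=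
  (by unfold dfun; fun_prop : Continuous dfun).inv₀ fun t => (dfun_pos t).ne'

lemma scont : Continuous fun t => (Real.sqrt (dfun t))⁻¹ :=
  (Real.continuous_sqrt.comp (by unfold dfun; fun_prop : Continuous dfun)).inv₀
    fun t => (Real.sqrt_pos.2 (dfun_pos t)).ne'

lemma d_sq : cfc (fun t => (Real.sqrt (dfun t))⁻¹) (Ee φ)
    * cfc (fun t => (Real.sqrt (dfun t))⁻¹) (Ee φ) = cfc (fun t => (dfun t)⁻¹) (Ee φ) := by
  rw [← cfc_mul _ _ (Ee φ) (scont h).continuousOn (scont h).continuousOn]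
  refine cfc_congr fun t _ => ?_
  show _ * _ = _
  rw [← mul_inv, Real.mul_self_sqrt (dfun_pos t).le]

lemma d_mul {a : F} (ha : IsSelfAdjoint a) :
    cfc (fun t => (dfun t)⁻¹) a * (a * a + (1 - a) * (1 - a)) = 1 := by
  have e : a * a + (1 - a) * (1 - a) = cfc dfun a := by
    unfold dfun
    rw [cfc_add (a := a) (f := fun t : ℝ => t * t) (g := fun t => (1 - t) * (1 - t)),
      cfc_mul (fun t : ℝ => t) (fun t => t) a, cfc_mul (fun t : ℝ => 1 - t) (fun t => 1 - t) a,
      cfc_sub (fun _ : ℝ => (1 : ℝ)) (fun t => t) a, cfc_id' ℝ a, cfc_const_one ℝ a]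
  rw [e, ← cfc_mul _ _ a (dcont h).continuousOn (by unfold dfun; fun_prop), ← cfc_const_one ℝ a]
  exact cfc_congr fun t _ => inv_mul_cancel₀ (dfun_pos t).ne'

lemma d_mul_E : cfc (fun t => (Real.sqrt (dfun t))⁻¹) (Ee φ) * (Ee φ * Ee φ + φ 1 * φ 1)
    * cfc (fun t => (Real.sqrt (dfun t))⁻¹) (Ee φ) = 1 := by
  have e1 : φ 1 = 1 - Ee φ := by rw [Ee, sub_sub_cancel]
  have c : Commute (cfc (fun t => (Real.sqrt (dfun t))⁻¹) (Ee φ)) (Ee φ * Ee φ + φ 1 * φ 1) := by
    have a := (Commute.refl (Ee φ)).cfc_real fun t => (Real.sqrt (dfun t))⁻¹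
    have b := (E_comm h 1).cfc_real fun t => (Real.sqrt (dfun t))⁻¹
    exact (a.mul_right a).add_right (b.mul_right b)
  rw [mul_assoc, ← c.eq, ← mul_assoc, d_sq h, e1, d_mul h (E_sa h)]

/-- The large row. -/
theorem isRow_re : IsRow (re φ s) (Ee φ) := by
  set δ := cfc (fun t => (Real.sqrt (dfun t))⁻¹) (Ee φ) with hδ
  have hδs : star δ = δ := (IsSelfAdjoint.cfc : IsSelfAdjoint δ).star_eq
  have key : ∀ i l : Fin k,
      star (We φ s i * Ee φ + Complex.I • Ve φ s i) * (We φ s l * Ee φ + Complex.I • Ve φ s l)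
        = if i = l then Ee φ * (Ee φ * Ee φ + φ 1 * φ 1) else 0 := by
    intro i l
    rw [star_add, star_mul, star_smul, (E_sa h).star_eq, Complex.star_def, Complex.conj_I]
    simp only [add_mul, mul_add, smul_mul_assoc, mul_smul_comm, smul_smul, neg_mul,
      Complex.I_mul_I, neg_neg, one_smul, neg_smul]
    rw [mul_assoc (Ee φ), ← mul_assoc (star (We φ s i)), W_W h, mul_assoc (Ee φ) (star (We φ s i)),
      W_V h, ← mul_assoc (star (Ve φ s i)), V_W h, V_V h, ← (E_comm h _).eq,
      mul_assoc (Ee φ) (φ (mu l i)) (Ee φ), ← (E_comm h (mu l i)).eq]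
    split_ifs <;> simp [smul_smul, mul_add]
  intro p q
  induction p using Fin.cases with
  | zero =>
    induction q using Fin.cases with
    | zero => simp [re, (X_sa h).star_eq, X_sq h]
    | succ l =>
      rw [if_neg (Fin.succ_ne_zero l).symm]
      simp [re, (X_sa h).star_eq, ← mul_assoc, mul_add, X_W h, X_V h, mul_smul_comm]
  | succ i =>
    induction q using Fin.cases with
    | zero =>
      rw [if_neg (Fin.succ_ne_zero i)]
      have : Xe φ * (We φ s i * Ee φ + Complex.I • Ve φ s i) = 0 := by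
        simp [← mul_assoc, mul_add, X_W h, X_V h, mul_smul_comm]
      have h2 := congrArg star this
      rw [star_mul, (X_sa h).star_eq, star_zero] at h2
      simp only [re, Fin.cases_succ, Fin.cases_zero]
      rw [star_mul, mul_assoc, h2, mul_zero]
    | succ l =>
      simp only [re, Fin.cases_succ, Fin.succ_inj, ← hδ]
      rw [star_mul, hδs, ← mul_assoc, mul_assoc δ, key]
      split_ifs
      · have c : Commute δ (Ee φ) := ((Commute.refl (Ee φ)).cfc_real _)
        rw [← mul_assoc δ, c.eq, mul_assoc (Ee φ) δ, mul_assoc (Ee φ), d_mul_E h, mul_one]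
      · simp

lemma sum_V_W : ∑ i, Ve φ s i * star (We φ s i) = ∑ i, We φ s i * star (Ve φ s i) := by
  simp only [star_V h]
  simp only [Ve, mul_sum, sum_mul, We, mul_assoc]
  rw [sum_comm]

lemma semi_one_sub {x : F} (hx : SemiconjBy x (Ee φ) (Ge φ s)) :
    SemiconjBy x (φ 1) (1 - Ge φ s) := by
  rw [show φ 1 = 1 - Ee φ by rw [Ee, sub_sub_cancel]]
  exact (SemiconjBy.one_right x).sub_right hx

lemma sum_V_V : ∑ i, Ve φ s i * star (Ve φ s i)
    = (1 - Ge φ s) * (1 - Ge φ s) * Se φ s := by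
  have e : ∀ c, (1 - Ge φ s) * (1 - Ge φ s) * (We φ s c * star (We φ s c))
      = We φ s c * (φ 1 * φ 1) * star (We φ s c) := fun c => by
    rw [← mul_assoc, ((semi_one_sub h (G_W h c)).mul_right (semi_one_sub h (G_W h c))).eq.symm]
  rw [Se, mul_sum]
  simp only [e]
  calc ∑ i, Ve φ s i * star (Ve φ s i)
      = ∑ i, ∑ c, ∑ d, We φ s c * (φ (mu i c) * φ (mu d i)) * star (We φ s d) := by
        refine sum_congr rfl fun i _ => ?_
        rw [star_V h, Ve, sum_mul]
        refine sum_congr rfl fun c _ => ?_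
        rw [mul_sum]
        refine sum_congr rfl fun d _ => ?_
        simp only [We, mul_assoc]
    _ = ∑ c, We φ s c * (φ 1 * φ 1) * star (We φ s c) := by
        rw [sum_comm]
        refine sum_congr rfl fun c _ => ?_
        simp only [mu_mul h, mul_ite, mul_zero, ite_mul, zero_mul, Finset.sum_ite_eq, mem_univ,
          if_true]
        rw [← sum_mul, ← mul_sum, ← mul_sum, ← map_sum]
        congr 3
        exact congrArg φ (by simp [mu, Matrix.sum_single_eq_diagonal])

/-- The large system has unit `G`. -/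
theorem ofRow_re_one : ofRow (re φ s) 1 = Ge φ s := by
  set δ := cfc (fun t => (Real.sqrt (dfun t))⁻¹) (Ee φ) with hδ
  have hδs : star δ = δ := (IsSelfAdjoint.cfc : IsSelfAdjoint δ).star_eq
  set G := Ge φ s with hG
  set di := cfc (fun t => (dfun t)⁻¹) G with hdi
  have hterm : ∀ i, re φ s i.succ * star (re φ s i.succ)
      = di * (G * G * (We φ s i * star (We φ s i)) + Ve φ s i * star (Ve φ s i)
        + Complex.I • (G * (Ve φ s i * star (We φ s i)))
        - Complex.I • (G * (We φ s i * star (Ve φ s i)))) := by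
    intro i
    set T := We φ s i * Ee φ + Complex.I • Ve φ s i with hT
    have hTs : SemiconjBy T (Ee φ) G := by
      show T * Ee φ = G * T
      rw [hT, add_mul, mul_add, (G_W h i).eq, smul_mul_assoc, mul_smul_comm, (G_V h i).eq,
        mul_assoc]
      congr 1
      rw [(G_W h i).eq]
    have hdT : T * cfc (fun t => (dfun t)⁻¹) (Ee φ) = di * T :=
      (cfc_intertwine (G_sa h) (E_sa h) hTs.eq.symm _ (dcont h)).symm
    simp only [re, Fin.cases_succ, ← hδ, ← hT]
    rw [star_mul, hδs, mul_assoc, ← mul_assoc δ δ, d_sq h, ← mul_assoc, hdT, mul_assoc]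
    congr 1
    have eW : We φ s i * Ee φ = G * We φ s i := (G_W h i).eq
    have eV : Ve φ s i * Ee φ = G * Ve φ s i := (G_V h i).eq
    rw [hT, star_add, star_mul, star_smul, (E_sa h).star_eq, Complex.star_def, Complex.conj_I]
    simp only [add_mul, mul_add, smul_mul_assoc, mul_smul_comm, smul_smul, neg_mul,
      Complex.I_mul_I, neg_neg, one_smul, neg_smul, mul_neg]
    have r1 : We φ s i * Ee φ * (Ee φ * star (We φ s i))
        = G * G * (We φ s i * star (We φ s i)) := by
      rw [← mul_assoc, mul_assoc (We φ s i) (Ee φ) (Ee φ), ((G_W h i).mul_right (G_W h i)).eq,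
        mul_assoc]
    have r2 : Ve φ s i * (Ee φ * star (We φ s i)) = G * (Ve φ s i * star (We φ s i)) := by
      rw [← mul_assoc, eV, mul_assoc]
    have r3 : We φ s i * Ee φ * star (Ve φ s i) = G * (We φ s i * star (Ve φ s i)) := by
      rw [eW, mul_assoc]
    rw [r1, r2, r3]
    simp [smul_smul]
    abel
  rw [ofRow_one, Fin.sum_univ_succ, Finset.sum_congr rfl fun i _ => hterm i]
  simp only [re, Fin.cases_zero, (X_sa h).star_eq, X_sq h]
  rw [← mul_sum, sum_sub_distrib, sum_add_distrib, sum_add_distrib, ← mul_sum, sum_V_V h,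
    ← smul_sum, ← mul_sum, ← smul_sum, ← mul_sum, sum_V_W h, add_sub_assoc, sub_self, add_zero,
    ← hG, ← Se, ← add_mul, ← mul_assoc, hdi, d_mul h (G_sa h), one_mul]
  rfl

lemma G_le_one : Ge φ s ≤ 1 := by
  rcases subsingleton_or_nontrivial F with hF | hF
  · exact le_of_eq (Subsingleton.elim _ _)
  set f : ℝ → ℝ := fun t => max (t - 1) 0 with hf
  have hfc : Continuous f := by fun_prop
  have hE0 : cfc f (Ee φ) = 0 := by
    rw [← cfc_const_zero ℝ (Ee φ)]
    refine cfc_congr fun t ht => ?_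
    have : t ≤ 1 := by
      have h1 := E_le_one h
      rw [show (1 : F) = algebraMap ℝ F 1 from (map_one _).symm,
        le_algebraMap_iff_spectrum_le (a := Ee φ) (ha := E_sa h)] at h1
      exact h1 t ht
    simp [hf, this]
  have hr : ∀ p, cfc f (Ge φ s) * re φ s p = 0 := by
    intro p
    rw [cfc_intertwine (G_sa h) (E_sa h)
      (by rw [← ofRow_re_one h]; exact unit_mul_row (isRow_re h) p) f hfc, hE0, mul_zero]
  have hG0 : cfc f (Ge φ s) * Ge φ s = 0 := by
    conv_lhs => arg 2; rw [← ofRow_re_one h, ofRow_one]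
    rw [mul_sum]
    exact sum_eq_zero fun p _ => by rw [← mul_assoc, hr, zero_mul]
  conv_lhs at hG0 => arg 2; rw [← cfc_id' ℝ (Ge φ s) (G_sa h)]
  rw [← cfc_mul _ _ (Ge φ s) hfc.continuousOn (continuousOn_id' _),
    ← cfc_const_zero ℝ (Ge φ s)] at hG0
  have heq := eqOn_of_cfc_eq_cfc hG0 (by fun_prop) (by fun_prop) (G_sa h)
  rw [show (1 : F) = algebraMap ℝ F 1 from (map_one _).symm,
    le_algebraMap_iff_spectrum_le (a := Ge φ s) (ha := G_sa h)]
  intro t ht
  by_contra hlt
  push Not at hlt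
  have := heq ht
  simp only [hf, max_eq_left (by linarith : (0:ℝ) ≤ t - 1)] at this
  have := mul_pos (by linarith : (0:ℝ) < t - 1) (by linarith : (0:ℝ) < t)
  linarith

end Vale.Agent.P101
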