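import Mathlib
import Vale.Agent.P101.Stage1
import Vale.Agent.P101.OZ
import Vale.Agent.P101.Basic

/-! Arbitrarily long rows with a full common square. -/

open Finset TopologicalSpace

namespace Vale.Agent.P101

variable {F : Type*} [CStarAlgebra F]

/-- For every length there is a row with a full common square. -/
theorem exists_row (hR : Reindex F) (h : IsEmpty (F →⋆ₐ[ℂ] ℂ)) (k : ℕ) :
    ∃ (w : Fin k → F) (c : F) (n : ℕ) (b : Fin n → F),
      IsRow w c ∧ ∑ i, star (b i) * c * b i = 1 := by
  obtain ⟨v, hv, n, b, hb⟩ := exists_full_sq_zero hR h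
  set D := genAlg ({v} ∪ Set.range b) with hDd
  have hD : IsClosed (D : Set F) := isClosed_genAlg _
  let := subCStar D hD
  let : PartialOrder D := CStarAlgebra.spectralOrder D
  have : StarOrderedRing D := CStarAlgebra.spectralOrderedRing D
  have hDs : IsSeparable (D : Set F) :=
    isSeparable_genAlg ((Set.finite_singleton v).union (Set.finite_range b)).countable.isSeparable
  let v0 : D := ⟨v, subset_genAlg _ (Or.inl rfl)⟩
  let b0 : Fin n → D := fun i => ⟨b i, subset_genAlg _ (Or.inr ⟨i, rfl⟩)⟩
  have hv0 : v0 * v0 = 0 := Subtype.ext hv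
  set c := star v0 * v0 with hc
  have hb0 : ∑ i, star (b0 i) * c * b0 i = 1 := Subtype.ext (by simpa [v0, b0, hc] using hb)
  have hc0 : 0 ≤ c := star_mul_self_nonneg v0
  set z := CFC.sqrt c with hz
  have hzs : IsSelfAdjoint z := .of_nonneg (CFC.sqrt_nonneg c)
  have hzz : z * z = c := CFC.sqrt_mul_sqrt_self c hc0
  have hzv : z * v0 = 0 := by
    rw [← CStarRing.star_mul_self_eq_zero_iff, star_mul, hzs.star_eq, mul_assoc,
      ← mul_assoc z, hzz, hc, mul_assoc, hv0, mul_zero, mul_zero]
  let w0 : Bool → D := fun e => if e then v0 else z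
  have hw0 : ∀ e e', star (w0 e) * w0 e' = if e = e' then c else 0 := by
    have : star v0 * z = 0 := by
      have := congrArg star hzv
      rwa [star_mul, hzs.star_eq, star_zero] at this
    rintro (_ | _) (_ | _) <;> simp [w0, hzs.star_eq, hzz, hzv, this, ← hc]
  -- the copies
  obtain ⟨ρ, hρ, -⟩ := exists_copies hR D hDs ∅ Set.countable_empty k
  let idx : Fin k → Fin k → Bool := fun i j => decide (i = j)
  refine ⟨fun i => piProd ρ fun j => w0 (idx i j), piProd ρ fun _ => c,
    Fintype.card (Fin k → Fin n),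
    fun f => piProd ρ fun j => b0 ((Fintype.equivFin (Fin k → Fin n)).symm f j), ?_, ?_⟩
  · intro i l
    rw [piProd_star hρ, piProd_mul hρ]
    rcases eq_or_ne i l with rfl | hil
    · rw [if_pos rfl]
      congr 1
      funext j
      simp [hw0]
    · rw [if_neg hil]
      refine piProd_eq_zero i ?_
      simp [hw0, idx, Ne.symm hil]
  · rw [(Fintype.equivFin (Fin k → Fin n)).symm.sum_comp fun g =>
      star (piProd ρ fun j => b0 (g j)) * (piProd ρ fun _ => c) * piProd ρ fun j => b0 (g j)]
    calc _ = ∑ g : Fin k → Fin n, piProd ρ fun j => star (b0 (g j)) * c * b0 (g j) :=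
          sum_congr rfl fun g _ => by
            rw [piProd_star hρ, piProd_mul hρ, piProd_mul hρ]
            rfl
      _ = piProd ρ fun _ => ∑ i, star (b0 i) * c * b0 i :=
          ((piProd ρ).map_sum (fun (_ : Fin k) i => star (b0 i) * c * b0 i)).symm
      _ = 1 := by rw [hb0]; exact piProd_one

end Vale.Agent.P101
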