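import Mathlib
import Vale.Agent.P101.Pair

/-!
The small system: commutes with the large one and has the complementary unit.
-/

set_option linter.unusedSectionVars false

open Finset
open scoped BigOperators CStarAlgebra

namespace Vale.Agent.P101

variable {F : Type*} [CStarAlgebra F] [PartialOrder F] [StarOrderedRing F]
variable {k : ℕ} [NeZero k]
variable {φ : Matrix (Fin k) (Fin k) ℂ →ₗ[ℂ] F} {s : F}

lemma brk_apply (x : Matrix (Fin k) (Fin k) ℂ) :
    brk φ s x = ((1 - Ge φ s) ^ 3 + (Ge φ s + (1 - Ge φ s) ^ 2) * Ee φ) * φ x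
      + Ge φ s * (∑ i, We φ s i * (φ x * star (We φ s i)))
      + Complex.I • (∑ i, Ve φ s i * (φ x * star (We φ s i)))
      - Complex.I • (∑ i, We φ s i * (φ x * star (Ve φ s i))) := by
  simp [brk, LinearMap.sum_apply, mul_sum]

variable (h : Seed φ s)
include h

lemma comm_G_sandwich {u v : F} (hu : SemiconjBy u (Ee φ) (Ge φ s))
    (hv : SemiconjBy v (Ee φ) (Ge φ s)) (x : Matrix (Fin k) (Fin k) ℂ) :
    Commute (Ge φ s) (u * (φ x * star v)) := by
  have hv' : star v * Ge φ s = Ee φ * star v := by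
    have := congrArg star hv.eq
    rw [star_mul, star_mul, (E_sa h).star_eq, (G_sa h).star_eq] at this
    exact this.symm
  show Ge φ s * (u * (φ x * star v)) = u * (φ x * star v) * Ge φ s
  rw [← mul_assoc, ← hu.eq, mul_assoc, ← mul_assoc (Ee φ), (E_comm h x).eq]
  simp only [mul_assoc, hv']

lemma comm_G_brk (x : Matrix (Fin k) (Fin k) ℂ) : Commute (Ge φ s) (brk φ s x) := by
  have h1 : Commute (Ge φ s) (1 - Ge φ s) := (Commute.one_right _).sub_right (Commute.refl _)
  rw [brk_apply]
  refine Commute.sub_right (Commute.add_right (Commute.add_right ?_ ?_) ?_) ?_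
  · exact ((h1.pow_right 3).add_right
      (((Commute.refl _).add_right (h1.pow_right 2)).mul_right (G_E h))).mul_right (G_comm h x)
  · exact (Commute.refl _).mul_right
      (Commute.sum_right _ _ _ fun i _ => comm_G_sandwich h (G_W h i) (G_W h i) x)
  · exact (Commute.sum_right _ _ _ fun i _ => comm_G_sandwich h (G_V h i) (G_W h i) x).smul_right _
  · exact (Commute.sum_right _ _ _ fun i _ => comm_G_sandwich h (G_W h i) (G_V h i) x).smul_right _

lemma star_brk (x : Matrix (Fin k) (Fin k) ℂ) : star (brk φ s x) = brk φ s (star x) := by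
  have hG := (G_sa h).star_eq
  have h1 : star (1 - Ge φ s) = 1 - Ge φ s := by rw [star_sub, star_one, hG]
  set c := (1 - Ge φ s) ^ 3 + (Ge φ s + (1 - Ge φ s) ^ 2) * Ee φ with hc
  have hGc : Commute (Ge φ s) (1 - Ge φ s) := (Commute.one_right _).sub_right (Commute.refl _)
  have hc1 : Commute (Ee φ) (Ge φ s + (1 - Ge φ s) ^ 2) :=
    ((G_E h).symm.add_right (((Commute.one_right _).sub_right (G_E h).symm).pow_right 2))
  have hcs : star c = c := by
    rw [hc, star_add, star_pow, h1, star_mul, (E_sa h).star_eq, star_add, star_pow, h1, hG, hc1.eq]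
  have hcc : ∀ y, Commute c (φ y) := fun y =>
    ((((Commute.one_left _).sub_left (G_comm h y)).pow_left 3)).add_left
      (((G_comm h y).add_left ((((Commute.one_left _).sub_left (G_comm h y)).pow_left 2))).mul_left
        (E_comm h y))
  have hsum : Commute (∑ i, We φ s i * (φ (star x) * star (We φ s i))) (Ge φ s) :=
    (Commute.sum_right _ _ _ fun i _ => comm_G_sandwich h (G_W h i) (G_W h i) _).symm
  simp only [brk_apply, ← hc, star_sub, star_add, star_mul, star_smul, star_sum, star_star, hcs,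
    h.oz.star_map, hG, Complex.star_def, Complex.conj_I, neg_smul, mul_assoc]
  rw [(hcc _).eq, hsum.eq]
  abel

lemma sum_apply_mu (x : Matrix (Fin k) (Fin k) ℂ) (l : Fin k) :
    ∑ i, Ve φ s i * φ (x * mu l i)
      = (1 - Ge φ s) * (1 - Ge φ s) * ∑ c, x c l • We φ s c := by
  calc ∑ i, Ve φ s i * φ (x * mu l i)
      = ∑ i, ∑ c, We φ s c * (φ 1 * φ (mu i c * (x * mu l i))) := by
        refine sum_congr rfl fun i _ => ?_
        rw [Ve, sum_mul]
        refine sum_congr rfl fun c _ => ?_
        rw [mul_assoc, h.oz.mul_map]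
        rfl
    _ = ∑ c, We φ s c * (φ 1 * φ (x c l • (1 : Matrix (Fin k) (Fin k) ℂ))) := by
        rw [sum_comm]
        refine sum_congr rfl fun c _ => ?_
        rw [← mul_sum, ← mul_sum, ← map_sum]
        congr 3
        have e : ∀ i, mu i c * (x * mu l i) = Matrix.single i i (x c l) := by
          intro i
          rw [mu, mu, ← Matrix.mul_assoc, Matrix.single_mul_mul_single]
          simp
        simp only [e, Matrix.sum_single_eq_diagonal, Matrix.smul_one_eq_diagonal]
    _ = _ := by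
        rw [mul_sum]
        refine sum_congr rfl fun c _ => ?_
        have h2 : (1 - Ge φ s) * (1 - Ge φ s) * We φ s c = We φ s c * (φ 1 * φ 1) := by
          rw [((semi_one_sub h (G_W h c)).mul_right (semi_one_sub h (G_W h c))).eq]
        rw [map_smul, mul_smul_comm, mul_smul_comm, mul_smul_comm, h2]

/-- The key intertwining before normalisation. -/
lemma brk_mul_T (x : Matrix (Fin k) (Fin k) ℂ) (l : Fin k) :
    brk φ s x * (We φ s l * Ee φ + Complex.I • Ve φ s l)
      = (Ge φ s * Ge φ s + (1 - Ge φ s) * (1 - Ge φ s))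
        * ((We φ s l * Ee φ + Complex.I • Ve φ s l) * φ x) := by
  set G := Ge φ s with hG
  set O := 1 - G with hO
  set N := ∑ c, x c l • We φ s c with hN
  set Y := ∑ i, We φ s i * φ (mu l i * x) with hY
  set Z := ∑ i, We φ s i * φ (x * mu l i) with hZ
  set Wx := We φ s l * φ x with hWx
  set Vx := Ve φ s l * φ x with hVx
  have hGO : Commute G O := (Commute.one_right _).sub_right (Commute.refl _)
  have eW : ∀ i, We φ s i * Ee φ = G * We φ s i := fun i => (G_W h i).eq
  have oW : ∀ i, We φ s i * φ 1 = O * We φ s i := fun i => (semi_one_sub h (G_W h i)).eq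
  have eV : ∀ i, Ve φ s i * Ee φ = G * Ve φ s i := fun i => (G_V h i).eq
  have oV : ∀ i, Ve φ s i * φ 1 = O * Ve φ s i := fun i => (semi_one_sub h (G_V h i)).eq
  -- action on the translates
  have a1 : φ x * We φ s l = N := phi_W h x l
  have a2 : Ee φ * φ x * We φ s l = 0 := by
    rw [(E_comm h x).eq, mul_assoc, E_W h, mul_zero]
  have a3 : (∑ i, We φ s i * (φ x * star (We φ s i))) * We φ s l = G * Wx := by
    rw [sum_mul, Finset.sum_eq_single l]
    · rw [mul_assoc, mul_assoc, W_W h, if_pos rfl, ← (E_comm h x).eq, ← mul_assoc, eW, mul_assoc]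
    · intro b _ hb; rw [mul_assoc, mul_assoc, W_W h, if_neg hb, mul_zero, mul_zero]
    · simp
  have a4 : (∑ i, Ve φ s i * (φ x * star (We φ s i))) * We φ s l = G * Vx := by
    rw [sum_mul, Finset.sum_eq_single l]
    · rw [mul_assoc, mul_assoc, W_W h, if_pos rfl, ← (E_comm h x).eq, ← mul_assoc, eV, mul_assoc]
    · intro b _ hb; rw [mul_assoc, mul_assoc, W_W h, if_neg hb, mul_zero, mul_zero]
    · simp
  have a5 : (∑ i, We φ s i * (φ x * star (Ve φ s i))) * We φ s l = G * O * Z := by
    rw [sum_mul, hZ, mul_sum]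
    refine sum_congr rfl fun i _ => ?_
    rw [mul_assoc, mul_assoc, V_W h, ← (E_comm h (mu l i)).eq, (E_comm h x).symm.left_comm,
      h.oz.mul_map, ← mul_assoc, eW, ← mul_assoc, mul_assoc G, oW, ← mul_assoc]
    simp only [mul_assoc]
  -- action on the exchanged translates
  have b1 : φ x * Ve φ s l = Y := by
    rw [Ve, mul_sum, hY]
    calc ∑ c, φ x * (φ (mu c 0) * s * φ (mu l c))
        = ∑ c, ∑ i, x i c • (We φ s i * φ (mu l c)) := by
          refine sum_congr rfl fun c _ => ?_
          rw [← mul_assoc, show φ (mu c 0) * s = We φ s c from rfl, phi_W h, sum_mul]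
          simp only [smul_mul_assoc]
      _ = ∑ i, We φ s i * φ (mu l i * x) := by
          rw [sum_comm]
          refine sum_congr rfl fun i _ => ?_
          simp only [← mul_smul_comm, ← mul_sum, ← map_smul, ← map_sum]
          congr 2
          ext a b
          rw [Matrix.sum_apply]
          by_cases hal : l = a
          · subst hal; simp [mu, Matrix.mul_apply, Matrix.single]
          · simp [mu, Matrix.mul_apply, Matrix.single, hal]
  have b2 : Ee φ * φ x * Ve φ s l = 0 := by
    rw [(E_comm h x).eq, mul_assoc, E_V h, mul_zero]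
  have b3 : (∑ i, We φ s i * (φ x * star (We φ s i))) * Ve φ s l = G * O * Z := by
    rw [sum_mul, hZ, mul_sum]
    refine sum_congr rfl fun i _ => ?_
    rw [mul_assoc, mul_assoc, W_V h, (E_comm h x).symm.left_comm,
      h.oz.mul_map, ← mul_assoc, eW, ← mul_assoc, mul_assoc G, oW, ← mul_assoc]
    simp only [mul_assoc]
  have b4 : (∑ i, Ve φ s i * (φ x * star (We φ s i))) * Ve φ s l = G * O * (O * O * N) := by
    rw [sum_mul, hN, ← sum_apply_mu h, mul_sum]
    refine sum_congr rfl fun i _ => ?_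
    rw [mul_assoc, mul_assoc, W_V h, (E_comm h x).symm.left_comm,
      h.oz.mul_map, ← mul_assoc, eV, ← mul_assoc, mul_assoc G, oV, ← mul_assoc]
    simp only [mul_assoc]
  have b5 : (∑ i, We φ s i * (φ x * star (Ve φ s i))) * Ve φ s l = G * O * O * Wx := by
    rw [sum_mul, Finset.sum_eq_single l]
    · rw [mul_assoc, mul_assoc, V_V h, if_pos rfl,
        ← ((E_comm h x).mul_left ((h.oz.comm_unit x).mul_left (h.oz.comm_unit x))).eq]
      simp only [← mul_assoc, eW, mul_assoc G (We φ s l) (φ 1), oW, mul_assoc O (We φ s l) (φ 1),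
        hWx]
      simp only [mul_assoc]
      rw [← mul_assoc (We φ s l) (φ 1), oW, mul_assoc]
    · intro b _ hb; rw [mul_assoc, mul_assoc, V_V h, if_neg hb, mul_zero, mul_zero]
    · simp
  have hVY : Vx = O * Y := by
    rw [hVx, Ve, sum_mul, hY, mul_sum]
    refine sum_congr rfl fun c _ => ?_
    rw [show φ (mu c 0) * s = We φ s c from rfl, mul_assoc, h.oz.mul_map, ← mul_assoc, oW, mul_assoc]
  -- the two halves
  have p1 : brk φ s x * We φ s l
      = O ^ 3 * N + G * (G * Wx) + Complex.I • (G * Vx) - Complex.I • (G * O * Z) := by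
    rw [brk_apply, ← hG, ← hO]
    simp only [add_mul, sub_mul, smul_mul_assoc]
    rw [mul_assoc (O ^ 3), a1, mul_assoc G _ (We φ s l), a3, a4, a5]
    rw [mul_assoc G (Ee φ), mul_assoc G (Ee φ * φ x), mul_assoc (O ^ 2) (Ee φ),
      mul_assoc (O ^ 2) (Ee φ * φ x), a2, mul_zero, mul_zero, add_zero, add_zero]
  have p2 : brk φ s x * Ve φ s l
      = O ^ 3 * Y + G * (G * O * Z) + Complex.I • (G * O * (O * O * N))
        - Complex.I • (G * O * O * Wx) := by
    rw [brk_apply, ← hG, ← hO]
    simp only [add_mul, sub_mul, smul_mul_assoc]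
    rw [mul_assoc (O ^ 3), b1, mul_assoc G _ (Ve φ s l), b3, b4, b5]
    rw [mul_assoc G (Ee φ), mul_assoc G (Ee φ * φ x), mul_assoc (O ^ 2) (Ee φ),
      mul_assoc (O ^ 2) (Ee φ * φ x), b2, mul_zero, mul_zero, add_zero, add_zero]
  have p1' : brk φ s x * (We φ s l * Ee φ) = G * (brk φ s x * We φ s l) := by
    rw [eW, ← mul_assoc, ← (comm_G_brk h x).eq, mul_assoc]
  have hpow : O ^ 3 = O * (O * O) := by rw [pow_succ', sq]
  rw [mul_add, mul_smul_comm, p1', p1, p2, eW, hpow]
  simp only [mul_add, add_mul, mul_sub, smul_add, smul_sub, smul_mul_assoc, mul_smul_comm,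
    smul_smul, Complex.I_mul_I, neg_smul, one_smul, mul_assoc, ← hWx, ← hVx]
  simp only [hVY, mul_assoc, hGO.symm.left_comm]
  abel

lemma dinv_comm_phi (x : Matrix (Fin k) (Fin k) ℂ) : Commute (dinv φ s) (φ x) :=
  (G_comm h x).cfc_real _

lemma re_semi (p : Fin (k + 1)) : SemiconjBy (re φ s p) (Ee φ) (Ge φ s) := by
  show re φ s p * Ee φ = Ge φ s * re φ s p
  have := unit_mul_row (isRow_re h) p
  rw [ofRow_re_one h] at this
  exact this.symm

/-- The small system intertwines the large row. -/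
lemma small_mul_re (x : Matrix (Fin k) (Fin k) ℂ) (p : Fin (k + 1)) :
    small φ s x * re φ s p = re φ s p * φ x := by
  set G := Ge φ s with hG
  have hd1 : dinv φ s * (G * G + (1 - G) * (1 - G)) = 1 := d_mul h (G_sa h)
  show dinv φ s * brk φ s x * re φ s p = _
  induction p using Fin.cases with
  | succ l =>
    simp only [re, Fin.cases_succ]
    rw [← mul_assoc _ _ (cfc _ (Ee φ)), mul_assoc (dinv φ s), brk_mul_T h, ← mul_assoc (dinv φ s),
      hd1, one_mul, mul_assoc, ← ((E_comm h x).cfc_real _).eq, ← mul_assoc]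
  | zero =>
    simp only [re, Fin.cases_zero]
    rw [mul_assoc, brk_apply, ← hG]
    have hXW : ∀ i, star (We φ s i) * Xe φ = 0 := fun i => by
      rw [← (X_sa h).star_eq, ← star_mul, X_W h, star_zero]
    have hXV : ∀ i, star (Ve φ s i) * Xe φ = 0 := fun i => by
      rw [← (X_sa h).star_eq, ← star_mul, X_V h, star_zero]
    simp only [add_mul, sub_mul, smul_mul_assoc, sum_mul, mul_assoc, hXW, hXV, mul_zero,
      sum_const_zero, smul_zero, add_zero, sub_zero]
    rw [← (X_comm h x).eq]
    have hX := G_X h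
    have ho : SemiconjBy (Xe φ) (φ 1) (1 - G) := semi_one_sub h hX
    have e1 : (1 - G) ^ 3 * (Xe φ * φ x) = Xe φ * ((φ 1) ^ 3 * φ x) := by
      rw [← mul_assoc, ← (ho.pow_right 3).eq, mul_assoc]
    have e2 : (G + (1 - G) ^ 2) * (Ee φ * (Xe φ * φ x))
        = Xe φ * ((Ee φ + φ 1 ^ 2) * Ee φ * φ x) := by
      have hEX : Commute (Ee φ) (Xe φ) := ((Commute.refl (Ee φ)).cfc_real Real.sqrt).symm
      rw [← mul_assoc (Ee φ), hEX.eq, mul_assoc, ← mul_assoc (G + (1 - G) ^ 2),
        ← (hX.add_right (ho.pow_right 2)).eq]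
      simp only [mul_assoc]
    rw [add_mul] at e2
    rw [e1, e2, ← mul_add]
    have e3 : φ 1 ^ 3 + (Ee φ + φ 1 ^ 2) * Ee φ = Ee φ * Ee φ + φ 1 * φ 1 := by
      rw [show φ 1 = 1 - Ee φ by rw [Ee, sub_sub_cancel], pow_succ' (1 - Ee φ) 2, sq]
      noncomm_ring
    rw [← add_mul, e3]
    have hdX : dinv φ s * Xe φ = Xe φ * cfc (fun t => (dfun t)⁻¹) (Ee φ) :=
      cfc_intertwine (G_sa h) (E_sa h) hX.eq.symm _ (dcont h)
    rw [← mul_assoc, hdX, mul_assoc, ← mul_assoc (cfc _ (Ee φ))]
    rw [show φ 1 = 1 - Ee φ by rw [Ee, sub_sub_cancel], d_mul h (E_sa h), one_mul]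

omit h in
lemma eq_zero_of_sq_le {Z u : F} {g : F} (hle : u * star u ≤ g) (hZ : g * Z = 0) :
    star u * Z = 0 := by
  rw [← CStarRing.star_mul_self_eq_zero_iff]
  have h1 : star (star u * Z) * (star u * Z) = star Z * (u * star u) * Z := by
    simp [mul_assoc]
  refine le_antisymm ?_ (star_mul_self_nonneg _)
  rw [h1]
  exact (star_left_conjugate_le_conjugate hle Z).trans (le_of_eq (by rw [mul_assoc, hZ, mul_zero]))

/-- On the kernel of `G` the small system is `φ`. -/
lemma small_mul_ker (x : Matrix (Fin k) (Fin k) ℂ) {Z : F} (hZ : Ge φ s * Z = 0) :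
    small φ s x * Z = φ x * Z := by
  have hEG : Xe φ * star (Xe φ) ≤ Ge φ s := by
    rw [(X_sa h).star_eq, X_sq h]
    exact le_add_of_nonneg_right (sum_nonneg fun _ _ => mul_star_self_nonneg _)
  have hXZ : Xe φ * Z = 0 := by
    have := eq_zero_of_sq_le hEG hZ
    rwa [(X_sa h).star_eq] at this
  have hWZ : ∀ i, star (We φ s i) * Z = 0 := fun i => by
    refine eq_zero_of_sq_le ?_ hZ
    refine le_trans ?_ (le_add_of_nonneg_left (E_nonneg h))
    exact single_le_sum (f := fun i => We φ s i * star (We φ s i))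
      (fun _ _ => mul_star_self_nonneg _) (mem_univ i)
  have hVZ : ∀ i, star (Ve φ s i) * Z = 0 := fun i => by
    rw [star_V h, sum_mul]
    exact sum_eq_zero fun c _ => by rw [mul_assoc, hWZ, mul_zero]
  have hEZ : Ee φ * Z = 0 := by rw [← X_sq h, mul_assoc, hXZ, mul_zero]
  have hGx : Ge φ s * (φ x * Z) = 0 := by
    rw [← mul_assoc, (G_comm h x).eq, mul_assoc, hZ, mul_zero]
  show dinv φ s * brk φ s x * Z = _
  rw [mul_assoc, brk_apply]
  simp only [add_mul, sub_mul, smul_mul_assoc, sum_mul, mul_assoc, hWZ, hVZ, mul_zero,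
    sum_const_zero, smul_zero, add_zero, sub_zero]
  have hEx : Ee φ * (φ x * Z) = 0 := by
    rw [← mul_assoc, (E_comm h x).eq, mul_assoc, hEZ, mul_zero]
  rw [hEx]
  simp only [mul_zero, add_zero]
  have h1 : ∀ n : ℕ, (1 - Ge φ s) ^ n * (φ x * Z) = φ x * Z := by
    intro n
    induction n with
    | zero => simp
    | succ n ih => rw [pow_succ, mul_assoc, sub_mul, one_mul, hGx, sub_zero, ih]
  rw [h1]
  have hsa0 : IsSelfAdjoint (0 : F) := IsSelfAdjoint.zero _
  have h2 := cfc_intertwine (G_sa h) hsa0 (hGx.trans (mul_zero _).symm) _ (dcont h)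
  rw [cfc_apply_zero, show dfun 0 = 1 by simp [dfun], inv_one, map_one, mul_one] at h2
  exact h2

lemma comm_G_small (x : Matrix (Fin k) (Fin k) ℂ) : Commute (Ge φ s) (small φ s x) :=
  ((Commute.refl _).cfc_real _).symm.mul_right (comm_G_brk h x)

lemma star_small (x : Matrix (Fin k) (Fin k) ℂ) : star (small φ s x) = small φ s (star x) := by
  show star (dinv φ s * brk φ s x) = dinv φ s * brk φ s (star x)
  have hd : IsSelfAdjoint (dinv φ s) := IsSelfAdjoint.cfc
  rw [star_mul, hd.star_eq, star_brk h]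
  exact ((comm_G_brk h (star x)).cfc_real _).eq.symm

lemma eq_zero_of_action {K : F} (h1 : ∀ p, K * re φ s p = 0)
    (h2 : ∀ Z, Ge φ s * Z = 0 → K * Z = 0) : K = 0 := by
  have hKG : K * Ge φ s = 0 := by
    rw [← ofRow_re_one h, ofRow_one, mul_sum]
    exact sum_eq_zero fun p _ => by rw [← mul_assoc, h1, zero_mul]
  have hGK : Ge φ s * star K = 0 := by
    rw [← (G_sa h).star_eq, ← star_mul, hKG, star_zero]
  exact (CStarRing.mul_star_self_eq_zero_iff K).1 (h2 _ hGK)

/-- The unit of the small system. -/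
theorem small_one : small φ s 1 = 1 - Ge φ s := by
  refine sub_eq_zero.1 (eq_zero_of_action h (fun p => ?_) fun Z hZ => ?_)
  · rw [sub_mul, small_mul_re h, (semi_one_sub h (re_semi h p)).eq, sub_self]
  · rw [sub_mul, small_mul_ker h 1 hZ, sub_mul, one_mul, hZ, sub_zero]
    have hEZ : Ee φ * Z = 0 := by
      have h3 : Xe φ * star (Xe φ) ≤ Ge φ s := by
        rw [(X_sa h).star_eq, X_sq h]
        exact le_add_of_nonneg_right (sum_nonneg fun _ _ => mul_star_self_nonneg _)
      have := eq_zero_of_sq_le h3 hZ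
      rw [(X_sa h).star_eq] at this
      rw [← X_sq h, mul_assoc, this, mul_zero]
    rw [show φ 1 = 1 - Ee φ by rw [Ee, sub_sub_cancel], sub_mul, one_mul, hEZ, sub_zero, sub_self]

/-- The small system is a system. -/
theorem isOZ_small : IsOZ (small φ s) := by
  refine ⟨star_small h, fun x y => ?_⟩
  rw [small_one h]
  refine sub_eq_zero.1 (eq_zero_of_action h (fun p => ?_) fun Z hZ => ?_)
  · rw [sub_mul, mul_assoc, small_mul_re h, ← mul_assoc, small_mul_re h, mul_assoc, h.oz.mul_map,
      mul_assoc (1 - Ge φ s), small_mul_re h, ← mul_assoc (1 - Ge φ s),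
      ← (semi_one_sub h (re_semi h p)).eq, mul_assoc, sub_self]
  · have hGy : Ge φ s * (φ y * Z) = 0 := by
      rw [← mul_assoc, (G_comm h y).eq, mul_assoc, hZ, mul_zero]
    have hGp : Ge φ s * (φ (x * y) * Z) = 0 := by
      rw [← mul_assoc, (G_comm h _).eq, mul_assoc, hZ, mul_zero]
    rw [sub_mul, mul_assoc, small_mul_ker h y hZ, small_mul_ker h x hGy, ← mul_assoc, h.oz.mul_map,
      mul_assoc (1 - Ge φ s), small_mul_ker h _ hZ, sub_mul 1, one_mul, hGp, sub_zero,
      mul_assoc]
    have hEp : Ee φ * (φ (x * y) * Z) = 0 := by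
      have h3 : Xe φ * star (Xe φ) ≤ Ge φ s := by
        rw [(X_sa h).star_eq, X_sq h]
        exact le_add_of_nonneg_right (sum_nonneg fun _ _ => mul_star_self_nonneg _)
      have := eq_zero_of_sq_le h3 hGp
      rw [(X_sa h).star_eq] at this
      rw [← X_sq h, mul_assoc, this, mul_zero]
    rw [show φ 1 = 1 - Ee φ by rw [Ee, sub_sub_cancel], sub_mul, one_mul, hEp, sub_zero, sub_self]

/-- The two systems commute. -/
theorem small_commute (x : Matrix (Fin k) (Fin k) ℂ) (y : Matrix (Fin (k + 1)) (Fin (k + 1)) ℂ) :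
    Commute (small φ s x) (ofRow (re φ s) y) := by
  rw [ofRow_apply]
  refine Commute.sum_right _ _ _ fun p _ => Commute.sum_right _ _ _ fun q _ =>
    Commute.smul_right ?_ _
  show small φ s x * (re φ s p * star (re φ s q)) = re φ s p * star (re φ s q) * small φ s x
  have e : star (re φ s q) * small φ s x = φ x * star (re φ s q) := by
    have := congrArg star (small_mul_re h (star x) q)
    rw [star_mul, star_mul, star_small h, star_star, h.oz.star_map, star_star] at this
    exact this
  rw [← mul_assoc, small_mul_re h, mul_assoc (re φ s p) _ (small φ s x), e, mul_assoc]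

/-- A seed gives commuting systems of sizes `k` and `k + 1` with complementary units. -/
theorem exists_pair :
    ∃ (P : Matrix (Fin k) (Fin k) ℂ →ₗ[ℂ] F) (Q : Matrix (Fin (k + 1)) (Fin (k + 1)) ℂ →ₗ[ℂ] F),
      IsOZ P ∧ IsOZ Q ∧ (∀ x y, Commute (P x) (Q y)) ∧ P 1 + Q 1 = 1 ∧ 0 ≤ Q 1 ∧ Q 1 ≤ 1 := by
  refine ⟨small φ s, ofRow (re φ s), isOZ_small h, isOZ_ofRow (isRow_re h), small_commute h, ?_⟩
  rw [small_one h, ofRow_re_one h]
  exact ⟨sub_add_cancel _ _, G_nonneg h, G_le_one h⟩

end Vale.Agent.P101
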