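import Mathlib
import Vale.Agent.P101.Pair
import Vale.Agent.P101.Small
import Vale.Agent.P101.Fold
import Vale.Agent.P101.Rows

/-! From long rows with full square to a seed. -/

open Finset TopologicalSpace

namespace Vale.Agent.P101

/-- A ramp from `0` at `a` to `1` at `b`. -/
noncomputable def ramp (a b t : ℝ) : ℝ := min 1 (max 0 ((t - a) / (b - a)))

lemma continuous_ramp (a b : ℝ) : Continuous (ramp a b) := by unfold ramp; fun_prop

lemma ramp_mem (a b t : ℝ) : 0 ≤ ramp a b t ∧ ramp a b t ≤ 1 :=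
  ⟨le_min zero_le_one (le_max_left _ _), min_le_left _ _⟩

lemma ramp_of_le {a b t : ℝ} (hab : a < b) (h : t ≤ a) : ramp a b t = 0 := by
  rw [ramp, max_eq_left (div_nonpos_of_nonpos_of_nonneg (by linarith) (by linarith))]
  exact min_eq_right zero_le_one

lemma ramp_of_ge {a b t : ℝ} (hab : a < b) (h : b ≤ t) : ramp a b t = 1 := by
  refine min_eq_left (le_max_of_le_right ?_)
  rw [le_div_iff₀ (by linarith)]; linarith

section Aux

variable {F : Type*} [CStarAlgebra F]

lemma genAlg_le_centralizer {s t : Set F} (h : ∀ x ∈ s, ∀ y ∈ t, Commute y x ∧ Commute (star y) x) :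
    genAlg s ≤ StarSubalgebra.centralizer ℂ t := by
  refine genAlg_le (by rw [StarSubalgebra.coe_centralizer]; exact Set.isClosed_centralizer _)
    fun x hx => ?_
  rw [SetLike.mem_coe, StarSubalgebra.mem_centralizer_iff]
  exact fun y hy => ⟨(h x hx y hy).1, (h x hx y hy).2⟩

lemma genAlg_comm {s : Set F} (hsa : ∀ x ∈ s, IsSelfAdjoint x)
    (hc : ∀ x ∈ s, ∀ y ∈ s, Commute x y) {x y : F} (hx : x ∈ genAlg s) (hy : y ∈ genAlg s) :
    x * y = y * x := by
  have h1 : ∀ z ∈ genAlg s, ∀ g ∈ s, Commute g z := fun z hz g hg =>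
    ((StarSubalgebra.mem_centralizer_iff ℂ).1
      (genAlg_le_centralizer (t := s) (fun a ha b hb =>
        ⟨hc b hb a ha, by rw [(hsa b hb).star_eq]; exact hc b hb a ha⟩) hz) g hg).1
  have h2 : genAlg s ≤ StarSubalgebra.centralizer ℂ {x} := genAlg_le_centralizer fun a ha b hb => by
    rw [Set.mem_singleton_iff.1 hb]
    exact ⟨(h1 x hx a ha).symm, (h1 _ (star_mem hx) a ha).symm⟩
  exact ((StarSubalgebra.mem_centralizer_iff ℂ).1 (h2 hy) x rfl).1

lemma list_prod_mul_eq {α : Type*} (l : List α) (f : α → F) {X : F} (h : ∀ a ∈ l, f a * X = X) :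
    (l.map f).prod * X = X := by
  induction l with
  | nil => simp
  | cons a l ih =>
    rw [List.map_cons, List.prod_cons, mul_assoc, ih fun b hb => h b (List.mem_cons_of_mem _ hb),
      h a List.mem_cons_self]

lemma IsOZ.map {D : Type*} [CStarAlgebra D] {ι : Type*} [Fintype ι] [DecidableEq ι]
    {φ : Matrix ι ι ℂ →ₗ[ℂ] D} (h : IsOZ φ) (ρ : D →⋆ₐ[ℂ] F) :
    IsOZ (ρ.toAlgHom.toLinearMap.comp φ) :=
  ⟨fun x => (map_star ρ (φ x)).symm.trans (congrArg ρ (h.star_map x)), fun x y =>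
    (map_mul ρ _ _).symm.trans ((congrArg ρ (h.mul_map x y)).trans (map_mul ρ _ _))⟩

variable [PartialOrder F] [StarOrderedRing F]

lemma unit_interval_mul {x y : F} (hx : 0 ≤ x ∧ x ≤ 1) (hy : 0 ≤ y ∧ y ≤ 1) (h : Commute x y) :
    0 ≤ x * y ∧ x * y ≤ 1 := by
  refine ⟨Commute.mul_nonneg hx.1 hy.1 h, ?_⟩
  rw [← sub_nonneg, show 1 - x * y = (1 - x) + x * (1 - y) by noncomm_ring]
  exact add_nonneg (sub_nonneg.2 hx.2)
    (Commute.mul_nonneg hx.1 (sub_nonneg.2 hy.2) ((Commute.one_right _).sub_right h))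

/-- The algebraic absorption identity. -/
lemma absorb {R : Type*} [CommRing R] {ι : Type*} [Fintype ι] [DecidableEq ι]
    (P1 P3 P4 z : ι → R) (j : ι) (h13 : ∀ i, P1 i * P3 i = P3 i) (h34 : ∀ i, P3 i * P4 i = P4 i)
    (hz : z j * (1 - P1 j) = 0) :
    z j * ∏ i, (1 - (P3 i + (1 - P3 i) * ∏ l ∈ univ.erase i, (1 - P4 l)) * P1 i) = 0 := by
  set N : ι → R := fun i => ∏ l ∈ univ.erase i, (1 - P4 l) with hN
  have e1 : ∀ i, 1 - (P3 i + (1 - P3 i) * N i) * P1 i = (1 - P3 i) * (1 - P1 i * N i) := by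
    intro i
    linear_combination (-1 : R) * h13 i
  rw [prod_congr rfl fun i _ => e1 i, prod_mul_distrib, ← mul_prod_erase univ (fun i => 1 - P1 i * N i)
    (mem_univ j)]
  have e2 : (∏ i, (1 - P3 i)) * N j = ∏ i, (1 - P3 i) := by
    rw [← mul_prod_erase univ (fun i => 1 - P3 i) (mem_univ j), hN, mul_assoc, ← prod_mul_distrib]
    congr 1
    exact prod_congr rfl fun i _ => by linear_combination h34 i
  calc z j * ((∏ i, (1 - P3 i)) * ((1 - P1 j * N j) * ∏ i ∈ univ.erase j, (1 - P1 i * N i)))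
      = z j * ((∏ i, (1 - P3 i)) - P1 j * ((∏ i, (1 - P3 i)) * N j)) *
          ∏ i ∈ univ.erase j, (1 - P1 i * N i) := by ring
    _ = z j * (1 - P1 j) * (∏ i, (1 - P3 i)) * ∏ i ∈ univ.erase j, (1 - P1 i * N i) := by
          rw [e2]; ring
    _ = 0 := by rw [hz, zero_mul, zero_mul]

end Aux

section Thresholds

variable (g : ℝ)

/-- The high ramp. -/
noncomputable def tξ : ℝ → ℝ := ramp g (2 * g)
/-- The low cut-off. -/
noncomputable def te : ℝ → ℝ := fun t => 1 - ramp (g / 4) (g / 2) t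
/-- The inverse used by a system. -/
noncomputable def tf : ℝ → ℝ := fun t => (max t (g / 4))⁻¹
/-- The unit of a system. -/
noncomputable def tp1 : ℝ → ℝ := fun t => tf g t * t
/-- The middle ramp. -/
noncomputable def tp3 : ℝ → ℝ := ramp (g / 2) (3 * g / 4)
/-- The upper middle ramp. -/
noncomputable def tp4 : ℝ → ℝ := ramp (3 * g / 4) g

lemma ctξ : Continuous (tξ g) := continuous_ramp _ _
lemma cte : Continuous (te g) := continuous_const.sub (continuous_ramp _ _)
lemma ctp3 : Continuous (tp3 g) := continuous_ramp _ _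
lemma ctp4 : Continuous (tp4 g) := continuous_ramp _ _

variable {g} (hg : 0 < g)
include hg

lemma ctf : Continuous (tf g) := Continuous.inv₀ (by fun_prop) fun t =>
  (lt_max_of_lt_right (by linarith : (0:ℝ) < g / 4)).ne'

lemma ctp1 : Continuous (tp1 g) := (ctf hg).mul continuous_id'

lemma tp1_one {t : ℝ} (ht : g / 4 ≤ t) : tp1 g t = 1 := by
  simp only [tp1, tf, max_eq_left ht]
  exact inv_mul_cancel₀ (by linarith)

lemma tp1_mem {t : ℝ} (ht : 0 ≤ t) : 0 ≤ tp1 g t ∧ tp1 g t ≤ 1 := by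
  have hm : 0 < max t (g / 4) := lt_max_of_lt_right (by linarith)
  refine ⟨mul_nonneg (inv_nonneg.2 hm.le) ht, ?_⟩
  simp only [tp1, tf]
  rw [inv_mul_le_iff₀ hm, mul_one]
  exact le_max_left _ _

lemma te_zero {t : ℝ} (ht : g / 2 ≤ t) : te g t = 0 := by
  simp [te, ramp_of_ge (by linarith : g / 4 < g / 2) ht]

lemma t13 (t : ℝ) : tp1 g t * tp3 g t = tp3 g t := by
  rcases le_or_gt t (g / 2) with h | h
  · simp [tp3, ramp_of_le (by linarith : g / 2 < 3 * g / 4) h]
  · rw [tp1_one hg (by linarith), one_mul]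

lemma t34 (t : ℝ) : tp3 g t * tp4 g t = tp4 g t := by
  rcases le_or_gt t (3 * g / 4) with h | h
  · simp [tp4, ramp_of_le (by linarith : 3 * g / 4 < g) h]
  · rw [tp3, ramp_of_ge (by linarith : g / 2 < 3 * g / 4) h.le, one_mul]

lemma t1e (t : ℝ) : (1 - te g t) * (1 - tp1 g t) = 0 := by
  rcases le_or_gt t (g / 4) with h | h
  · simp [te, ramp_of_le (by linarith : g / 4 < g / 2) h]
  · rw [tp1_one hg h.le, sub_self, mul_zero]

lemma t3e (t : ℝ) : tp3 g t * te g t = 0 := by
  rcases le_or_gt t (g / 2) with h | h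
  · simp [tp3, ramp_of_le (by linarith : g / 2 < 3 * g / 4) h]
  · rw [te_zero hg h.le, mul_zero]

lemma tξ_fix (t : ℝ) : te g t * tξ g t = 0 ∧ tp1 g t * tξ g t = tξ g t ∧
    tp3 g t * tξ g t = tξ g t ∧ tp4 g t * tξ g t = tξ g t := by
  rcases le_or_gt t g with h | h
  · simp [tξ, ramp_of_le (by linarith : g < 2 * g) h]
  · refine ⟨?_, ?_, ?_, ?_⟩
    · rw [te_zero hg (by linarith), zero_mul]
    · rw [tp1_one hg (by linarith), one_mul]
    · rw [tp3, ramp_of_ge (by linarith : g / 2 < 3 * g / 4) (by linarith), one_mul]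
    · rw [tp4, ramp_of_ge (by linarith : 3 * g / 4 < g) h.le, one_mul]

lemma tξ_close {t : ℝ} (t0 : 0 ≤ t) : |t - tξ g t * t * tξ g t| ≤ 2 * g := by
  rw [abs_le, tξ]
  obtain ⟨r0, r1⟩ := ramp_mem g (2 * g) t
  rcases le_or_gt (2 * g) t with h | h
  · rw [ramp_of_ge (by linarith) h]; constructor <;> linarith
  · have hsq : ramp g (2 * g) t * ramp g (2 * g) t ≤ 1 := mul_le_one₀ r1 r0 r1
    constructor <;> nlinarith [mul_self_nonneg (ramp g (2 * g) t)]

end Thresholds

section Central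

variable {D : Type*} [CStarAlgebra D]
variable {F : Type*} [CStarAlgebra F]
variable {k m : ℕ} (g : ℝ) (w : Fin k → D) (ρ : Fin m → (D →⋆ₐ[ℂ] F))

/-- The row's unit. -/
noncomputable def hh : D := ofRow w 1

/-- The normalised system of the row. -/
noncomputable def sys1 : Matrix (Fin k) (Fin k) ℂ →ₗ[ℂ] D :=
  (LinearMap.mulLeft ℂ (cfc (tf g) (hh w))).comp (ofRow w)

/-- The commutative algebra of the units of the copies. -/
noncomputable def cAlg : StarSubalgebra ℂ F := genAlg (Set.range fun i => ρ i (hh w))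

/-- A function of the unit of one copy. -/
noncomputable def cf (f : ℝ → ℝ) (i : Fin m) : F := ρ i (cfc f (hh w))

/-- No other copy is high. -/
noncomputable def nn (i : Fin m) : F :=
  ((univ.erase i).toList.map fun l => 1 - cf w ρ (tp4 g) l).prod

/-- The priority weight. -/
noncomputable def gg (i : Fin m) : F :=
  cf w ρ (tp3 g) i + (1 - cf w ρ (tp3 g) i) * nn g w ρ i

/-- The weighted systems. -/
noncomputable def sysA (i : Fin m) : Matrix (Fin k) (Fin k) ℂ →ₗ[ℂ] F :=
  (LinearMap.mulLeft ℂ (gg g w ρ i)).comp ((ρ i).toAlgHom.toLinearMap.comp (sys1 g w))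

/-- The combined system. -/
noncomputable def bigSys : Matrix (Fin k) (Fin k) ℂ →ₗ[ℂ] F :=
  fold ((List.finRange m).map (sysA g w ρ))

variable {g} {w} {ρ} {c : D} (hw : IsRow w c) (hρ : CommFam ρ) (hg : 0 < g)
include hw

lemma hh_sa : IsSelfAdjoint (hh w) := (isOZ_ofRow hw).unit_sa

lemma cf_mem {f : ℝ → ℝ} (hf : Continuous f) (i : Fin m) : cf w ρ f i ∈ cAlg w ρ := by
  rw [cf, StarAlgHom.map_cfc (ρ i) f _ hf.continuousOn (hom_continuous _) (hh_sa hw)
    ((hh_sa hw).map _)]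
  exact cfc_mem (hs := isClosed_genAlg _) f (subset_genAlg _ ⟨i, rfl⟩)

lemma nn_mem (i : Fin m) : nn g w ρ i ∈ cAlg w ρ :=
  list_prod_mem fun x hx => by
    obtain ⟨l, -, rfl⟩ := List.mem_map.1 hx
    exact sub_mem (one_mem _) (cf_mem hw (ctp4 g) l)

lemma gg_mem (i : Fin m) : gg g w ρ i ∈ cAlg w ρ :=
  add_mem (cf_mem hw (ctp3 g) i)
    (mul_mem (sub_mem (one_mem _) (cf_mem hw (ctp3 g) i)) (nn_mem hw i))

lemma sys1_oz : IsOZ (sys1 g w) :=
  (isOZ_ofRow hw).scale IsSelfAdjoint.cfc fun y => ((isOZ_ofRow hw).comm_unit y).cfc_real _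

include hρ

lemma cAlg_comm {x y : F} (hx : x ∈ cAlg w ρ) (hy : y ∈ cAlg w ρ) : x * y = y * x := by
  refine genAlg_comm ?_ ?_ hx hy
  · rintro _ ⟨i, rfl⟩; exact (hh_sa hw).map _
  · rintro _ ⟨i, rfl⟩ _ ⟨l, rfl⟩
    rcases eq_or_ne i l with rfl | h
    · exact Commute.refl _
    · exact hρ i l h _ _

lemma cAlg_comm_sys {u : F} (hu : u ∈ cAlg w ρ) (l : Fin m) (y : Matrix (Fin k) (Fin k) ℂ) :
    Commute u (ρ l (sys1 g w y)) := by
  have hle : cAlg w ρ ≤ StarSubalgebra.centralizer ℂ (Set.range fun y => ρ l (sys1 g w y)) := by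
    refine genAlg_le_centralizer ?_
    rintro _ ⟨i, rfl⟩ _ ⟨y, rfl⟩
    have hcl : ∀ y, Commute (ρ l (sys1 g w y)) (ρ i (hh w)) := fun y => by
      rcases eq_or_ne l i with rfl | h
      · refine Commute.map ?_ _
        exact ((Commute.refl (hh w)).cfc_real (tf g)).mul_left ((isOZ_ofRow hw).comm_unit y).symm
      · exact hρ l i h _ _
    exact ⟨hcl y, by rw [← map_star, (sys1_oz hw).star_map]; exact hcl _⟩
  exact ((StarSubalgebra.mem_centralizer_iff ℂ).1 (hle hu) _ ⟨y, rfl⟩).1.symm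

include hg

omit hρ in
lemma sysA_one (i : Fin m) : sysA g w ρ i 1 = gg g w ρ i * cf w ρ (tp1 g) i := by
  show gg g w ρ i * ρ i (cfc (tf g) (hh w) * hh w) = _
  have : cfc (tp1 g) (hh w) = cfc (tf g) (hh w) * hh w := by
    show cfc (fun t => tf g t * t) (hh w) = _
    rw [cfc_mul (tf g) (fun t => t) _ (ctf hg).continuousOn (continuousOn_id' _),
      cfc_id' ℝ (hh w) (hh_sa hw)]
  rw [cf, this]

variable [PartialOrder F] [StarOrderedRing F]

omit hρ hg in
lemma cf_unit {f : ℝ → ℝ} (hf : ∀ t, 0 ≤ t → 0 ≤ f t ∧ f t ≤ 1) (hfc : Continuous f) (i : Fin m) :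
    0 ≤ cf w ρ f i ∧ cf w ρ f i ≤ 1 := by
  rw [cf, StarAlgHom.map_cfc (ρ i) f _ hfc.continuousOn (hom_continuous _) (hh_sa hw)
    ((hh_sa hw).map _)]
  have h0 : 0 ≤ ρ i (hh w) := by
    rw [hh, ofRow_one, map_sum]
    exact sum_nonneg fun l _ => by rw [map_mul, map_star]; exact mul_star_self_nonneg _
  exact ⟨cfc_nonneg fun t ht => (hf t (spectrum_nonneg_of_nonneg h0 ht)).1,
    cfc_le_one f _ fun t ht => (hf t (spectrum_nonneg_of_nonneg h0 ht)).2⟩

omit hg in
lemma nn_unit (i : Fin m) : 0 ≤ nn g w ρ i ∧ nn g w ρ i ≤ 1 := by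
  have key : ∀ l : List (Fin m), 0 ≤ (l.map fun j => 1 - cf w ρ (tp4 g) j).prod ∧
      (l.map fun j => 1 - cf w ρ (tp4 g) j).prod ≤ 1 := by
    intro l
    induction l with
    | nil => simp
    | cons j l ih =>
      rw [List.map_cons, List.prod_cons]
      obtain ⟨h0, h1⟩ := cf_unit hw (fun t _ => ramp_mem _ _ t) (ctp4 g) j (ρ := ρ)
      refine unit_interval_mul ⟨sub_nonneg.2 h1, sub_le_self _ h0⟩ ih
        (cAlg_comm hw hρ (sub_mem (one_mem _) (cf_mem hw (ctp4 g) j)) (list_prod_mem fun x hx => ?_))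
      obtain ⟨l', -, rfl⟩ := List.mem_map.1 hx
      exact sub_mem (one_mem _) (cf_mem hw (ctp4 g) l')
  exact key _

omit hg in
lemma gg_unit (i : Fin m) : 0 ≤ gg g w ρ i ∧ gg g w ρ i ≤ 1 := by
  obtain ⟨h0, h1⟩ := cf_unit hw (fun t _ => ramp_mem _ _ t) (ctp3 g) i (ρ := ρ)
  obtain ⟨n0, n1⟩ := nn_unit (g := g) hw hρ i
  have hcm : Commute (1 - cf w ρ (tp3 g) i) (nn g w ρ i) :=
    cAlg_comm hw hρ (sub_mem (one_mem _) (cf_mem hw (ctp3 g) i)) (nn_mem hw i)
  refine ⟨add_nonneg h0 (Commute.mul_nonneg (sub_nonneg.2 h1) n0 hcm), ?_⟩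
  rw [gg, ← sub_nonneg, show 1 - (cf w ρ (tp3 g) i + (1 - cf w ρ (tp3 g) i) * nn g w ρ i)
    = (1 - cf w ρ (tp3 g) i) * (1 - nn g w ρ i) by noncomm_ring]
  exact Commute.mul_nonneg (sub_nonneg.2 h1) (sub_nonneg.2 n1) ((Commute.one_right _).sub_right hcm)

lemma sys_ok : FoldOK ((List.finRange m).map (sysA g w ρ)) := by
  refine ⟨fun y hy => ?_, ?_⟩
  · obtain ⟨i, -, rfl⟩ := List.mem_map.1 hy
    refine ⟨((sys1_oz hw).map (ρ i)).scale (IsSelfAdjoint.of_nonneg (gg_unit hw hρ i).1)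
      fun y => cAlg_comm_sys hw hρ (gg_mem hw i) i y, ?_⟩
    rw [sysA_one hw hg]
    exact unit_interval_mul (gg_unit hw hρ i) (cf_unit hw (fun t ht => tp1_mem hg ht) (ctp1 hg) i)
      (cAlg_comm hw hρ (gg_mem hw i) (cf_mem hw (ctp1 hg) i))
  · rw [List.pairwise_map]
    refine (List.nodup_finRange _).imp fun {i j} hij y y' => ?_
    show Commute (gg g w ρ i * ρ i (sys1 g w y)) (gg g w ρ j * ρ j (sys1 g w y'))
    have a1 : Commute (gg g w ρ i) (gg g w ρ j) := cAlg_comm hw hρ (gg_mem hw i) (gg_mem hw j)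
    exact (a1.mul_right (cAlg_comm_sys hw hρ (gg_mem hw i) j y')).mul_left
      ((cAlg_comm_sys hw hρ (gg_mem hw j) i y).symm.mul_right (hρ i j hij _ _))

/-- The low cut-off of each copy is absorbed by the defect. -/
lemma cutoff_absorb (j : Fin m) :
    (1 - cf w ρ (te g) j) * (1 - bigSys g w ρ 1) = 0 := by
  let : CommRing (cAlg w ρ) := { (inferInstance : Ring (cAlg w ρ)) with
    mul_comm := fun u v => Subtype.ext (cAlg_comm hw hρ u.2 v.2) }
  let P1 : Fin m → cAlg w ρ := fun i => ⟨_, cf_mem hw (ctp1 hg) i⟩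
  let P3 : Fin m → cAlg w ρ := fun i => ⟨_, cf_mem hw (ctp3 g) i⟩
  let P4 : Fin m → cAlg w ρ := fun i => ⟨_, cf_mem hw (ctp4 g) i⟩
  let Pe : Fin m → cAlg w ρ := fun i => 1 - ⟨_, cf_mem hw (cte g) i⟩
  have hprod : ∀ (f f' f'' : ℝ → ℝ), Continuous f → Continuous f' → (∀ t, f t * f' t = f'' t) →
      ∀ i, cf w ρ f i * cf w ρ f' i = cf w ρ f'' i := fun f f' f'' hf hf' he i => by
    rw [cf, cf, cf, ← map_mul, ← cfc_mul f f' _ hf.continuousOn hf'.continuousOn, funext he]
  have h13 : ∀ i, P1 i * P3 i = P3 i := fun i =>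
    Subtype.ext (hprod _ _ _ (ctp1 hg) (ctp3 g) (t13 hg) i)
  have h34 : ∀ i, P3 i * P4 i = P4 i := fun i =>
    Subtype.ext (hprod _ _ _ (ctp3 g) (ctp4 g) (t34 hg) i)
  have h1e : Pe j * (1 - P1 j) = 0 := Subtype.ext (by
    show (1 - cf w ρ (te g) j) * (1 - cf w ρ (tp1 g) j) = 0
    rw [cf, cf, ← map_one (ρ j), ← map_sub, ← map_sub, ← map_mul,
      ← cfc_one ℝ (hh w) (hh_sa hw),
      ← cfc_sub (1 : ℝ → ℝ) (te g) _ continuousOn_const (cte g).continuousOn,
      ← cfc_sub (1 : ℝ → ℝ) (tp1 g) _ continuousOn_const (ctp1 hg).continuousOn,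
      ← cfc_mul (fun t => (1 : ℝ → ℝ) t - te g t) (fun t => (1 : ℝ → ℝ) t - tp1 g t) _
        (continuous_const.sub (cte g)).continuousOn (continuous_const.sub (ctp1 hg)).continuousOn,
      show (fun t => ((1 : ℝ → ℝ) t - te g t) * ((1 : ℝ → ℝ) t - tp1 g t)) = fun _ => 0 from
        funext (t1e hg), cfc_const_zero, map_zero])
  refine mul_fold_defect (sys_ok hw hρ hg) ?_ fun y hy => ?_
  · have := congrArg (cAlg w ρ).subtype (absorb P1 P3 P4 Pe j h13 h34 h1e)
    rw [map_mul, map_zero, Fin.prod_univ_def, map_list_prod, List.map_map] at this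
    rw [List.map_map]
    refine Eq.trans ?_ this
    refine congrArg₂ (fun u v => u * List.prod v) rfl (List.map_congr_left fun i _ => ?_)
    simp only [Function.comp_apply, map_sub, map_one, map_mul, map_add]
    rw [sysA_one hw hg, gg, nn, ← prod_map_toList, map_list_prod, List.map_map]
    rfl
  · obtain ⟨i, -, rfl⟩ := List.mem_map.1 hy
    rw [sysA_one hw hg]
    exact cAlg_comm hw hρ (sub_mem (one_mem _) (cf_mem hw (cte g) j))
      (mul_mem (gg_mem hw i) (cf_mem hw (ctp1 hg) i))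

/-- Action on an element supported by a pattern. -/
lemma bigSys_fix {W : F} (A : Finset (Fin m)) {j0 : Fin m} (hj0 : j0 ∈ A)
    (hmin : ∀ j ∈ A, j0 ≤ j) (h1 : cf w ρ (tp1 g) j0 * W = W) (h3 : cf w ρ (tp3 g) j0 * W = W)
    (h4 : cf w ρ (tp4 g) j0 * W = W) (hoff : ∀ j ∉ A, cf w ρ (tp3 g) j * W = 0)
    {x : Matrix (Fin k) (Fin k) ℂ} (hx : ρ j0 (sys1 g w x) * W = W) :
    bigSys g w ρ x * W = W := by
  have hkill : ∀ j, j ∉ A → gg g w ρ j * W = 0 := by
    intro j hj
    have hN : nn g w ρ j * W = 0 := by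
      obtain ⟨l1, l2, e⟩ := List.append_of_mem (a := j0) (l := (univ.erase j).toList)
        (mem_toList.2 (mem_erase.2 ⟨fun e => hj (e ▸ hj0), mem_univ _⟩))
      have hmem : ∀ l : List (Fin m), (l.map fun i => 1 - cf w ρ (tp4 g) i).prod ∈ cAlg w ρ :=
        fun l => list_prod_mem fun y hy => by
          obtain ⟨i, -, rfl⟩ := List.mem_map.1 hy
          exact sub_mem (one_mem _) (cf_mem hw (ctp4 g) i)
      rw [nn, e, List.map_append, List.map_cons, List.prod_append, List.prod_cons,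
        cAlg_comm hw hρ (sub_mem (one_mem _) (cf_mem hw (ctp4 g) j0)) (hmem l2), ← mul_assoc,
        mul_assoc _ (1 - cf w ρ (tp4 g) j0) W, sub_mul, one_mul, h4, sub_self, mul_zero]
    rw [gg, add_mul, mul_assoc, hN, hoff j hj, mul_zero, add_zero]
  have hG0 : gg g w ρ j0 * W = W := by
    rw [gg, cAlg_comm hw hρ (sub_mem (one_mem _) (cf_mem hw (ctp3 g) j0)) (nn_mem hw j0), add_mul,
      mul_assoc, sub_mul, one_mul, h3, sub_self, mul_zero, add_zero]
  obtain ⟨l1, l2, hsplit⟩ := List.append_of_mem (List.mem_finRange j0)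
  have hl1 : ∀ j ∈ l1, j ∉ A := by
    intro j hj hjA
    have hpw : (List.finRange m).Pairwise (· < ·) := List.pairwise_lt_finRange m
    rw [hsplit, List.pairwise_append] at hpw
    exact absurd (hpw.2.2 j hj j0 List.mem_cons_self) (not_lt.2 (hmin j hjA))
  have hl : (List.finRange m).map (sysA g w ρ) =
      l1.map (sysA g w ρ) ++ sysA g w ρ j0 :: l2.map (sysA g w ρ) := by rw [hsplit]; simp
  have hok := sys_ok (g := g) hw hρ hg
  rw [hl] at hok
  rw [bigSys, hl, fold_mul hok (fun y hy => ?_) (by rw [sysA_one hw hg, mul_assoc, h1, hG0]) x]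
  · show gg g w ρ j0 * ρ j0 (sys1 g w x) * W = W
    rw [mul_assoc, hx, hG0]
  · obtain ⟨j, hj, rfl⟩ := List.mem_map.1 hy
    rw [sysA_one hw hg, cAlg_comm hw hρ (gg_mem hw j) (cf_mem hw (ctp1 hg) j), mul_assoc,
      hkill j (hl1 j hj), mul_zero]

end Central

section Blocks

variable {D : Type*} [CStarAlgebra D]
variable {F : Type*} [CStarAlgebra F] [PartialOrder F] [StarOrderedRing F]
variable {k n m : ℕ} [NeZero k]

/-- Patterns: `n + 1` copies and a choice of one summand. -/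
abbrev Pat (n m : ℕ) : Type := {A : Finset (Fin m) // A.card = n + 1} × Fin n

/-- The label of a copy in a pattern. -/
noncomputable def lab (hk : 2 ≤ k) (p : Pat n m) (j : Fin m) : Fin k :=
  if j = p.1.1.orderEmbOfFin p.1.2 p.2.succ then ⟨1, hk⟩ else 0

/-- The factors of a block. -/
noncomputable def blockFac (hk : 2 ≤ k) (q : Fin k → D) (b : Fin n → D) (p : Pat n m) (o : D)
    (j : Fin m) : D :=
  if j ∈ p.1.1 then q (lab hk p j) * b p.2 else o

variable (hk : 2 ≤ k) {q : Fin k → D} {c' : D} {b : Fin n → D} {ρ : Fin m → (D →⋆ₐ[ℂ] F)}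
variable (hρ : CommFam ρ) (hq : IsRow q c') {e : D}
include hρ hq

omit [PartialOrder F] [StarOrderedRing F] in
lemma block_orth (heq : ∀ i, star (q i) * e = 0) {p p' : Pat n m} (hne : p ≠ p') :
    star (piProd ρ (blockFac hk q b p e)) * piProd ρ (blockFac hk q b p' e) = 0 := by
  rw [piProd_star hρ, piProd_mul hρ]
  obtain ⟨⟨A, hA'⟩, a⟩ := p
  obtain ⟨⟨A', hA''⟩, a'⟩ := p'
  by_cases hA : A = A'
  · subst hA
    have ha : a ≠ a' := fun e => hne (by rw [e])
    refine piProd_eq_zero (A.orderEmbOfFin hA' a.succ) ?_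
    have hm : A.orderEmbOfFin hA' a.succ ∈ A := orderEmbOfFin_mem _ _ _
    simp only [blockFac, lab, Pi.mul_apply, Pi.star_apply, if_pos hm, if_true]
    rw [if_neg fun e' => ha (Fin.succ_injective _ ((A.orderEmbOfFin hA').injective e')),
      star_mul, mul_assoc, ← mul_assoc (star (q _)), hq _ _, if_neg, zero_mul, mul_zero]
    intro e'
    simpa using congrArg Fin.val e'
  · obtain ⟨j, hj, hj'⟩ : ∃ j, j ∈ A ∧ j ∉ A' := by
      by_contra! hno
      exact hA (eq_of_subset_of_card_le hno (by rw [hA', hA'']))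
    refine piProd_eq_zero j ?_
    simp only [blockFac, Pi.mul_apply, Pi.star_apply, if_pos hj, if_neg hj', star_mul]
    rw [mul_assoc, heq, mul_zero]

/-- The blocks dominate the unit. -/
lemma block_dom (hm : n * n < m) (hb : ∑ i, star (b i) * c' * b i = 1) :
    (1 : F) ≤ (Fintype.card (Fin m → Fin n) : ℝ) • ∑ p : Pat n m,
      star (piProd ρ (blockFac hk q b p 1)) * piProd ρ (blockFac hk q b p 1) := by
  let Bf : Fin n → D := fun i => star (q 0 * b i) * (q 0 * b i)
  have hBf : ∀ i, Bf i = star (b i) * c' * b i := fun i => by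
    show star (q 0 * b i) * (q 0 * b i) = _
    rw [star_mul, mul_assoc, ← mul_assoc (star (q 0)), hq 0 0, if_pos rfl, mul_assoc]
  have hBsum : ∑ i, Bf i = 1 := by rw [sum_congr rfl fun i _ => hBf i]; exact hb
  let π : (Fin m → Fin n) → F := fun r => piProd ρ fun j => Bf (r j)
  have hπ0 : ∀ r, 0 ≤ π r := fun r => by
    have : π r = star (piProd ρ fun j => q 0 * b (r j)) * piProd ρ fun j => q 0 * b (r j) := by
      rw [piProd_star hρ, piProd_mul hρ]; rfl
    rw [this]
    exact star_mul_self_nonneg _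
  have hπ1 : ∑ r, π r = 1 := by
    rw [← (piProd ρ).map_sum (fun (_ : Fin m) i => Bf i)]
    simp only [hBsum]
    exact piProd_one
  let P : Pat n m → F := fun p =>
    star (piProd ρ (blockFac hk q b p 1)) * piProd ρ (blockFac hk q b p 1)
  have hP : ∀ p, P p = piProd ρ fun j => if j ∈ p.1.1 then Bf p.2 else 1 := fun p => by
    show star (piProd ρ _) * piProd ρ _ = _
    rw [piProd_star hρ, piProd_mul hρ]
    congr 1
    funext j
    simp only [blockFac, Pi.mul_apply, Pi.star_apply]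
    split_ifs with hj
    · rw [hBf, star_mul, mul_assoc, ← mul_assoc (star (q _)), hq _ _, if_pos rfl, mul_assoc]
    · simp
  have hdom : ∀ r, ∃ p, π r ≤ P p := by
    intro r
    obtain ⟨a0, ha0⟩ := Fintype.exists_lt_card_fiber_of_mul_lt_card r (n := n) (by simpa using hm)
    obtain ⟨A, hA, hAc⟩ := exists_subset_card_eq (Nat.succ_le_of_lt ha0)
    refine ⟨(⟨A, hAc⟩, a0), ?_⟩
    have e : P (⟨A, hAc⟩, a0) =
        ∑ r' ∈ Fintype.piFinset (fun j => if j ∈ A then {a0} else univ), π r' := by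
      rw [hP]
      refine Eq.trans ?_ ((piProd ρ).map_sum_finset (fun (_ : Fin m) i => Bf i) _)
      congr 1
      funext j
      dsimp only
      split_ifs
      · rw [sum_singleton]
      · rw [hBsum]
    rw [e]
    refine single_le_sum (fun r' _ => hπ0 r') (Fintype.mem_piFinset.2 fun j => ?_)
    split_ifs with hj
    · exact mem_singleton.2 (mem_filter.1 (hA hj)).2
    · exact mem_univ _
  choose pr hpr using hdom
  rw [← hπ1, Nat.cast_smul_eq_nsmul, ← card_univ, ← sum_const]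
  exact sum_le_sum fun r _ => (hpr r).trans
    (single_le_sum (f := P) (fun p _ => star_mul_self_nonneg _) (mem_univ _))

end Blocks

section Core

variable {D : Type*} [CStarAlgebra D] [PartialOrder D] [StarOrderedRing D]
variable {F : Type*} [CStarAlgebra F] [PartialOrder F] [StarOrderedRing F]

/-- The seed, from a row of length at least two and enough commuting copies. -/
theorem exists_seed_core {k : ℕ} [NeZero k] (hk : 2 ≤ k) {n : ℕ} (w : Fin k → D) (c : D)
    (b : Fin n → D) (hw : IsRow w c) (hb : ∑ i, star (b i) * c * b i = 1)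
    (ρ : Fin (n * n + 1) → (D →⋆ₐ[ℂ] F)) (hρ : CommFam ρ) :
    ∃ (φ : Matrix (Fin k) (Fin k) ℂ →ₗ[ℂ] F) (s : F), Seed φ s := by
  have hcw : c = star (w 0) * w 0 := by simp [hw 0 0]
  have hc0 : 0 ≤ c := hcw ▸ star_mul_self_nonneg _
  have hcs : IsSelfAdjoint c := .of_nonneg hc0
  set S := ∑ i, ‖b i‖ ^ 2
  have hS : 0 ≤ S := sum_nonneg fun i _ => sq_nonneg _
  obtain ⟨g, hg, hgS⟩ : ∃ g : ℝ, 0 < g ∧ S * (2 * g) ≤ 1 / 2 := by
    refine ⟨1 / (4 * (S + 1)), by positivity, ?_⟩
    rw [mul_one_div, ← mul_div_assoc, div_le_div_iff₀ (by positivity) two_pos]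
    nlinarith
  have hHs : IsSelfAdjoint (hh w) := hh_sa hw
  set x := cfc (tξ g) c with hx
  have hxs : IsSelfAdjoint x := IsSelfAdjoint.cfc
  set q : Fin k → D := fun i => w i * x with hq
  set c' := x * c * x with hc'
  have hc's : IsSelfAdjoint c' := by
    show star (x * c * x) = _
    rw [star_mul, star_mul, hxs.star_eq, hcs.star_eq]
    exact (mul_assoc _ _ _).symm
  have hqq : IsRow q c' := fun i l => by
    simp only [hq, star_mul, hxs.star_eq]
    rw [mul_assoc, ← mul_assoc (star (w i)), hw i l]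
    split_ifs
    · exact (mul_assoc _ _ _).symm
    · simp
  have hclose : S * ‖c - c'‖ ≤ 1 / 2 := by
    have hξ := ctξ g
    have e : c - c' = cfc (fun t => t - tξ g t * t * tξ g t) c := by
      rw [cfc_sub (fun t => t) (fun t => tξ g t * t * tξ g t) c (by fun_prop)
        ((hξ.mul continuous_id').mul hξ).continuousOn, cfc_id' ℝ c,
        cfc_mul (fun t => tξ g t * t) (tξ g) c (hξ.mul continuous_id').continuousOn hξ.continuousOn,
        cfc_mul (tξ g) (fun t => t) c hξ.continuousOn (continuousOn_id' _), cfc_id' ℝ c]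
    refine (mul_le_mul_of_nonneg_left ?_ hS).trans hgS
    rw [e]
    exact norm_cfc_le (by linarith) fun t ht =>
      (Real.norm_eq_abs _).trans_le (tξ_close hg (spectrum_nonneg_of_nonneg hc0 ht))
  obtain ⟨b', hb'⟩ := exists_sum_eq_one_perturb b hc's hb hclose
  have hint : ∀ (f : ℝ → ℝ), Continuous f → ∀ i,
      cfc f (hh w) * q i = w i * cfc (fun t => f t * tξ g t) c := by
    intro f hf i
    rw [hq, ← mul_assoc, cfc_intertwine hHs hcs (unit_mul_row hw i) f hf, mul_assoc,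
      ← cfc_mul f (tξ g) c hf.continuousOn (ctξ g).continuousOn]
  have hfix : ∀ (f : ℝ → ℝ), Continuous f → (∀ t, f t * tξ g t = tξ g t) →
      ∀ i, cfc f (hh w) * q i = q i := by
    intro f hf hfξ i
    rw [hint f hf i, funext hfξ]
  set Φ := bigSys g w ρ with hΦd
  obtain ⟨hΦ, hΦ0, hΦ1⟩ := fold_spec (sys_ok (g := g) hw hρ hg)
  set E := 1 - Φ 1 with hE
  set X := cfc Real.sqrt E with hX
  have hE0 : 0 ≤ E := sub_nonneg.2 hΦ1
  have hXs : IsSelfAdjoint X := IsSelfAdjoint.cfc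
  have hXX : X * X = E := by
    rw [hX, ← cfc_mul _ _ E]
    exact (cfc_congr fun t ht => Real.mul_self_sqrt (spectrum_nonneg_of_nonneg hE0 ht)).trans
      (cfc_id' ℝ E (IsSelfAdjoint.of_nonneg hE0))
  have habs : ∀ j, cf w ρ (te g) j * X = X := fun j => by
    have h0 : (1 - cf w ρ (te g) j) * E = 0 := cutoff_absorb hw hρ hg j
    have h1 : (1 - cf w ρ (te g) j) * X = 0 := by
      rw [← CStarRing.mul_star_self_eq_zero_iff, star_mul, hXs.star_eq, mul_assoc, ← mul_assoc X,
        hXX, ← mul_assoc, h0, zero_mul]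
    rw [sub_mul, one_mul, sub_eq_zero] at h1
    exact h1.symm
  set e := cfc (te g) (hh w) with he
  let W : Pat n (n * n + 1) → F := fun p => piProd ρ (blockFac hk q b' p e)
  let W' : Pat n (n * n + 1) → F := fun p => piProd ρ (blockFac hk q b' p 1)
  have hWX : ∀ p, W p * X = W' p * X := fun p => by
    have e1 : W p = W' p * piProd ρ (fun j => if j ∈ p.1.1 then 1 else e) := by
      rw [piProd_mul hρ]
      show piProd ρ _ = _
      congr 1
      funext j
      simp only [blockFac, Pi.mul_apply]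
      split_ifs <;> simp
    rw [e1, mul_assoc, piProd_apply, List.ofFn_eq_map]
    congr 1
    refine list_prod_mul_eq _ _ fun j _ => ?_
    split_ifs
    · rw [map_one, one_mul]
    · exact habs j
  have heq : ∀ i, star (q i) * e = 0 := fun i => by
    have h : e * q i = 0 := by
      rw [he, hint _ (cte g) i, funext fun t => (tξ_fix hg t).1, cfc_const_zero, mul_zero]
    have := congrArg star h
    rwa [star_mul, star_zero, (IsSelfAdjoint.cfc : IsSelfAdjoint e).star_eq] at this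
  set M : ℕ := Fintype.card (Fin (n * n + 1) → Fin n)
  set s : F := Real.sqrt (M : ℝ) • (∑ p, W p) * X with hs
  have hss : star s * s = X * ((M : ℝ) • ∑ p, star (W' p) * W' p) * X := by
    have h2 : star (∑ p, W p) * ∑ p, W p = ∑ p, star (W p) * W p := by
      rw [star_sum, sum_mul_sum]
      refine sum_congr rfl fun p _ => Finset.sum_eq_single p
        (fun p' _ h => block_orth hk hρ hqq heq h.symm) ?_
      simp
    rw [hs, smul_mul_assoc, star_smul, star_trivial, smul_mul_smul_comm,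
      Real.mul_self_sqrt (Nat.cast_nonneg M), mul_smul_comm, smul_mul_assoc, star_mul, hXs.star_eq]
    congr 1
    calc X * star (∑ p, W p) * ((∑ p, W p) * X)
        = X * (star (∑ p, W p) * ∑ p, W p) * X := by simp only [mul_assoc]
      _ = ∑ p, star (W p * X) * (W p * X) := by
          rw [h2, mul_sum, sum_mul]
          exact sum_congr rfl fun p _ => by rw [star_mul, hXs.star_eq]; simp only [mul_assoc]
      _ = ∑ p, star (W' p * X) * (W' p * X) := by simp only [hWX]
      _ = X * (∑ p, star (W' p) * W' p) * X := by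
          rw [mul_sum, sum_mul]
          exact sum_congr rfl fun p _ => by rw [star_mul, hXs.star_eq]; simp only [mul_assoc]
  have hle : X * X ≤ star s * s := by
    rw [hss]
    have := hXs.conjugate_le_conjugate (block_dom hk hρ hqq (Nat.lt_succ_self _) hb')
    rw [mul_one] at this
    exact this
  have hW : ∀ p, Φ (Matrix.single 0 0 1) * W p = W p := by
    intro p
    set A := p.1.1
    set j0 := A.orderEmbOfFin p.1.2 0 with hj0
    have hj0m : j0 ∈ A := orderEmbOfFin_mem _ _ _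
    have hu0 : lab hk p j0 = 0 := if_neg fun e =>
      (Fin.succ_ne_zero p.2) ((A.orderEmbOfFin p.1.2).injective e).symm
    have hact : ∀ (j : Fin (n * n + 1)) (y : D),
        y * blockFac hk q b' p e j = blockFac hk q b' p e j → ρ j y * W p = W p := fun j y h => by
      show ρ j y * piProd ρ _ = piProd ρ _
      rw [proj_mul_piProd hρ, h, Function.update_eq_self]
    have hfix' : ∀ (f : ℝ → ℝ), Continuous f → (∀ t, f t * tξ g t = tξ g t) →
        cf w ρ f j0 * W p = W p := fun f hf h => hact j0 _ (by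
      simp only [blockFac, if_pos hj0m, A]
      rw [← mul_assoc, hfix f hf h])
    refine bigSys_fix hw hρ hg A hj0m (fun j hj => ?_)
      (hfix' _ (ctp1 hg) fun t => (tξ_fix hg t).2.1) (hfix' _ (ctp3 g) fun t => (tξ_fix hg t).2.2.1)
      (hfix' _ (ctp4 g) fun t => (tξ_fix hg t).2.2.2) (fun j hj => ?_) ?_
    · rw [hj0, show (0 : Fin (n + 1)) = ⟨0, Nat.succ_pos n⟩ from rfl,
        orderEmbOfFin_zero p.1.2 (Nat.succ_pos n)]
      exact min'_le _ _ hj
    · show ρ j _ * piProd ρ _ = 0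
      rw [proj_mul_piProd hρ]
      refine piProd_eq_zero j ?_
      rw [Function.update_self, show blockFac hk q b' p e j = e from if_neg hj, he,
        ← cfc_mul (tp3 g) (te g) _ (ctp3 g).continuousOn (cte g).continuousOn,
        funext (t3e hg), cfc_const_zero]
    · refine hact j0 _ ?_
      simp only [blockFac, if_pos hj0m, A, hu0]
      rw [← mul_assoc]
      congr 1
      show cfc (tf g) (hh w) * ofRow w (Matrix.single 0 0 1) * q 0 = q 0
      rw [ofRow_single, hq]
      calc cfc (tf g) (hh w) * (w 0 * star (w 0)) * (w 0 * x)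
          = cfc (tf g) (hh w) * (w 0 * (star (w 0) * w 0)) * x := by simp only [mul_assoc]
        _ = cfc (tf g) (hh w) * (w 0 * c) * x := by rw [← hcw]
        _ = cfc (tf g) (hh w) * (hh w * w 0) * x := by rw [hh, unit_mul_row hw]
        _ = cfc (tp1 g) (hh w) * (w 0 * x) := by
            show _ = cfc (fun t => tf g t * t) (hh w) * _
            rw [cfc_mul (tf g) (fun t => t) _ (ctf hg).continuousOn (continuousOn_id' _),
              cfc_id' ℝ (hh w) hHs]
            simp only [mul_assoc]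
        _ = w 0 * x := hfix _ (ctp1 hg) (fun t => (tξ_fix hg t).2.1) 0
  have hfixs : Φ (Matrix.single 0 0 1) * s = s := by
    rw [hs, smul_mul_assoc, mul_smul_comm, ← mul_assoc, mul_sum]
    simp only [hW]
  obtain ⟨s', hs', hfix''⟩ := exists_exact hXs hle hfixs
  exact ⟨Φ, s', hΦ, hΦ0, hs'.trans hXX, hfix''⟩

end Core

variable {F : Type*} [CStarAlgebra F] [PartialOrder F] [StarOrderedRing F]

/-- In a re-indexable algebra without characters there are seeds of every size. -/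
theorem exists_seed (hR : Reindex F) (h : IsEmpty (F →⋆ₐ[ℂ] ℂ)) {k : ℕ} [NeZero k] (hk : 2 ≤ k) :
    ∃ (φ : Matrix (Fin k) (Fin k) ℂ →ₗ[ℂ] F) (s : F), Seed φ s := by
  obtain ⟨w, c, n, b, hw, hb⟩ := exists_row hR h k
  set D := genAlg (Set.range w ∪ {c} ∪ Set.range b) with hDd
  have hD : IsClosed (D : Set F) := isClosed_genAlg _
  let := subCStar D hD
  let : PartialOrder D := CStarAlgebra.spectralOrder D
  have : StarOrderedRing D := CStarAlgebra.spectralOrderedRing D
  have hDs : IsSeparable (D : Set F) :=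
    isSeparable_genAlg (((Set.finite_range w).union (Set.finite_singleton c)).union
      (Set.finite_range b)).countable.isSeparable
  let w0 : Fin k → D := fun i => ⟨w i, subset_genAlg _ (Or.inl (Or.inl ⟨i, rfl⟩))⟩
  let c0 : D := ⟨c, subset_genAlg _ (Or.inl (Or.inr rfl))⟩
  let b0 : Fin n → D := fun i => ⟨b i, subset_genAlg _ (Or.inr ⟨i, rfl⟩)⟩
  have hw0 : IsRow w0 c0 := fun i l => Subtype.ext (by
    refine (hw i l).trans ?_
    split_ifs <;> rfl)
  have hb0 : ∑ i, star (b0 i) * c0 * b0 i = 1 := Subtype.ext (by simpa [b0, c0] using hb)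
  obtain ⟨ρ, hρ, -⟩ := exists_copies hR D hDs ∅ Set.countable_empty (n * n + 1)
  exact exists_seed_core hk w0 c0 b0 hw0 hb0 ρ hρ

/-- In a re-indexable algebra without characters there are complementary commuting systems of
sizes `k` and `k + 1`. -/
theorem exists_pair_of_noChar (hR : Reindex F) (h : IsEmpty (F →⋆ₐ[ℂ] ℂ)) {k : ℕ} [NeZero k]
    (hk : 2 ≤ k) :
    ∃ (P : Matrix (Fin k) (Fin k) ℂ →ₗ[ℂ] F) (Q : Matrix (Fin (k + 1)) (Fin (k + 1)) ℂ →ₗ[ℂ] F),
      IsOZ P ∧ IsOZ Q ∧ (∀ x y, Commute (P x) (Q y)) ∧ P 1 + Q 1 = 1 ∧ 0 ≤ Q 1 ∧ Q 1 ≤ 1 := by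
  obtain ⟨φ, s, hs⟩ := exists_seed hR h hk
  exact exists_pair hs

end Vale.Agent.P101
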